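import Vale.Agent.Lib.P205E.EDefs

/-! # P205E module FrameA: existence of the frame

`f₁, f₂, f₂₂` are linearly independent on the closed square, hence on an open neighbourhood `O'` of it (the Gram
determinant is continuous).  `T2, n1`: dual basis of `(f₂, f₂₂)` in their span (2x2 Gram matrix); `k2 = f₁.T2`,
`k1 = f₁.n1`, `z = f₁ - k2 f₂ - k1 f₂₂ ≠ 0`, `ze = |z|`, `zh = z/|z|`; `yh` = normalised cross product of `f₁, f₂, f₂₂`
(a fixed trilinear expression in the coordinates of `ℝ⁴`, orthogonal to all three); `nh` = the vector in the span of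
`f₁, f₂, f₂₂` dual to `f₂₂`, e.g. `nh = n1 - (k1/ze) zh`. -/

open scoped ContDiff
open Set

namespace P205F.EE

private noncomputable def frA_g (b c : F4) : ℝ := inner ℝ b b * inner ℝ c c - inner ℝ b c ^ 2

private noncomputable def frA_T (b c : F4) : F4 :=
  (frA_g b c)⁻¹ • ((inner ℝ c c : ℝ) • b - (inner ℝ b c : ℝ) • c)

private noncomputable def frA_n (b c : F4) : F4 :=
  (frA_g b c)⁻¹ • ((inner ℝ b b : ℝ) • c - (inner ℝ b c : ℝ) • b)

private noncomputable def frA_z (a b c : F4) : F4 :=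
  a - (inner ℝ a (frA_T b c) : ℝ) • b - (inner ℝ a (frA_n b c) : ℝ) • c

private def frA_w (a b c : F4) : F4 :=
  !₂[a 1 * (b 2 * c 3 - b 3 * c 2) - a 2 * (b 1 * c 3 - b 3 * c 1) + a 3 * (b 1 * c 2 - b 2 * c 1),
    -(a 0 * (b 2 * c 3 - b 3 * c 2) - a 2 * (b 0 * c 3 - b 3 * c 0) +
      a 3 * (b 0 * c 2 - b 2 * c 0)),
    a 0 * (b 1 * c 3 - b 3 * c 1) - a 1 * (b 0 * c 3 - b 3 * c 0) + a 3 * (b 0 * c 1 - b 1 * c 0),
    -(a 0 * (b 1 * c 2 - b 2 * c 1) - a 1 * (b 0 * c 2 - b 2 * c 0) +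
      a 2 * (b 0 * c 1 - b 1 * c 0))]

private theorem frA_ip (a b : F4) :
    (inner ℝ a b : ℝ) = a 0 * b 0 + a 1 * b 1 + a 2 * b 2 + a 3 * b 3 := by
  simp only [PiLp.inner_apply, Fin.sum_univ_four, RCLike.inner_apply, conj_trivial]
  ring

private theorem frA_w0 (a b c : F4) : frA_w a b c 0 =
    a 1 * (b 2 * c 3 - b 3 * c 2) - a 2 * (b 1 * c 3 - b 3 * c 1) +
      a 3 * (b 1 * c 2 - b 2 * c 1) := rfl

private theorem frA_w1 (a b c : F4) : frA_w a b c 1 =
    -(a 0 * (b 2 * c 3 - b 3 * c 2) - a 2 * (b 0 * c 3 - b 3 * c 0) +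
      a 3 * (b 0 * c 2 - b 2 * c 0)) := rfl

private theorem frA_w2 (a b c : F4) : frA_w a b c 2 =
    a 0 * (b 1 * c 3 - b 3 * c 1) - a 1 * (b 0 * c 3 - b 3 * c 0) +
      a 3 * (b 0 * c 1 - b 1 * c 0) := rfl

private theorem frA_w3 (a b c : F4) : frA_w a b c 3 =
    -(a 0 * (b 1 * c 2 - b 2 * c 1) - a 1 * (b 0 * c 2 - b 2 * c 0) +
      a 2 * (b 0 * c 1 - b 1 * c 0)) := rfl

private theorem frA_orth1 (a b c : F4) : (inner ℝ a (frA_w a b c) : ℝ) = 0 := by
  rw [frA_ip, frA_w0, frA_w1, frA_w2, frA_w3]; ring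

private theorem frA_orth2 (a b c : F4) : (inner ℝ b (frA_w a b c) : ℝ) = 0 := by
  rw [frA_ip, frA_w0, frA_w1, frA_w2, frA_w3]; ring

private theorem frA_orth3 (a b c : F4) : (inner ℝ c (frA_w a b c) : ℝ) = 0 := by
  rw [frA_ip, frA_w0, frA_w1, frA_w2, frA_w3]; ring

private theorem frA_gram (a b c : F4) : (inner ℝ (frA_w a b c) (frA_w a b c) : ℝ) =
    inner ℝ a a * frA_g b c - (inner ℝ a b ^ 2 * inner ℝ c c -
      2 * inner ℝ a b * inner ℝ b c * inner ℝ a c + inner ℝ a c ^ 2 * inner ℝ b b) := by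
  rw [frA_g, frA_ip, frA_w0, frA_w1, frA_w2, frA_w3]
  simp only [frA_ip]
  ring

private theorem frA_g_pos (a b c : F4) (hw : frA_w a b c ≠ 0) : 0 < frA_g b c := by
  have h1 : 0 < (inner ℝ (frA_w a b c) (frA_w a b c) : ℝ) := real_inner_self_pos.2 hw
  rw [frA_gram] at h1
  have h2 : 0 ≤ frA_g b c := by
    unfold frA_g
    have := real_inner_mul_inner_self_le b c
    nlinarith
  rcases h2.eq_or_lt with h3 | h3
  · rw [← h3, mul_zero] at h1
    have h4 : 0 ≤ (inner ℝ ((inner ℝ a b : ℝ) • c - (inner ℝ a c : ℝ) • b)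
        ((inner ℝ a b : ℝ) • c - (inner ℝ a c : ℝ) • b) : ℝ) := real_inner_self_nonneg
    rw [inner_sub_left, inner_sub_right, inner_sub_right, real_inner_smul_left,
      real_inner_smul_left, real_inner_smul_left, real_inner_smul_left, real_inner_smul_right,
      real_inner_smul_right, real_inner_smul_right, real_inner_smul_right,
      real_inner_comm b c] at h4
    nlinarith
  · exact h3

section

variable (b c : F4) (hg : 0 < frA_g b c)

include hg

private theorem frA_bT : (inner ℝ b (frA_T b c) : ℝ) = 1 := by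
  rw [frA_T, real_inner_smul_right, inner_sub_right, real_inner_smul_right, real_inner_smul_right,
    inv_mul_eq_div, div_eq_one_iff_eq hg.ne', frA_g]
  ring

omit hg in
private theorem frA_cT : (inner ℝ c (frA_T b c) : ℝ) = 0 := by
  rw [frA_T, real_inner_smul_right, inner_sub_right, real_inner_smul_right, real_inner_smul_right,
    real_inner_comm b c]
  ring

omit hg in
private theorem frA_bn : (inner ℝ b (frA_n b c) : ℝ) = 0 := by
  rw [frA_n, real_inner_smul_right, inner_sub_right, real_inner_smul_right, real_inner_smul_right]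
  ring

private theorem frA_cn : (inner ℝ c (frA_n b c) : ℝ) = 1 := by
  rw [frA_n, real_inner_smul_right, inner_sub_right, real_inner_smul_right, real_inner_smul_right,
    inv_mul_eq_div, div_eq_one_iff_eq hg.ne', frA_g, real_inner_comm b c]
  ring

private theorem frA_bz (a : F4) : (inner ℝ b (frA_z a b c) : ℝ) = 0 := by
  have h1 : (inner ℝ a (frA_T b c) : ℝ) * frA_g b c =
      inner ℝ c c * inner ℝ a b - inner ℝ b c * inner ℝ a c := by
    rw [frA_T, real_inner_smul_right, inner_sub_right, real_inner_smul_right,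
      real_inner_smul_right]
    field_simp
  have h2 : (inner ℝ a (frA_n b c) : ℝ) * frA_g b c =
      inner ℝ b b * inner ℝ a c - inner ℝ b c * inner ℝ a b := by
    rw [frA_n, real_inner_smul_right, inner_sub_right, real_inner_smul_right,
      real_inner_smul_right]
    field_simp
  have h3 : (inner ℝ b (frA_z a b c) : ℝ) * frA_g b c = 0 := by
    rw [frA_z, inner_sub_right, inner_sub_right, real_inner_smul_right, real_inner_smul_right,
      sub_mul, sub_mul, mul_right_comm, h1, mul_right_comm, h2, real_inner_comm a b, frA_g]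
    ring
  exact (mul_eq_zero.1 h3).resolve_right hg.ne'

private theorem frA_cz (a : F4) : (inner ℝ c (frA_z a b c) : ℝ) = 0 := by
  have h1 : (inner ℝ a (frA_T b c) : ℝ) * frA_g b c =
      inner ℝ c c * inner ℝ a b - inner ℝ b c * inner ℝ a c := by
    rw [frA_T, real_inner_smul_right, inner_sub_right, real_inner_smul_right,
      real_inner_smul_right]
    field_simp
  have h2 : (inner ℝ a (frA_n b c) : ℝ) * frA_g b c =
      inner ℝ b b * inner ℝ a c - inner ℝ b c * inner ℝ a b := by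
    rw [frA_n, real_inner_smul_right, inner_sub_right, real_inner_smul_right,
      real_inner_smul_right]
    field_simp
  have h3 : (inner ℝ c (frA_z a b c) : ℝ) * frA_g b c = 0 := by
    rw [frA_z, inner_sub_right, inner_sub_right, real_inner_smul_right, real_inner_smul_right,
      sub_mul, sub_mul, mul_right_comm, h1, mul_right_comm, h2, real_inner_comm a c,
      real_inner_comm b c, frA_g]
    ring
  exact (mul_eq_zero.1 h3).resolve_right hg.ne'

omit hg in
/-- a vector orthogonal to `b` and `c` is orthogonal to `T2` -/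
private theorem frA_T_orth (v : F4) (h1 : (inner ℝ b v : ℝ) = 0) (h2 : (inner ℝ c v : ℝ) = 0) :
    (inner ℝ (frA_T b c) v : ℝ) = 0 := by
  rw [frA_T, real_inner_smul_left, inner_sub_left, real_inner_smul_left, real_inner_smul_left, h1,
    h2]
  ring

omit hg in
private theorem frA_n_orth (v : F4) (h1 : (inner ℝ b v : ℝ) = 0) (h2 : (inner ℝ c v : ℝ) = 0) :
    (inner ℝ (frA_n b c) v : ℝ) = 0 := by
  rw [frA_n, real_inner_smul_left, inner_sub_left, real_inner_smul_left, real_inner_smul_left, h1,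
    h2]
  ring

private theorem frA_zz (a : F4) :
    (inner ℝ (frA_z a b c) (frA_z a b c) : ℝ) = inner ℝ a (frA_z a b c) := by
  have h1 := frA_bz b c hg a
  have h2 := frA_cz b c hg a
  have h3 : (inner ℝ (frA_z a b c) (frA_z a b c) : ℝ) =
      inner ℝ (a - (inner ℝ a (frA_T b c) : ℝ) • b - (inner ℝ a (frA_n b c) : ℝ) • c)
        (frA_z a b c) := rfl
  rw [h3, inner_sub_left, inner_sub_left, real_inner_smul_left, real_inner_smul_left, h1, h2]
  ring

omit hg in
private theorem frA_zw (a : F4) : (inner ℝ (frA_z a b c) (frA_w a b c) : ℝ) = 0 := by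
  rw [frA_z, inner_sub_left, inner_sub_left, real_inner_smul_left, real_inner_smul_left,
    frA_orth1, frA_orth2, frA_orth3]
  ring

private theorem frA_z_ne (a : F4) (hw : frA_w a b c ≠ 0) : frA_z a b c ≠ 0 := by
  intro h0
  have h1 : (inner ℝ a (frA_T b c) : ℝ) * frA_g b c =
      inner ℝ c c * inner ℝ a b - inner ℝ b c * inner ℝ a c := by
    rw [frA_T, real_inner_smul_right, inner_sub_right, real_inner_smul_right,
      real_inner_smul_right]
    field_simp
  have h2 : (inner ℝ a (frA_n b c) : ℝ) * frA_g b c =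
      inner ℝ b b * inner ℝ a c - inner ℝ b c * inner ℝ a b := by
    rw [frA_n, real_inner_smul_right, inner_sub_right, real_inner_smul_right,
      real_inner_smul_right]
    field_simp
  have h3 : 0 < (inner ℝ (frA_w a b c) (frA_w a b c) : ℝ) := real_inner_self_pos.2 hw
  have h4 : (inner ℝ a (frA_z a b c) : ℝ) * frA_g b c =
      inner ℝ (frA_w a b c) (frA_w a b c) := by
    rw [frA_gram, frA_z, inner_sub_right, inner_sub_right, real_inner_smul_right,
      real_inner_smul_right, sub_mul, sub_mul, mul_right_comm, h1, mul_right_comm, h2]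
    ring
  rw [h0, inner_zero_right, zero_mul] at h4
  exact h3.ne h4

end

/-- linear independence gives a nonzero cross product -/
private theorem frA_w_ne (a b c : F4) (h : LinearIndependent ℝ ![a, b, c]) :
    frA_w a b c ≠ 0 := by
  rw [Fintype.linearIndependent_iff] at h
  have key : ∀ r s t : ℝ, r • a + s • b + t • c = 0 → r = 0 ∧ s = 0 ∧ t = 0 := by
    intro r s t hrst
    have h1 := h ![r, s, t] (by
      simp only [Fin.sum_univ_three]
      exact hrst)
    exact ⟨h1 0, h1 1, h1 2⟩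
  have hc : c ≠ 0 := by
    intro hc
    have := (key 0 0 1 (by rw [hc]; simp)).2.2
    exact one_ne_zero this
  have hcc : 0 < (inner ℝ c c : ℝ) := real_inner_self_pos.2 hc
  have hg : 0 < frA_g b c := by
    have h1 : (inner ℝ c c : ℝ) • b - (inner ℝ b c : ℝ) • c ≠ 0 := by
      intro h1
      have := (key 0 (inner ℝ c c) (-(inner ℝ b c : ℝ)) (by
        rw [zero_smul, zero_add, neg_smul, ← sub_eq_add_neg]
        exact h1)).2.1
      exact hcc.ne' this
    have h2 := real_inner_self_pos.2 h1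
    have h3 : (inner ℝ ((inner ℝ c c : ℝ) • b - (inner ℝ b c : ℝ) • c)
        ((inner ℝ c c : ℝ) • b - (inner ℝ b c : ℝ) • c) : ℝ) = inner ℝ c c * frA_g b c := by
      rw [inner_sub_left, inner_sub_right, inner_sub_right, real_inner_smul_left,
        real_inner_smul_left, real_inner_smul_left, real_inner_smul_left, real_inner_smul_right,
        real_inner_smul_right, real_inner_smul_right, real_inner_smul_right,
        real_inner_comm b c, frA_g]
      ring
    rw [h3] at h2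
    exact (pos_iff_pos_of_mul_pos h2).1 hcc
  have hz : frA_z a b c ≠ 0 := by
    intro h1
    have := (key 1 (-(inner ℝ a (frA_T b c) : ℝ)) (-(inner ℝ a (frA_n b c) : ℝ)) (by
      rw [one_smul, neg_smul, neg_smul, ← sub_eq_add_neg, ← sub_eq_add_neg]
      exact h1)).1
    exact one_ne_zero this
  intro hw
  have h1 : (inner ℝ a (frA_T b c) : ℝ) * frA_g b c =
      inner ℝ c c * inner ℝ a b - inner ℝ b c * inner ℝ a c := by
    rw [frA_T, real_inner_smul_right, inner_sub_right, real_inner_smul_right,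
      real_inner_smul_right]
    field_simp
  have h2 : (inner ℝ a (frA_n b c) : ℝ) * frA_g b c =
      inner ℝ b b * inner ℝ a c - inner ℝ b c * inner ℝ a b := by
    rw [frA_n, real_inner_smul_right, inner_sub_right, real_inner_smul_right,
      real_inner_smul_right]
    field_simp
  have h4 : (inner ℝ a (frA_z a b c) : ℝ) * frA_g b c =
      inner ℝ (frA_w a b c) (frA_w a b c) := by
    rw [frA_gram, frA_z, inner_sub_right, inner_sub_right, real_inner_smul_right,
      real_inner_smul_right, sub_mul, sub_mul, mul_right_comm, h1, mul_right_comm, h2]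
    ring
  rw [hw, inner_zero_left, ← frA_zz b c hg] at h4
  have h5 := real_inner_self_pos.2 hz
  exact (mul_pos h5 hg).ne' h4

private theorem frA_w_sm {O : Set (ℝ × ℝ)} {a b c : ℝ × ℝ → F4} (ha : ContDiffOn ℝ ∞ a O)
    (hb : ContDiffOn ℝ ∞ b O) (hc : ContDiffOn ℝ ∞ c O) :
    ContDiffOn ℝ ∞ (fun x => frA_w (a x) (b x) (c x)) O := by
  have ha' := fun i => (contDiffOn_euclidean.1 ha) i
  have hb' := fun i => (contDiffOn_euclidean.1 hb) i
  have hc' := fun i => (contDiffOn_euclidean.1 hc) i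
  rw [contDiffOn_euclidean]
  intro i
  fin_cases i
  · exact (((ha' 1).mul (((hb' 2).mul (hc' 3)).sub ((hb' 3).mul (hc' 2)))).sub
      ((ha' 2).mul (((hb' 1).mul (hc' 3)).sub ((hb' 3).mul (hc' 1))))).add
      ((ha' 3).mul (((hb' 1).mul (hc' 2)).sub ((hb' 2).mul (hc' 1))))
  · exact ((((ha' 0).mul (((hb' 2).mul (hc' 3)).sub ((hb' 3).mul (hc' 2)))).sub
      ((ha' 2).mul (((hb' 0).mul (hc' 3)).sub ((hb' 3).mul (hc' 0))))).add
      ((ha' 3).mul (((hb' 0).mul (hc' 2)).sub ((hb' 2).mul (hc' 0))))).neg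
  · exact (((ha' 0).mul (((hb' 1).mul (hc' 3)).sub ((hb' 3).mul (hc' 1)))).sub
      ((ha' 1).mul (((hb' 0).mul (hc' 3)).sub ((hb' 3).mul (hc' 0))))).add
      ((ha' 3).mul (((hb' 0).mul (hc' 1)).sub ((hb' 1).mul (hc' 0))))
  · exact ((((ha' 0).mul (((hb' 1).mul (hc' 2)).sub ((hb' 2).mul (hc' 1)))).sub
      ((ha' 1).mul (((hb' 0).mul (hc' 2)).sub ((hb' 2).mul (hc' 0))))).add
      ((ha' 2).mul (((hb' 0).mul (hc' 1)).sub ((hb' 1).mul (hc' 0))))).neg

private theorem frA_pd_sm {O : Set (ℝ × ℝ)} (hO : IsOpen O) {f : ℝ × ℝ → F4}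
    (hf : ContDiffOn ℝ ∞ f O) (v : ℝ × ℝ) : ContDiffOn ℝ ∞ (pd v f) O :=
  (hf.fderiv_of_isOpen hO (by norm_num)).clm_apply contDiffOn_const

theorem exists_frm (f : ℝ × ℝ → F4) (O : Set (ℝ × ℝ)) (hO : IsOpen O)
    (hs : Metric.closedBall 0 3 ⊆ O) (hf : ContDiffOn ℝ ∞ f O)
    (hind : ∀ x ∈ Metric.closedBall (0 : ℝ × ℝ) 3,
      LinearIndependent ℝ ![pd e1 f x, pd e2 f x, pd e2 (pd e2 f) x]) :
    ∃ Fr : Frm, Fr.f = f ∧ Fr.O ⊆ O := by
  obtain ⟨a, ha⟩ : ∃ a, a = pd e1 f := ⟨_, rfl⟩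
  obtain ⟨b, hb⟩ : ∃ b, b = pd e2 f := ⟨_, rfl⟩
  obtain ⟨c, hc⟩ : ∃ c, c = pd e2 (pd e2 f) := ⟨_, rfl⟩
  have has : ContDiffOn ℝ ∞ a O := ha ▸ frA_pd_sm hO hf e1
  have hbs : ContDiffOn ℝ ∞ b O := hb ▸ frA_pd_sm hO hf e2
  have hcs : ContDiffOn ℝ ∞ c O := hc ▸ frA_pd_sm hO (frA_pd_sm hO hf e2) e2
  have hws := frA_w_sm has hbs hcs
  obtain ⟨O', hO'⟩ : ∃ O', O' = O ∩ (fun x => frA_w (a x) (b x) (c x)) ⁻¹' {0}ᶜ := ⟨_, rfl⟩
  have hO'o : IsOpen O' := by
    rw [hO']
    exact hws.continuousOn.isOpen_inter_preimage hO isOpen_compl_singleton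
  have hsub : O' ⊆ O := by rw [hO']; exact inter_subset_left
  have hw : ∀ x ∈ O', frA_w (a x) (b x) (c x) ≠ 0 := by
    intro x hx
    rw [hO'] at hx
    exact hx.2
  have hsup : Metric.closedBall 0 3 ⊆ O' := by
    intro x hx
    rw [hO']
    refine ⟨hs hx, ?_⟩
    rw [ha, hb, hc]
    exact frA_w_ne _ _ _ (hind x hx)
  have hg : ∀ x ∈ O', 0 < frA_g (b x) (c x) := fun x hx => frA_g_pos _ _ _ (hw x hx)
  have has' := has.mono hsub
  have hbs' := hbs.mono hsub
  have hcs' := hcs.mono hsub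
  have hws' := hws.mono hsub
  have hgs : ContDiffOn ℝ ∞ (fun x => frA_g (b x) (c x)) O' := by
    unfold frA_g
    exact ((hbs'.inner ℝ hbs').mul (hcs'.inner ℝ hcs')).sub ((hbs'.inner ℝ hcs').pow 2)
  have hgi : ContDiffOn ℝ ∞ (fun x => (frA_g (b x) (c x))⁻¹) O' :=
    hgs.inv fun x hx => (hg x hx).ne'
  have hTs : ContDiffOn ℝ ∞ (fun x => frA_T (b x) (c x)) O' := by
    unfold frA_T
    exact hgi.smul (((hcs'.inner ℝ hcs').smul hbs').sub ((hbs'.inner ℝ hcs').smul hcs'))
  have hns : ContDiffOn ℝ ∞ (fun x => frA_n (b x) (c x)) O' := by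
    unfold frA_n
    exact hgi.smul (((hbs'.inner ℝ hbs').smul hcs').sub ((hbs'.inner ℝ hcs').smul hbs'))
  have hk2 : ContDiffOn ℝ ∞ (fun x => (inner ℝ (a x) (frA_T (b x) (c x)) : ℝ)) O' :=
    has'.inner ℝ hTs
  have hk1 : ContDiffOn ℝ ∞ (fun x => (inner ℝ (a x) (frA_n (b x) (c x)) : ℝ)) O' :=
    has'.inner ℝ hns
  have hzs : ContDiffOn ℝ ∞ (fun x => frA_z (a x) (b x) (c x)) O' := by
    unfold frA_z
    exact (has'.sub (hk2.smul hbs')).sub (hk1.smul hcs')
  have hz : ∀ x ∈ O', frA_z (a x) (b x) (c x) ≠ 0 := fun x hx =>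
    frA_z_ne _ _ (hg x hx) _ (hw x hx)
  have hzes : ContDiffOn ℝ ∞ (fun x => ‖frA_z (a x) (b x) (c x)‖) O' := hzs.norm ℝ hz
  have hze : ∀ x ∈ O', 0 < ‖frA_z (a x) (b x) (c x)‖ := fun x hx => norm_pos_iff.2 (hz x hx)
  have hzi : ContDiffOn ℝ ∞ (fun x => (‖frA_z (a x) (b x) (c x)‖)⁻¹) O' :=
    hzes.inv fun x hx => (hze x hx).ne'
  have hzhs : ContDiffOn ℝ ∞
      (fun x => (‖frA_z (a x) (b x) (c x)‖)⁻¹ • frA_z (a x) (b x) (c x)) O' := hzi.smul hzs
  have hwi : ContDiffOn ℝ ∞ (fun x => (‖frA_w (a x) (b x) (c x)‖)⁻¹) O' :=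
    (hws'.norm ℝ hw).inv fun x hx => (norm_pos_iff.2 (hw x hx)).ne'
  have hyhs : ContDiffOn ℝ ∞
      (fun x => (‖frA_w (a x) (b x) (c x)‖)⁻¹ • frA_w (a x) (b x) (c x)) O' := hwi.smul hws'
  have hnhs : ContDiffOn ℝ ∞ (fun x => frA_n (b x) (c x) -
      ((inner ℝ (a x) (frA_n (b x) (c x)) : ℝ) * (‖frA_z (a x) (b x) (c x)‖)⁻¹) •
        ((‖frA_z (a x) (b x) (c x)‖)⁻¹ • frA_z (a x) (b x) (c x))) O' :=
    hns.sub ((hk1.mul hzi).smul hzhs)
  have hbz : ∀ x ∈ O', (inner ℝ (b x) ((‖frA_z (a x) (b x) (c x)‖)⁻¹ •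
      frA_z (a x) (b x) (c x)) : ℝ) = 0 := by
    intro x hx
    rw [real_inner_smul_right, frA_bz _ _ (hg x hx), mul_zero]
  have hcz : ∀ x ∈ O', (inner ℝ (c x) ((‖frA_z (a x) (b x) (c x)‖)⁻¹ •
      frA_z (a x) (b x) (c x)) : ℝ) = 0 := by
    intro x hx
    rw [real_inner_smul_right, frA_cz _ _ (hg x hx), mul_zero]
  have hbw : ∀ x ∈ O', (inner ℝ (b x) ((‖frA_w (a x) (b x) (c x)‖)⁻¹ •
      frA_w (a x) (b x) (c x)) : ℝ) = 0 := by
    intro x hx
    rw [real_inner_smul_right, frA_orth2, mul_zero]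
  have hcw : ∀ x ∈ O', (inner ℝ (c x) ((‖frA_w (a x) (b x) (c x)‖)⁻¹ •
      frA_w (a x) (b x) (c x)) : ℝ) = 0 := by
    intro x hx
    rw [real_inner_smul_right, frA_orth3, mul_zero]
  have haz : ∀ x ∈ O', (inner ℝ (a x) ((‖frA_z (a x) (b x) (c x)‖)⁻¹ •
      frA_z (a x) (b x) (c x)) : ℝ) = ‖frA_z (a x) (b x) (c x)‖ := by
    intro x hx
    have := (hze x hx).ne'
    rw [real_inner_smul_right, ← frA_zz _ _ (hg x hx), real_inner_self_eq_norm_mul_norm]
    field_simp
  refine ⟨{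
    f := f
    O := O'
    O_open := hO'o
    O_sup := hsup
    T2 := fun x => frA_T (b x) (c x)
    n1 := fun x => frA_n (b x) (c x)
    nh := fun x => frA_n (b x) (c x) -
      ((inner ℝ (a x) (frA_n (b x) (c x)) : ℝ) * (‖frA_z (a x) (b x) (c x)‖)⁻¹) •
        ((‖frA_z (a x) (b x) (c x)‖)⁻¹ • frA_z (a x) (b x) (c x))
    zh := fun x => (‖frA_z (a x) (b x) (c x)‖)⁻¹ • frA_z (a x) (b x) (c x)
    yh := fun x => (‖frA_w (a x) (b x) (c x)‖)⁻¹ • frA_w (a x) (b x) (c x)
    k1 := fun x => (inner ℝ (a x) (frA_n (b x) (c x)) : ℝ)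
    k2 := fun x => (inner ℝ (a x) (frA_T (b x) (c x)) : ℝ)
    ze := fun x => ‖frA_z (a x) (b x) (c x)‖
    f_sm := hf.mono hsub
    T2_sm := hTs
    n1_sm := hns
    nh_sm := hnhs
    zh_sm := hzhs
    yh_sm := hyhs
    k1_sm := hk1
    k2_sm := hk2
    ze_sm := hzes
    ze_pos := hze
    f1_eq := ?_
    f2_T2 := ?_
    f22_T2 := ?_
    f2_n1 := ?_
    f22_n1 := ?_
    f1_nh := ?_
    f2_nh := ?_
    f22_nh := ?_
    f2_zh := ?_
    f22_zh := ?_
    f2_yh := ?_
    f22_yh := ?_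
    T2_zh := ?_
    T2_yh := ?_
    n1_zh := ?_
    n1_yh := ?_
    zh_zh := ?_
    yh_yh := ?_
    zh_yh := ?_ }, rfl, hsub⟩
  · intro x hx
    have := (hze x hx).ne'
    rw [← hc, ← ha, ← hb, smul_smul, mul_inv_cancel₀ this, one_smul, frA_z]
    abel
  · intro x hx
    rw [← hb]
    exact frA_bT _ _ (hg x hx)
  · intro x hx
    rw [← hc]
    exact frA_cT _ _
  · intro x hx
    rw [← hb]
    exact frA_bn _ _
  · intro x hx
    rw [← hc]
    exact frA_cn _ _ (hg x hx)
  · intro x hx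
    have := (hze x hx).ne'
    rw [← ha, inner_sub_right, real_inner_smul_right, haz x hx]
    field_simp
    ring
  · intro x hx
    rw [← hb, inner_sub_right, real_inner_smul_right, hbz x hx, frA_bn _ _]
    ring
  · intro x hx
    rw [← hc, inner_sub_right, real_inner_smul_right, hcz x hx, frA_cn _ _ (hg x hx)]
    ring
  · intro x hx
    rw [← hb]
    exact hbz x hx
  · intro x hx
    rw [← hc]
    exact hcz x hx
  · intro x hx
    rw [← hb]
    exact hbw x hx
  · intro x hx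
    rw [← hc]
    exact hcw x hx
  · intro x hx
    exact frA_T_orth _ _ _ (hbz x hx) (hcz x hx)
  · intro x hx
    exact frA_T_orth _ _ _ (hbw x hx) (hcw x hx)
  · intro x hx
    exact frA_n_orth _ _ _ (hbz x hx) (hcz x hx)
  · intro x hx
    exact frA_n_orth _ _ _ (hbw x hx) (hcw x hx)
  · intro x hx
    have := (hze x hx).ne'
    rw [real_inner_smul_left, real_inner_smul_right, real_inner_self_eq_norm_mul_norm]
    field_simp
  · intro x hx
    have : ‖frA_w (a x) (b x) (c x)‖ ≠ 0 := (norm_pos_iff.2 (hw x hx)).ne'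
    rw [real_inner_smul_left, real_inner_smul_right, real_inner_self_eq_norm_mul_norm]
    field_simp
  · intro x hx
    rw [real_inner_smul_left, real_inner_smul_right, frA_zw _ _]
    ring

end P205F.EE
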