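import Vale.Agent.Lib.P205E.EDefs

/-! # P205E module EC1: the weights -/

open scoped ContDiff
open Set

namespace P205F.EE

variable (A : Amp)

private theorem EC1_eps_pow_pos (i : Eps) (k : ℕ) : 0 < (i : ℝ) ^ k := pow_pos i.2.1 k

theorem Amp.ab_pos (i : Eps) (x : ℝ × ℝ) : 0 < A.ab i x := by
  unfold Amp.ab
  have h1 := EC1_eps_pow_pos i (2 * A.M)
  exact Real.sqrt_pos.2 (by nlinarith [sq_nonneg (A.a x)])

theorem Amp.wt_pos (p m : ℤ) (i : Eps) (x : ℝ × ℝ) : 0 < A.wt p m i x :=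
  mul_pos (zpow_pos (A.ab_pos i x) p) (zpow_pos i.2.1 m)

theorem Amp.wt_mul (p m p' m' : ℤ) (i : Eps) (x : ℝ × ℝ) :
    A.wt p m i x * A.wt p' m' i x = A.wt (p + p') (m + m') i x := by
  unfold Amp.wt
  rw [zpow_add₀ (A.ab_pos i x).ne', zpow_add₀ i.2.1.ne']
  ring

theorem Amp.wt_inv (p m : ℤ) (i : Eps) (x : ℝ × ℝ) : (A.wt p m i x)⁻¹ = A.wt (-p) (-m) i x := by
  unfold Amp.wt
  rw [mul_inv, zpow_neg, zpow_neg]

theorem Amp.wt_zero (i : Eps) (x : ℝ × ℝ) : A.wt 0 0 i x = 1 := by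
  unfold Amp.wt
  rw [zpow_zero, zpow_zero, one_mul]

/-- a flat function is bounded (order `0`, `c = 1/2`) -/
theorem Amp.a_bdd : ∃ C : ℝ, 1 ≤ C ∧ ∀ x, A.a x ≤ C := by
  obtain ⟨C, hC⟩ := A.flat.2.2 0 (1 / 2) (by norm_num) (by norm_num)
  refine ⟨max 1 (C ^ 2), le_max_left _ _, fun x => ?_⟩
  have h0 : 0 ≤ A.a x := A.flat.2.1 x
  have h1 := hC x
  rw [norm_iteratedFDeriv_zero, Real.norm_eq_abs, abs_of_nonneg h0] at h1
  have e1 : (1 : ℝ) - 1 / 2 = 1 / 2 := by norm_num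
  rw [e1, ← Real.sqrt_eq_rpow] at h1
  have h2 : 0 ≤ Real.sqrt (A.a x) := Real.sqrt_nonneg _
  have h3 : Real.sqrt (A.a x) * Real.sqrt (A.a x) = A.a x := Real.mul_self_sqrt h0
  rcases h2.eq_or_lt with h4 | h4
  · rw [← h4] at h3
    have h5 : A.a x = 0 := by linarith
    rw [h5]
    exact le_trans zero_le_one (le_max_left _ _)
  · have h5 : Real.sqrt (A.a x) ≤ C := by
      by_contra hcon
      have := mul_lt_mul_of_pos_right (not_le.1 hcon) h4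
      linarith
    have h6 : A.a x ≤ C ^ 2 := by nlinarith
    exact h6.trans (le_max_right _ _)

theorem Amp.ab_sq (i : Eps) (x : ℝ × ℝ) : A.ab i x ^ 2 = A.a x ^ 2 + (i : ℝ) ^ (2 * A.M) := by
  unfold Amp.ab
  exact Real.sq_sqrt (by have := EC1_eps_pow_pos i (2 * A.M); positivity)

theorem Amp.ab_le : ∃ C : ℝ, 1 ≤ C ∧ ∀ i x, A.ab i x ≤ C := by
  obtain ⟨C, hC1, hC⟩ := A.a_bdd
  refine ⟨C + 1, by linarith, fun i x => ?_⟩
  have h0 : 0 ≤ A.a x := A.flat.2.1 x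
  have h1 := hC x
  have h2 := A.ab_sq i x
  have h3 : (i : ℝ) ^ (2 * A.M) ≤ 1 := pow_le_one₀ i.2.1.le i.2.2.le
  have h4 := A.ab_pos i x
  by_contra hcon
  have h5 := not_le.1 hcon
  nlinarith

theorem Amp.wt_le {p p' m m' : ℤ} (hp : p' ≤ p) (hm : m' ≤ m) :
    ∃ C : ℝ, 1 ≤ C ∧ ∀ i x, A.wt p m i x ≤ C * A.wt p' m' i x := by
  obtain ⟨C, hC1, hC⟩ := A.ab_le
  obtain ⟨a, ha⟩ := Int.eq_ofNat_of_zero_le (sub_nonneg.2 hp)
  obtain ⟨b, hb⟩ := Int.eq_ofNat_of_zero_le (sub_nonneg.2 hm)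
  refine ⟨C ^ a, one_le_pow₀ hC1, fun i x => ?_⟩
  have e1 : p = (p - p') + p' := by ring
  have e2 : m = (m - m') + m' := by ring
  have h1 : A.wt p m i x = A.wt (p - p') (m - m') i x * A.wt p' m' i x := by
    rw [A.wt_mul, ← e1, ← e2]
  rw [h1]
  refine mul_le_mul_of_nonneg_right ?_ (A.wt_pos _ _ i x).le
  unfold Amp.wt
  rw [ha, hb, zpow_natCast, zpow_natCast]
  calc A.ab i x ^ a * (i : ℝ) ^ b ≤ C ^ a * 1 :=
        mul_le_mul (pow_le_pow_left₀ (A.ab_pos i x).le (hC i x) a)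
          (pow_le_one₀ i.2.1.le i.2.2.le) (pow_pos i.2.1 b).le (by positivity)
    _ = C ^ a := mul_one _

theorem Amp.le_ab (i : Eps) (x : ℝ × ℝ) : A.a x ≤ A.ab i x := by
  unfold Amp.ab
  refine Real.le_sqrt_of_sq_le ?_
  have := EC1_eps_pow_pos i (2 * A.M)
  linarith

theorem Amp.eps_le_ab (i : Eps) (x : ℝ × ℝ) : (i : ℝ) ^ A.M ≤ A.ab i x := by
  unfold Amp.ab
  refine Real.le_sqrt_of_sq_le ?_
  rw [← pow_mul, mul_comm A.M 2]
  have := sq_nonneg (A.a x)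
  linarith

/-- negative real powers of `ε` of small exponent are in the growth class up to constants -/
theorem GE_of_le {g : Eps → ℝ} (h : ∀ c : ℝ, 0 < c → ∃ C : ℝ, ∀ i : Eps, g i ≤ C * (i : ℝ) ^ (-c)) :
    ∃ g' ∈ GE.mem, ∀ i, g i ≤ g' i := by
  refine ⟨fun i => max 1 (g i), ⟨fun i => le_max_left _ _, fun c hc => ?_⟩,
    fun i => le_max_right _ _⟩
  obtain ⟨C, hC⟩ := h c hc
  refine ⟨max 1 C, fun i => ?_⟩
  have h1 : (1 : ℝ) ≤ (i : ℝ) ^ (-c) :=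
    Real.one_le_rpow_of_pos_of_le_one_of_nonpos i.2.1 i.2.2.le (by linarith)
  refine max_le ?_ ?_
  · calc (1 : ℝ) = 1 * 1 := (mul_one _).symm
      _ ≤ max 1 C * (i : ℝ) ^ (-c) :=
        mul_le_mul (le_max_left _ _) h1 zero_le_one (zero_le_one.trans (le_max_left _ _))
  · exact (hC i).trans (mul_le_mul_of_nonneg_right (le_max_right _ _) (zero_le_one.trans h1))

end P205F.EE
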