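import Mathlib

/-!
# P205E: statement of the local exact stage (formal solution, without theorem T)

This file only uses Mathlib; the names live in the namespace `P205F.ES`.
-/

noncomputable section

namespace P205F.ES

open scoped ContDiff
open Set Metric

abbrev P2 := ℝ × ℝ
abbrev R4 := EuclideanSpace ℝ (Fin 4)

/-- flat functions: every derivative is `≤ C * a ^ (1 - c)`, for every `0 < c < 1` -/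
def FlatB (a : P2 → ℝ) : Prop :=
  ContDiff ℝ ∞ a ∧ (∀ x, 0 ≤ a x) ∧
    ∀ r : ℕ, ∀ c : ℝ, 0 < c → c < 1 → ∃ C : ℝ, ∀ x, ‖iteratedFDeriv ℝ r a x‖ ≤ C * a x ^ (1 - c)

/-- projection of `u` to `span (b, c)` -/
def par (b c u : R4) : R4 :=
  (inner ℝ b b * inner ℝ c c - inner ℝ b c ^ 2)⁻¹ •
    ((inner ℝ u b * inner ℝ c c - inner ℝ u c * inner ℝ b c) • b +
      (inner ℝ u c * inner ℝ b b - inner ℝ u b * inner ℝ b c) • c)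

/-- component of `u` orthogonal to `span (b, c)` -/
def per (b c u : R4) : R4 := u - par b c u

/-- the rotating first derivative, `y` the unit normal -/
def G0 (tf : ℝ → ℝ) (y u₁ u₂ u₃ : R4) (α c : ℝ) : R4 :=
  par u₂ u₃ u₁ +
    (Real.sqrt (‖per u₂ u₃ u₁‖ ^ 2 + α ^ 2) *
      (Real.sqrt (1 + tf (α / ‖per u₂ u₃ u₁‖) ^ 2 * c ^ 2))⁻¹) •
      (‖per u₂ u₃ u₁‖⁻¹ • per u₂ u₃ u₁ + (tf (α / ‖per u₂ u₃ u₁‖) * c) • y)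

/-- derivatives in the two coordinate directions -/
def d1 (F : P2 → R4) (x : P2) : R4 := fderiv ℝ F x (1, 0)
def d2 (F : P2 → R4) (x : P2) : R4 := fderiv ℝ F x (0, 1)

/-- components of the metric -/
def gm (F : P2 → R4) (v w x : P2) : ℝ := inner ℝ (fderiv ℝ F x v) (fderiv ℝ F x w)

/-- the family `F ε` (`0 < ε < 1`) solves the exact stage for `(f, a)` up to order `K` -/
structure Fam (tf : ℝ → ℝ) (f : P2 → R4) (O : Set P2) (a : P2 → ℝ) (y : P2 → R4) (K : ℕ)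
    (F : ℝ → P2 → R4) : Prop where
  smooth : ∀ ε ∈ Ioo (0 : ℝ) 1, ContDiffOn ℝ ∞ (F ε) O
  off : ∀ ε ∈ Ioo (0 : ℝ) 1, ∀ x, x ∉ closedBall (0 : P2) (7 / 4) → F ε x = f x
  bound : ∀ r : ℕ, ∃ C : ℝ, ∀ ε ∈ Ioo (0 : ℝ) 1, ∀ x ∈ ball (0 : P2) 3,
    ‖iteratedFDeriv ℝ r (F ε) x‖ ≤ C * ε⁻¹ ^ (r + 1)
  metric : ∀ v w : P2, (v = (1, 0) ∨ v = (0, 1)) → (w = (1, 0) ∨ w = (0, 1)) →
    ∀ r : ℕ, ∃ C : ℝ, ∀ ε ∈ Ioo (0 : ℝ) 1, ∀ x ∈ ball (0 : P2) 3,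
    ‖iteratedFDeriv ℝ r (fun z => gm (F ε) v w z - gm f v w z - a z ^ 2 * (v.1 * w.1)) x‖ ≤
      C * ε ^ K * ε⁻¹ ^ (r + 1)
  close : ∃ C : ℝ, ∀ ε ∈ Ioo (0 : ℝ) 1, ∀ x ∈ ball (0 : P2) 3,
    ‖d2 (F ε) x - d2 f x‖ ≤ C * Real.sqrt ε ∧
    ‖d2 (d2 (F ε)) x - d2 (d2 f) x‖ ≤ C * Real.sqrt ε ∧
    ‖d2 (d2 (d2 (F ε))) x - d2 (d2 (d2 f)) x‖ ≤ C * Real.sqrt ε
  first : ∃ C : ℝ, ∀ ε ∈ Ioo (0 : ℝ) 1, ∀ x ∈ ball (0 : P2) 3, ∃ c ∈ Icc (-1 : ℝ) 1,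
    ‖d1 (F ε) x - G0 tf (y x) (d1 f x) (d2 f x) (d2 (d2 f) x) (a x) c‖ ≤ C * Real.sqrt ε ∧
    ‖d2 (d1 (F ε)) x - d2 (fun z => G0 tf (y z) (d1 f z) (d2 f z) (d2 (d2 f) z) (a z) c) x‖ ≤
      C * Real.sqrt ε

/-- the local exact stage -/
def ESAStmt : Prop :=
  ∃ tf : ℝ → ℝ, ContDiff ℝ ∞ tf ∧ tf 0 = 0 ∧
    ∀ (f : P2 → R4) (O : Set P2) (a : P2 → ℝ), IsOpen O → closedBall 0 3 ⊆ O →
      ContDiffOn ℝ ∞ f O →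
      (∀ x ∈ closedBall (0 : P2) 3, LinearIndependent ℝ ![d1 f x, d2 f x, d2 (d2 f) x]) →
      FlatB a → (∀ x, a x ≠ 0 → x ∈ closedBall (0 : P2) 1) →
      ∃ (O' : Set P2) (y : P2 → R4), IsOpen O' ∧ closedBall 0 3 ⊆ O' ∧ O' ⊆ O ∧
        ContDiffOn ℝ ∞ y O' ∧ (∀ x ∈ O', ‖y x‖ = 1 ∧ inner ℝ (d1 f x) (y x) = 0 ∧
          inner ℝ (d2 f x) (y x) = 0 ∧ inner ℝ (d2 (d2 f) x) (y x) = 0) ∧
        ∀ K : ℕ, ∃ F : ℝ → P2 → R4, Fam tf f O a y K F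

end P205F.ES
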