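import Mathlib
import Vale.Agent.Lib.P205E.EC1
import Vale.Agent.Lib.P205E.EStmt

/-! # P205E module EX1: comparison of `F0` (regularised amplitude) with `G0` (true amplitude)

`ES.per f₂ f₂₂ f₁ = ze • zh` (from `f1_eq`, `zh ⟂ f₂, f₂₂` and independence of `f₂, f₂₂`), so
`G0 tf yh f₁ f₂ f₂₂ α c = f₁ + (α² Xt) zh + (α Yt) yh` at `(α, ζ, c)`: call it `Φ (x, α, c)`, smooth in `(x, α, c)`.
`F0 i (x, θ) = Φ (x, abar, cos θ)`, `G0 = Φ (x, a, cos θ)`, `|abar - a| ≤ ε^M`,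
`|∂₂abar - ∂₂a| = |∂₂a| (1 - a/abar) ≤ C a^(1/2) ε^(2M) / abar² ≤ C ε^(M/2)`. -/

open scoped ContDiff
open Set

namespace P205F.EE

namespace ED

/-- the loop is the one of the function `tf` -/
def LoopTf (L : Loop) (tf : ℝ → ℝ) : Prop :=
  ∀ α ζ c : ℝ, 0 < ζ → ζ + α ^ 2 * L.Xt (α, ζ, c) =
      Real.sqrt (ζ ^ 2 + α ^ 2) * (Real.sqrt (1 + tf (α / ζ) ^ 2 * c ^ 2))⁻¹ ∧
    α * L.Yt (α, ζ, c) =
      Real.sqrt (ζ ^ 2 + α ^ 2) * (Real.sqrt (1 + tf (α / ζ) ^ 2 * c ^ 2))⁻¹ * (tf (α / ζ) * c)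

variable (d : ED) {tf : ℝ → ℝ} (hL : LoopTf d.Lp tf)

/-- the projection formula -/
private theorem EX1_par {b c w : F4} {k2 k1 : ℝ} (hbw : inner ℝ b w = 0) (hcw : inner ℝ c w = 0)
    (hD : inner ℝ b b * inner ℝ c c - inner ℝ b c ^ 2 ≠ (0 : ℝ)) :
    ES.par b c (k2 • b + k1 • c + w) = k2 • b + k1 • c := by
  have hcb : inner ℝ c b = (inner ℝ b c : ℝ) := real_inner_comm _ _
  have hwb : inner ℝ w b = (0 : ℝ) := by rw [real_inner_comm]; exact hbw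
  have hwc : inner ℝ w c = (0 : ℝ) := by rw [real_inner_comm]; exact hcw
  have h1 : inner ℝ (k2 • b + k1 • c + w) b = (k2 * inner ℝ b b + k1 * inner ℝ b c : ℝ) := by
    rw [inner_add_left, inner_add_left, real_inner_smul_left, real_inner_smul_left, hwb, hcb]
    ring
  have h2 : inner ℝ (k2 • b + k1 • c + w) c = (k2 * inner ℝ b c + k1 * inner ℝ c c : ℝ) := by
    rw [inner_add_left, inner_add_left, real_inner_smul_left, real_inner_smul_left, hwc]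
    ring
  unfold ES.par
  rw [h1, h2]
  have e1 : (k2 * inner ℝ b b + k1 * inner ℝ b c) * inner ℝ c c -
      (k2 * inner ℝ b c + k1 * inner ℝ c c) * inner ℝ b c =
      (inner ℝ b b * inner ℝ c c - inner ℝ b c ^ 2) * k2 := by ring
  have e2 : (k2 * inner ℝ b c + k1 * inner ℝ c c) * inner ℝ b b -
      (k2 * inner ℝ b b + k1 * inner ℝ b c) * inner ℝ b c =
      (inner ℝ b b * inner ℝ c c - inner ℝ b c ^ 2) * k1 := by ring
  rw [e1, e2, smul_add, smul_smul, smul_smul, inv_mul_cancel_left₀ hD, inv_mul_cancel_left₀ hD]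

/-- the Gram determinant is not zero -/
private theorem EX1_gram {b c t n : F4} (h1 : inner ℝ b t = (1 : ℝ)) (h2 : inner ℝ c t = (0 : ℝ))
    (h4 : inner ℝ c n = (1 : ℝ)) :
    inner ℝ b b * inner ℝ c c - inner ℝ b c ^ 2 ≠ (0 : ℝ) := by
  intro h
  have hcb : inner ℝ c b = (inner ℝ b c : ℝ) := real_inner_comm _ _
  have hw : inner ℝ (inner ℝ c c • b - inner ℝ b c • c) (inner ℝ c c • b - inner ℝ b c • c) =
      (0 : ℝ) := by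
    rw [inner_sub_left, inner_sub_right, inner_sub_right]
    simp only [real_inner_smul_left, real_inner_smul_right, hcb]
    linear_combination inner ℝ c c * h
  have hw0 : inner ℝ c c • b - inner ℝ b c • c = 0 := inner_self_eq_zero.1 hw
  have h5 : inner ℝ (inner ℝ c c • b - inner ℝ b c • c) t = (0 : ℝ) := by
    rw [hw0, inner_zero_left]
  rw [inner_sub_left, real_inner_smul_left, real_inner_smul_left, h1, h2] at h5
  have h6 : inner ℝ c c = (0 : ℝ) := by linarith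
  rw [inner_self_eq_zero.1 h6, inner_zero_left] at h4
  exact zero_ne_one h4

/-- `per f₂ f₂₂ f₁ = ζ zh` -/
theorem EX1_per {x : ℝ × ℝ} (hx : x ∈ d.Fr.O) :
    ES.per (pd e2 d.Fr.f x) (pd e2 (pd e2 d.Fr.f) x) (pd e1 d.Fr.f x) = d.Fr.ze x • d.Fr.zh x ∧
    ‖ES.per (pd e2 d.Fr.f x) (pd e2 (pd e2 d.Fr.f) x) (pd e1 d.Fr.f x)‖ = d.Fr.ze x := by
  have hD := EX1_gram (d.Fr.f2_T2 x hx) (d.Fr.f22_T2 x hx) (d.Fr.f22_n1 x hx)
  have h1 : inner ℝ (pd e2 d.Fr.f x) (d.Fr.ze x • d.Fr.zh x) = (0 : ℝ) := by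
    rw [real_inner_smul_right, d.Fr.f2_zh x hx, mul_zero]
  have h2 : inner ℝ (pd e2 (pd e2 d.Fr.f) x) (d.Fr.ze x • d.Fr.zh x) = (0 : ℝ) := by
    rw [real_inner_smul_right, d.Fr.f22_zh x hx, mul_zero]
  have h3 : ES.per (pd e2 d.Fr.f x) (pd e2 (pd e2 d.Fr.f) x) (pd e1 d.Fr.f x) =
      d.Fr.ze x • d.Fr.zh x := by
    unfold ES.per
    rw [d.Fr.f1_eq x hx, EX1_par h1 h2 hD, add_sub_cancel_left]
  refine ⟨h3, ?_⟩
  have h4 : ‖d.Fr.zh x‖ = 1 := by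
    have h5 := d.Fr.zh_zh x hx
    rw [real_inner_self_eq_norm_sq] at h5
    exact (pow_eq_one_iff_of_nonneg (norm_nonneg _) two_ne_zero).1 h5
  rw [h3, norm_smul, h4, mul_one, Real.norm_of_nonneg (d.Fr.ze_pos x hx).le]

include hL

theorem EX1_G0 {x : ℝ × ℝ} (hx : x ∈ d.Fr.O) (α c : ℝ) :
    ES.G0 tf (d.Fr.yh x) (pd e1 d.Fr.f x) (pd e2 d.Fr.f x) (pd e2 (pd e2 d.Fr.f) x) α c =
      pd e1 d.Fr.f x + (α ^ 2 * d.Lp.Xt (α, d.Fr.ze x, c)) • d.Fr.zh x +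
        (α * d.Lp.Yt (α, d.Fr.ze x, c)) • d.Fr.yh x := by
  obtain ⟨h1, h2⟩ := d.EX1_per hx
  have hz := d.Fr.ze_pos x hx
  obtain ⟨h3, h4⟩ := hL α (d.Fr.ze x) c hz
  have h5 : ES.par (pd e2 d.Fr.f x) (pd e2 (pd e2 d.Fr.f) x) (pd e1 d.Fr.f x) =
      pd e1 d.Fr.f x - d.Fr.ze x • d.Fr.zh x := by
    rw [← h1]
    unfold ES.per
    abel
  unfold ES.G0
  have h6 : (d.Fr.ze x)⁻¹ • d.Fr.ze x • d.Fr.zh x = d.Fr.zh x := by
    rw [smul_smul, inv_mul_cancel₀ hz.ne', one_smul]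
  rw [h2, h1, h5, h6, ← h3, smul_add, smul_smul]
  rw [← h3] at h4
  rw [← h4, add_smul]
  abel

omit hL

/-- the comparison function -/
private noncomputable def EX1_Phi (p : (ℝ × ℝ) × ℝ × ℝ) : F4 :=
  pd e1 d.Fr.f p.1 + (p.2.1 ^ 2 * d.Lp.Xt (p.2.1, d.Fr.ze p.1, p.2.2)) • d.Fr.zh p.1 +
    (p.2.1 * d.Lp.Yt (p.2.1, d.Fr.ze p.1, p.2.2)) • d.Fr.yh p.1

private theorem EX1_open : IsOpen (d.Fr.O ×ˢ (univ : Set (ℝ × ℝ))) :=
  d.Fr.O_open.prod isOpen_univ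

private theorem EX1_Phi_sm : ContDiffOn ℝ ∞ d.EX1_Phi (d.Fr.O ×ˢ (univ : Set (ℝ × ℝ))) := by
  have hm : MapsTo (fun p : (ℝ × ℝ) × ℝ × ℝ => p.1) (d.Fr.O ×ˢ (univ : Set (ℝ × ℝ))) d.Fr.O :=
    fun p hp => hp.1
  have hf : ContDiffOn ℝ ∞ (fun p : (ℝ × ℝ) × ℝ × ℝ => p.1) (d.Fr.O ×ˢ (univ : Set (ℝ × ℝ))) :=
    contDiff_fst.contDiffOn
  have h1 : ContDiffOn ℝ ∞ (fun p : (ℝ × ℝ) × ℝ × ℝ => pd e1 d.Fr.f p.1)
      (d.Fr.O ×ˢ (univ : Set (ℝ × ℝ))) := by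
    have h2 : ContDiffOn ℝ ∞ (pd e1 d.Fr.f) d.Fr.O :=
      (d.Fr.f_sm.fderiv_of_isOpen d.Fr.O_open (m := ∞) (by simp)).clm_apply contDiffOn_const
    exact h2.comp hf hm
  have hz := d.Fr.ze_sm.comp hf hm
  have hzh := d.Fr.zh_sm.comp hf hm
  have hyh := d.Fr.yh_sm.comp hf hm
  have ha : ContDiffOn ℝ ∞ (fun p : (ℝ × ℝ) × ℝ × ℝ => p.2.1) (d.Fr.O ×ˢ (univ : Set (ℝ × ℝ))) :=
    (contDiff_fst.comp contDiff_snd).contDiffOn
  have hc : ContDiffOn ℝ ∞ (fun p : (ℝ × ℝ) × ℝ × ℝ => p.2.2) (d.Fr.O ×ˢ (univ : Set (ℝ × ℝ))) :=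
    (contDiff_snd.comp contDiff_snd).contDiffOn
  have harg : ContDiffOn ℝ ∞ (fun p : (ℝ × ℝ) × ℝ × ℝ => (p.2.1, d.Fr.ze p.1, p.2.2))
      (d.Fr.O ×ˢ (univ : Set (ℝ × ℝ))) := ha.prodMk (hz.prodMk hc)
  have hma : MapsTo (fun p : (ℝ × ℝ) × ℝ × ℝ => (p.2.1, d.Fr.ze p.1, p.2.2))
      (d.Fr.O ×ˢ (univ : Set (ℝ × ℝ))) {p | 0 < p.2.1} := fun p hp => d.Fr.ze_pos p.1 hp.1
  have hX := d.Lp.Xt_sm.comp harg hma
  have hY := d.Lp.Yt_sm.comp harg hma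
  exact (h1.add (((ha.pow 2).mul hX).smul hzh)).add ((ha.mul hY).smul hyh)

/-- `F0` in terms of `Φ` -/
private theorem EX1_F0 (i : Eps) : d.F0 i = fun q => d.EX1_Phi (q.1, d.A.ab i q.1, Real.cos q.2) := by
  funext q
  unfold F0 Lz EX1_Phi arg
  exact (add_assoc _ _ _).symm

private theorem EX1_Phi_diff {x : ℝ × ℝ} (hx : x ∈ d.Fr.O) (s : ℝ × ℝ) :
    DifferentiableAt ℝ d.EX1_Phi (x, s) :=
  (d.EX1_Phi_sm.contDiffAt (d.EX1_open.mem_nhds ⟨hx, mem_univ _⟩)).differentiableAt (by simp)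

/-- derivative of `Φ (z, β z, c)` -/
private theorem EX1_der {β : ℝ × ℝ → ℝ} {x : ℝ × ℝ} (hx : x ∈ d.Fr.O) (hβ : DifferentiableAt ℝ β x)
    (c : ℝ) : pd e2 (fun z => d.EX1_Phi (z, β z, c)) x =
      fderiv ℝ d.EX1_Phi (x, β x, c) (e2, pd e2 β x, 0) := by
  have h1 := (d.EX1_Phi_diff hx (β x, c)).hasFDerivAt
  have h2 : HasFDerivAt (fun z : ℝ × ℝ => (z, β z, c))
      ((ContinuousLinearMap.id ℝ (ℝ × ℝ)).prod ((fderiv ℝ β x).prod (0 : (ℝ × ℝ) →L[ℝ] ℝ))) x :=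
    (hasFDerivAt_id x).prodMk (hβ.hasFDerivAt.prodMk (hasFDerivAt_const c x))
  have h3 := (h1.comp x h2).fderiv
  have h4 : (fun z => d.EX1_Phi (z, β z, c)) = d.EX1_Phi ∘ fun z : ℝ × ℝ => (z, β z, c) := rfl
  unfold pd
  rw [h4, h3]
  rfl

/-- derivative of `Φ (z, β z, cos θ)` as a function of `(z, θ)` -/
private theorem EX1_derT {β : ℝ × ℝ → ℝ} {x : ℝ × ℝ} (hx : x ∈ d.Fr.O) (hβ : DifferentiableAt ℝ β x)
    (θ : ℝ) : fderiv ℝ (fun q : (ℝ × ℝ) × ℝ => d.EX1_Phi (q.1, β q.1, Real.cos q.2)) (x, θ) (e2, 0) =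
      fderiv ℝ d.EX1_Phi (x, β x, Real.cos θ) (e2, pd e2 β x, 0) := by
  have h1 := (d.EX1_Phi_diff hx (β x, Real.cos θ)).hasFDerivAt
  have hf : HasFDerivAt (fun q : (ℝ × ℝ) × ℝ => q.1) (ContinuousLinearMap.fst ℝ (ℝ × ℝ) ℝ) (x, θ) :=
    hasFDerivAt_fst
  have hb : HasFDerivAt (fun q : (ℝ × ℝ) × ℝ => β q.1)
      ((fderiv ℝ β x).comp (ContinuousLinearMap.fst ℝ (ℝ × ℝ) ℝ)) (x, θ) :=
    HasFDerivAt.comp (x, θ) (hβ.hasFDerivAt (x := x)) hf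
  have hc : HasFDerivAt (fun q : (ℝ × ℝ) × ℝ => Real.cos q.2)
      (-Real.sin θ • ContinuousLinearMap.snd ℝ (ℝ × ℝ) ℝ) (x, θ) :=
    (hasFDerivAt_snd (𝕜 := ℝ) (p := (x, θ))).cos
  have h2 := hf.prodMk (hb.prodMk hc)
  have h3 := (HasFDerivAt.comp (x, θ) h1 h2).fderiv
  have h4 : (fun q : (ℝ × ℝ) × ℝ => d.EX1_Phi (q.1, β q.1, Real.cos q.2)) =
    d.EX1_Phi ∘ fun q : (ℝ × ℝ) × ℝ => (q.1, β q.1, Real.cos q.2) := rfl
  rw [h4, h3]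
  simp [pd]

/-- the amplitude and its regularisation -/
private theorem EX1_ab (A : Amp) (hM : 1 ≤ A.M) (i : Eps) (x : ℝ × ℝ) :
    |A.ab i x - A.a x| ≤ Real.sqrt i := by
  have h1 := A.ab_sq i x
  have h2 := A.ab_pos i x
  have h3 := A.le_ab i x
  have h4 : 0 ≤ A.a x := A.flat.2.1 x
  have h5 : (i : ℝ) ^ (2 * A.M) = ((i : ℝ) ^ A.M) ^ 2 := by rw [← pow_mul, mul_comm]
  have h6 : 0 < (i : ℝ) ^ A.M := pow_pos i.2.1 _
  have h7 : (i : ℝ) ^ A.M ≤ i := pow_le_of_le_one i.2.1.le i.2.2.le (by omega)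
  have h8 : (i : ℝ) ≤ Real.sqrt i := by
    have := Real.mul_self_sqrt i.2.1.le
    have h9 : Real.sqrt i ≤ 1 := Real.sqrt_le_one.2 i.2.2.le
    nlinarith [Real.sqrt_nonneg (i : ℝ)]
  rw [h5] at h1
  rw [abs_of_nonneg (by linarith)]
  have h9 : A.ab i x ≤ A.a x + (i : ℝ) ^ A.M := by
    by_contra hcon
    have := not_le.1 hcon
    nlinarith
  linarith

private theorem EX1_a_diff (A : Amp) (x : ℝ × ℝ) : DifferentiableAt ℝ A.a x :=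
  A.flat.1.differentiable (by simp) x

private theorem EX1_ab_der (A : Amp) (i : Eps) (x : ℝ × ℝ) :
    HasFDerivAt (A.ab i) ((A.a x / A.ab i x) • fderiv ℝ A.a x) x := by
  have h1 := (EX1_a_diff A x).hasFDerivAt
  have h2 : HasFDerivAt (fun y => A.a y ^ 2 + (i : ℝ) ^ (2 * A.M)) ((2 * A.a x) • fderiv ℝ A.a x) x := by
    have h3 := (h1.mul h1).add_const ((i : ℝ) ^ (2 * A.M))
    have e1 : (fun y => A.a y ^ 2 + (i : ℝ) ^ (2 * A.M)) =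
        fun y => A.a y * A.a y + (i : ℝ) ^ (2 * A.M) := by
      funext y
      ring
    rw [e1]
    refine h3.congr_fderiv ?_
    rw [← add_smul]
    congr 1
    ring
  have h3 : A.a x ^ 2 + (i : ℝ) ^ (2 * A.M) ≠ 0 := by
    have := pow_pos i.2.1 (2 * A.M)
    positivity
  have h4 := h2.sqrt h3
  have h5 : HasFDerivAt (A.ab i) ((1 / (2 * A.ab i x)) • (2 * A.a x) • fderiv ℝ A.a x) x := h4
  refine h5.congr_fderiv ?_
  rw [smul_smul]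
  congr 1
  have := (A.ab_pos i x).ne'
  field_simp

/-- the derivative of the amplitude -/
private theorem EX1_a_der (A : Amp) : ∃ C : ℝ, 0 ≤ C ∧ ∀ x, |pd e2 A.a x| ≤ C * Real.sqrt (A.a x) := by
  obtain ⟨C, hC⟩ := A.flat.2.2 1 (1 / 2) (by norm_num) (by norm_num)
  refine ⟨max C 0, le_max_right _ _, fun x => ?_⟩
  have h1 := hC x
  rw [norm_iteratedFDeriv_one] at h1
  have e1 : (1 : ℝ) - 1 / 2 = 1 / 2 := by norm_num
  rw [e1, ← Real.sqrt_eq_rpow] at h1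
  have h2 : ‖(e2 : ℝ × ℝ)‖ = 1 := by
    unfold e2
    rw [Prod.norm_def]
    simp
  have h3 : |pd e2 A.a x| ≤ ‖fderiv ℝ A.a x‖ := by
    have := (fderiv ℝ A.a x).le_opNorm e2
    rw [h2, mul_one] at this
    exact this
  exact h3.trans (h1.trans (mul_le_mul_of_nonneg_right (le_max_left _ _) (Real.sqrt_nonneg _)))

/-- the derivatives of the amplitude and of its regularisation -/
private theorem EX1_dab (A : Amp) (hM : 1 ≤ A.M) {C : ℝ} (hC0 : 0 ≤ C)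
    (hC : ∀ x, |pd e2 A.a x| ≤ C * Real.sqrt (A.a x)) (i : Eps) (x : ℝ × ℝ) :
    |pd e2 (A.ab i) x - pd e2 A.a x| ≤ C * Real.sqrt i ∧ |pd e2 (A.ab i) x| ≤ |pd e2 A.a x| := by
  have hab := A.ab_pos i x
  have h1 := A.ab_sq i x
  have h3 := A.le_ab i x
  have h4 : 0 ≤ A.a x := A.flat.2.1 x
  have h5 : pd e2 (A.ab i) x = A.a x / A.ab i x * pd e2 A.a x := by
    unfold pd
    rw [(EX1_ab_der A i x).fderiv]
    rfl
  have h6 : 0 ≤ A.a x / A.ab i x := div_nonneg h4 hab.le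
  have h7 : A.a x / A.ab i x ≤ 1 := (div_le_one hab).2 h3
  refine ⟨?_, ?_⟩
  · have h8 : pd e2 (A.ab i) x - pd e2 A.a x = -((1 - A.a x / A.ab i x) * pd e2 A.a x) := by
      rw [h5]
      ring
    rw [h8, abs_neg, abs_mul, abs_of_nonneg (by linarith)]
    have h9 : (1 - A.a x / A.ab i x) * Real.sqrt (A.a x) ≤ Real.sqrt i := by
      set t : ℝ := (i : ℝ) ^ A.M with ht
      have ht0 : 0 < t := pow_pos i.2.1 _
      have ht1 : t ≤ i := pow_le_of_le_one i.2.1.le i.2.2.le (by omega)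
      have e5 : (i : ℝ) ^ (2 * A.M) = t ^ 2 := by rw [ht, ← pow_mul, mul_comm]
      rw [e5] at h1
      have e6 : t ≤ A.ab i x := A.eps_le_ab i x
      have e7 : 1 - A.a x / A.ab i x ≤ t ^ 2 / A.ab i x ^ 2 := by
        rw [le_div_iff₀ (by positivity)]
        have e8 : (1 - A.a x / A.ab i x) * A.ab i x ^ 2 = (A.ab i x - A.a x) * A.ab i x := by
          field_simp
        rw [e8]
        nlinarith
      have e9 : Real.sqrt (A.a x) ≤ Real.sqrt (A.ab i x) := Real.sqrt_le_sqrt h3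
      set s : ℝ := Real.sqrt (A.ab i x) with hs
      have hs2 : s ^ 2 = A.ab i x := Real.sq_sqrt hab.le
      have hs0 : 0 < s := Real.sqrt_pos.2 hab
      set w : ℝ := Real.sqrt t with hw
      have hw2 : w ^ 2 = t := Real.sq_sqrt ht0.le
      have hw0 : 0 < w := Real.sqrt_pos.2 ht0
      have hws : w ≤ s := Real.sqrt_le_sqrt e6
      have hwi : w ≤ Real.sqrt i := Real.sqrt_le_sqrt ht1
      have e10 : t ^ 2 / A.ab i x ^ 2 * s ≤ w := by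
        rw [← hs2, ← hw2, div_mul_eq_mul_div, div_le_iff₀ (by positivity)]
        have e11 : w ^ 3 ≤ s ^ 3 := pow_le_pow_left₀ hw0.le hws 3
        nlinarith [mul_le_mul_of_nonneg_left e11 (mul_pos hw0 hs0).le]
      calc (1 - A.a x / A.ab i x) * Real.sqrt (A.a x)
          ≤ t ^ 2 / A.ab i x ^ 2 * s := mul_le_mul e7 e9 (Real.sqrt_nonneg _) (by positivity)
        _ ≤ w := e10
        _ ≤ Real.sqrt i := hwi
    calc (1 - A.a x / A.ab i x) * |pd e2 A.a x|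
        ≤ (1 - A.a x / A.ab i x) * (C * Real.sqrt (A.a x)) :=
          mul_le_mul_of_nonneg_left (hC x) (by linarith)
      _ = C * ((1 - A.a x / A.ab i x) * Real.sqrt (A.a x)) := by ring
      _ ≤ C * Real.sqrt i := mul_le_mul_of_nonneg_left h9 hC0
  · rw [h5, abs_mul, abs_of_nonneg h6]
    exact mul_le_of_le_one_left (abs_nonneg _) h7

include hL

/-- the comparison -/
theorem EX1_close (hM : 1 ≤ d.A.M) : ∃ C : ℝ, ∀ i : Eps, ∀ x ∈ Metric.ball (0 : ℝ × ℝ) 3, ∀ θ : ℝ,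
    ‖d.F0 i (x, θ) - ES.G0 tf (d.Fr.yh x) (pd e1 d.Fr.f x) (pd e2 d.Fr.f x)
      (pd e2 (pd e2 d.Fr.f) x) (d.A.a x) (Real.cos θ)‖ ≤ C * Real.sqrt i ∧
    ‖dX e2 d.F0 i (x, θ) - pd e2 (fun z => ES.G0 tf (d.Fr.yh z) (pd e1 d.Fr.f z) (pd e2 d.Fr.f z)
      (pd e2 (pd e2 d.Fr.f) z) (d.A.a z) (Real.cos θ)) x‖ ≤ C * Real.sqrt i := by
  obtain ⟨A, hA1, hA⟩ := d.A.ab_le
  obtain ⟨C₁, hC₁0, hC₁⟩ := EX1_a_der d.A
  have hKc : IsCompact (Metric.closedBall (0 : ℝ × ℝ) 3 ×ˢ (Icc (0 : ℝ) A ×ˢ Icc (-1 : ℝ) 1)) :=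
    (isCompact_closedBall _ _).prod (isCompact_Icc.prod isCompact_Icc)
  have hKv : Convex ℝ (Metric.closedBall (0 : ℝ × ℝ) 3 ×ˢ (Icc (0 : ℝ) A ×ˢ Icc (-1 : ℝ) 1)) :=
    (convex_closedBall _ _).prod ((convex_Icc _ _).prod (convex_Icc _ _))
  have hKO : Metric.closedBall (0 : ℝ × ℝ) 3 ×ˢ (Icc (0 : ℝ) A ×ˢ Icc (-1 : ℝ) 1) ⊆
      d.Fr.O ×ˢ (univ : Set (ℝ × ℝ)) := fun p hp => ⟨d.Fr.O_sup hp.1, mem_univ _⟩
  have hPhi' : ContDiffOn ℝ ∞ (fderiv ℝ d.EX1_Phi) (d.Fr.O ×ˢ (univ : Set (ℝ × ℝ))) :=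
    d.EX1_Phi_sm.fderiv_of_isOpen d.EX1_open (m := ∞) (by simp)
  obtain ⟨L₀, hL₀⟩ := (d.EX1_Phi_sm.mono hKO).exists_lipschitzOnWith (by simp) hKv hKc
  obtain ⟨L₁, hL₁⟩ := (hPhi'.mono hKO).exists_lipschitzOnWith (by simp) hKv hKc
  obtain ⟨B, hB⟩ := hKc.exists_bound_of_continuousOn (hPhi'.mono hKO).continuousOn
  obtain ⟨A', hA'1, hA'⟩ := d.A.a_bdd
  refine ⟨(L₀ : ℝ) + (L₁ * (1 + C₁ * Real.sqrt A') + max B 0 * C₁), fun i x hx θ => ?_⟩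
  have hxO : x ∈ d.Fr.O := d.Fr.O_sup (Metric.ball_subset_closedBall hx)
  have hsi : 0 ≤ Real.sqrt i := Real.sqrt_nonneg _
  have hc : Real.cos θ ∈ Icc (-1 : ℝ) 1 := ⟨Real.neg_one_le_cos θ, Real.cos_le_one θ⟩
  have hk1 : (x, d.A.ab i x, Real.cos θ) ∈
      Metric.closedBall (0 : ℝ × ℝ) 3 ×ˢ (Icc (0 : ℝ) A ×ˢ Icc (-1 : ℝ) 1) :=
    ⟨Metric.ball_subset_closedBall hx, ⟨(d.A.ab_pos i x).le, hA i x⟩, hc⟩
  have hk2 : (x, d.A.a x, Real.cos θ) ∈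
      Metric.closedBall (0 : ℝ × ℝ) 3 ×ˢ (Icc (0 : ℝ) A ×ˢ Icc (-1 : ℝ) 1) :=
    ⟨Metric.ball_subset_closedBall hx, ⟨d.A.flat.2.1 x, (d.A.le_ab i x).trans (hA i x)⟩, hc⟩
  have hdist : dist (x, d.A.ab i x, Real.cos θ) (x, d.A.a x, Real.cos θ) =
      |d.A.ab i x - d.A.a x| := by
    rw [Prod.dist_eq, Prod.dist_eq]
    simp [Real.dist_eq]
  have hab := EX1_ab d.A hM i x
  have hL00 : (0 : ℝ) ≤ L₀ := L₀.2
  have hL10 : (0 : ℝ) ≤ L₁ := L₁.2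
  have hG : ∀ z ∈ d.Fr.O, ES.G0 tf (d.Fr.yh z) (pd e1 d.Fr.f z) (pd e2 d.Fr.f z)
      (pd e2 (pd e2 d.Fr.f) z) (d.A.a z) (Real.cos θ) = d.EX1_Phi (z, d.A.a z, Real.cos θ) :=
    fun z hz => d.EX1_G0 hL hz _ _
  have hm0 : 0 ≤ max B 0 := le_max_right _ _
  have hsA : 0 ≤ C₁ * Real.sqrt A' := mul_nonneg hC₁0 (Real.sqrt_nonneg _)
  refine ⟨?_, ?_⟩
  · rw [hG x hxO, d.EX1_F0, ← dist_eq_norm]
    have h1 := hL₀.dist_le_mul _ hk1 _ hk2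
    rw [hdist] at h1
    refine h1.trans ?_
    calc (L₀ : ℝ) * |d.A.ab i x - d.A.a x| ≤ L₀ * Real.sqrt i := mul_le_mul_of_nonneg_left hab hL00
      _ ≤ _ := by
        refine mul_le_mul_of_nonneg_right ?_ hsi
        have := mul_nonneg hL10 (by linarith : 0 ≤ 1 + C₁ * Real.sqrt A')
        have := mul_nonneg hm0 hC₁0
        linarith
  · have hd1 : dX e2 d.F0 i (x, θ) =
        fderiv ℝ d.EX1_Phi (x, d.A.ab i x, Real.cos θ) (e2, pd e2 (d.A.ab i) x, 0) := by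
      unfold dX
      rw [d.EX1_F0]
      exact d.EX1_derT hxO (EX1_ab_der d.A i x).differentiableAt θ
    have hd2 : pd e2 (fun z => ES.G0 tf (d.Fr.yh z) (pd e1 d.Fr.f z) (pd e2 d.Fr.f z)
        (pd e2 (pd e2 d.Fr.f) z) (d.A.a z) (Real.cos θ)) x =
        fderiv ℝ d.EX1_Phi (x, d.A.a x, Real.cos θ) (e2, pd e2 d.A.a x, 0) := by
      rw [← d.EX1_der hxO (EX1_a_diff d.A x)]
      unfold pd
      congr 1
      refine Filter.EventuallyEq.fderiv_eq ?_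
      filter_upwards [d.Fr.O_open.mem_nhds hxO] with z hz
      exact hG z hz
    obtain ⟨hd3, hd4⟩ := EX1_dab d.A hM hC₁0 hC₁ i x
    have hax : |pd e2 d.A.a x| ≤ C₁ * Real.sqrt A' :=
      (hC₁ x).trans (mul_le_mul_of_nonneg_left (Real.sqrt_le_sqrt (hA' x)) hC₁0)
    have e2n : ‖(e2 : ℝ × ℝ)‖ = 1 := by
      unfold e2
      rw [Prod.norm_def]
      simp
    have hv : ‖((e2, pd e2 (d.A.ab i) x, 0) : (ℝ × ℝ) × ℝ × ℝ)‖ ≤ 1 + C₁ * Real.sqrt A' := by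
      rw [Prod.norm_mk (e2 : ℝ × ℝ), Prod.norm_mk (pd e2 (d.A.ab i) x), e2n, norm_zero,
        Real.norm_eq_abs]
      refine max_le (by linarith) (max_le ?_ (by linarith))
      linarith [hd4.trans hax]
    have hw : ((e2, pd e2 (d.A.ab i) x, 0) : (ℝ × ℝ) × ℝ × ℝ) - (e2, pd e2 d.A.a x, 0) =
        ((0 : ℝ × ℝ), pd e2 (d.A.ab i) x - pd e2 d.A.a x, (0 : ℝ)) := by
      simp
    have hwn : ‖((0 : ℝ × ℝ), pd e2 (d.A.ab i) x - pd e2 d.A.a x, (0 : ℝ))‖ ≤ C₁ * Real.sqrt i := by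
      rw [Prod.norm_mk (0 : ℝ × ℝ), Prod.norm_mk (pd e2 (d.A.ab i) x - pd e2 d.A.a x), norm_zero,
        norm_zero, Real.norm_eq_abs]
      exact max_le (mul_nonneg hC₁0 hsi) (max_le hd3 (mul_nonneg hC₁0 hsi))
    rw [hd1, hd2]
    have key : fderiv ℝ d.EX1_Phi (x, d.A.ab i x, Real.cos θ) (e2, pd e2 (d.A.ab i) x, 0) -
        fderiv ℝ d.EX1_Phi (x, d.A.a x, Real.cos θ) (e2, pd e2 d.A.a x, 0) =
        (fderiv ℝ d.EX1_Phi (x, d.A.ab i x, Real.cos θ) -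
          fderiv ℝ d.EX1_Phi (x, d.A.a x, Real.cos θ)) (e2, pd e2 (d.A.ab i) x, 0) +
        fderiv ℝ d.EX1_Phi (x, d.A.a x, Real.cos θ)
          ((0 : ℝ × ℝ), pd e2 (d.A.ab i) x - pd e2 d.A.a x, (0 : ℝ)) := by
      rw [← hw, map_sub, sub_apply]
      abel
    rw [key]
    refine (norm_add_le _ _).trans ?_
    have h1 : ‖(fderiv ℝ d.EX1_Phi (x, d.A.ab i x, Real.cos θ) -
          fderiv ℝ d.EX1_Phi (x, d.A.a x, Real.cos θ)) (e2, pd e2 (d.A.ab i) x, 0)‖ ≤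
        L₁ * (1 + C₁ * Real.sqrt A') * Real.sqrt i := by
      refine (ContinuousLinearMap.le_opNorm _ _).trans ?_
      have h2 := hL₁.dist_le_mul _ hk1 _ hk2
      rw [hdist, dist_eq_norm] at h2
      calc _ ≤ (L₁ * Real.sqrt i) * (1 + C₁ * Real.sqrt A') :=
            mul_le_mul (h2.trans (mul_le_mul_of_nonneg_left hab hL10)) hv (norm_nonneg _)
              (mul_nonneg hL10 hsi)
        _ = _ := by ring
    have h2 : ‖fderiv ℝ d.EX1_Phi (x, d.A.a x, Real.cos θ)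
          ((0 : ℝ × ℝ), pd e2 (d.A.ab i) x - pd e2 d.A.a x, (0 : ℝ))‖ ≤
        max B 0 * C₁ * Real.sqrt i := by
      refine (ContinuousLinearMap.le_opNorm _ _).trans ?_
      calc _ ≤ max B 0 * (C₁ * Real.sqrt i) :=
            mul_le_mul ((hB _ hk2).trans (le_max_left _ _)) hwn (norm_nonneg _) hm0
        _ = _ := by ring
    have h3 := mul_nonneg hL00 hsi
    linarith

end ED

end P205F.EE
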