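import Vale.Agent.Lib.P205E.LoopB
import Vale.Agent.Lib.P205E.EX1

/-! # P205E module LoopC: the function `tf` -/

open scoped ContDiff
open Set

namespace P205F.EE

theorem exists_loop_tf : ∃ (tf : ℝ → ℝ) (L : Loop), ContDiff ℝ ∞ tf ∧ tf 0 = 0 ∧ ED.LoopTf L tf :=
  exists_loop_tf'

end P205F.EE
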