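import Vale.Agent.Lib.P205E.EX3
import Vale.Agent.Lib.P205E.FrameA
import Vale.Agent.Lib.P205E.LoopC

/-! # P205E module EX: the local exact stage

`tf` and the loop from `exists_loop_tf`; the frame from `exists_frm` (`yh_yh` etc. give the properties of `y = yh`, note
`⟪f₁, yh⟫ = 0` by `f1_eq`); `M = K + 4`, order `max K 2`.  `F ε = cutF χ f Fr ⟨ε, _⟩` for `0 < ε < 1`.
Growth functions are `≤ C ε⁻¹`. -/

open scoped ContDiff
open Set

namespace P205F.EE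

/-- bounds of a family with constant weight: growth functions are `≤ C ε⁻¹` -/
theorem EX_bd {V : Type} [NormedAddCommGroup V] [NormedSpace ℝ V] {W : Eps → ℝ}
    {u : Eps → ℝ × ℝ → V} (hW : ∀ i, 0 ≤ W i) (hu : Bd SE (fun i _ => W i) u) (r : ℕ) :
    ∃ C : ℝ, ∀ i : Eps, ∀ x ∈ Metric.ball (0 : ℝ × ℝ) 3,
      ‖iteratedFDeriv ℝ r (u i) x‖ ≤ C * W i * (i : ℝ)⁻¹ ^ (r + 1) := by
  obtain ⟨g, hg, hb⟩ := hu.2 r
  have hg' : g ∈ {g : Eps → ℝ | (∀ i, 1 ≤ g i) ∧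
    ∀ c : ℝ, 0 < c → ∃ C : ℝ, ∀ i : Eps, g i ≤ C * (i : ℝ) ^ (-c)} := hg
  obtain ⟨C, hC⟩ := hg'.2 1 one_pos
  refine ⟨C, fun i x hx => ?_⟩
  have h1 := hb i x hx
  have h2 := hC i
  have hi : 0 < (i : ℝ) := i.2.1
  have hs : SE.s i = (i : ℝ) := rfl
  rw [hs] at h1
  rw [Real.rpow_neg_one] at h2
  have h3 : 0 ≤ (i : ℝ)⁻¹ ^ r := pow_nonneg (inv_nonneg.2 hi.le) r
  calc ‖iteratedFDeriv ℝ r (u i) x‖ ≤ g i * W i * (i : ℝ)⁻¹ ^ r := h1
    _ ≤ (C * (i : ℝ)⁻¹) * W i * (i : ℝ)⁻¹ ^ r :=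
        mul_le_mul_of_nonneg_right (mul_le_mul_of_nonneg_right h2 (hW i)) h3
    _ = C * W i * (i : ℝ)⁻¹ ^ (r + 1) := by rw [pow_succ]; ring

/-- derivatives of a smooth function are bounded on the square -/
theorem EX_fbd {V : Type} [NormedAddCommGroup V] [NormedSpace ℝ V] {f : ℝ × ℝ → V}
    {O : Set (ℝ × ℝ)} (hO : IsOpen O) (hs : Metric.closedBall 0 3 ⊆ O) (hf : ContDiffOn ℝ ∞ f O)
    (r : ℕ) : ∃ C : ℝ, 0 ≤ C ∧ ∀ x ∈ Metric.ball (0 : ℝ × ℝ) 3, ‖iteratedFDeriv ℝ r f x‖ ≤ C := by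
  have hc : ContinuousOn (fun x => iteratedFDeriv ℝ r f x) (Metric.closedBall (0 : ℝ × ℝ) 3) := by
    intro x hx
    have h1 : ContDiffAt ℝ (r : ℕ) f x :=
      ((hf x (hs hx)).contDiffAt (hO.mem_nhds (hs hx))).of_le (by exact_mod_cast le_top)
    have h2 := h1.iteratedFDeriv_right (m := 0) (i := r) (by simp)
    exact h2.continuousAt.continuousWithinAt
  obtain ⟨C, hC⟩ := (isCompact_closedBall (0 : ℝ × ℝ) 3).exists_bound_of_continuousOn hc
  refine ⟨C, (norm_nonneg _).trans (hC 0 (by simp)), fun x hx => hC x (Metric.ball_subset_closedBall hx)⟩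

theorem esaStmt : ES.ESAStmt := by
  obtain ⟨tf, L, htf, htf0, hL⟩ := exists_loop_tf
  refine ⟨tf, htf, htf0, ?_⟩
  intro f O a hO hsub hf hind hflat hsupp
  obtain ⟨Fm, rfl, hFO⟩ := exists_frm f O hO hsub hf hind
  refine ⟨Fm.O, Fm.yh, Fm.O_open, Fm.O_sup, hFO, Fm.yh_sm, ?_, ?_⟩
  · intro x hx
    have h2 := Fm.f2_yh x hx
    have h22 := Fm.f22_yh x hx
    refine ⟨?_, ?_, h2, h22⟩
    · have := Fm.yh_yh x hx
      rw [real_inner_self_eq_norm_sq] at this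
      nlinarith [norm_nonneg (Fm.yh x)]
    · have h1 := Fm.f1_eq x hx
      have : ES.d1 Fm.f x = pd e1 Fm.f x := rfl
      rw [this, h1, inner_add_left, inner_add_left, real_inner_smul_left, real_inner_smul_left,
        real_inner_smul_left, h2, h22, Fm.zh_yh x hx]
      ring
  · intro K
    obtain ⟨d, hdA, hdF, hdL, hdM⟩ : ∃ d : ED, d.A.a = a ∧ d.Fr = Fm ∧ d.Lp = L ∧ d.A.M = K + 4 :=
      ⟨⟨⟨a, K + 4, hflat⟩, Fm, L⟩, rfl, rfl, rfl, rfl⟩
    subst hdF hdL hdA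
    obtain ⟨Fr, hraw⟩ := d.exists_raw (K := max K 2) (le_max_right _ _) (by rw [hdM]; omega)
    obtain ⟨χ, hχ, h1, h0, h01⟩ := exists_cut
    have hM' : max K 2 ≤ d.A.M := by rw [hdM]; omega
    have hM4 : 4 ≤ d.A.M := by rw [hdM]; omega
    have hsize := d.EX2_size hraw hχ
    obtain ⟨F, hF⟩ : ∃ F : ℝ → ℝ × ℝ → F4, ∀ ε : ℝ, ∀ h : 0 < ε ∧ ε < 1,
        F ε = cutF χ d.Fr.f Fr ⟨ε, h⟩ :=
      ⟨fun ε => if h : 0 < ε ∧ ε < 1 then cutF χ d.Fr.f Fr ⟨ε, h⟩ else d.Fr.f,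
        fun ε h => dif_pos h⟩
    have hoff : ∀ i : Eps, ∀ x, x ∉ Metric.closedBall (0 : ℝ × ℝ) (7 / 4) →
        cutF χ d.Fr.f Fr i x = d.Fr.f x := by
      intro i x hx
      simp only [cutF, h0 x hx, zero_smul, add_zero]
    have hsm : ∀ i : Eps, ContDiffOn ℝ ∞ (cutF χ d.Fr.f Fr i) O := by
      intro i x hx
      by_cases hx' : x ∈ Metric.ball (0 : ℝ × ℝ) 3
      · have h2 : ContDiffAt ℝ ∞ (fun x => cutF χ d.Fr.f Fr i x - d.Fr.f x) x :=
          (hsize.1 i).contDiffAt (Metric.isOpen_ball.mem_nhds hx')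
        have h3 : ContDiffAt ℝ ∞ d.Fr.f x := hf.contDiffAt (hO.mem_nhds hx)
        have h4 := h2.add h3
        have h5 : (fun x => cutF χ d.Fr.f Fr i x - d.Fr.f x) + d.Fr.f = cutF χ d.Fr.f Fr i := by
          funext z
          simp
        have h6 : ContDiffAt ℝ ∞ (cutF χ d.Fr.f Fr i) x := by
          rw [← h5]; exact h4
        exact h6.contDiffWithinAt
      · have h3 : ContDiffAt ℝ ∞ d.Fr.f x := hf.contDiffAt (hO.mem_nhds hx)
        have h4 : cutF χ d.Fr.f Fr i =ᶠ[nhds x] d.Fr.f := by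
          have : (Metric.closedBall (0 : ℝ × ℝ) (7 / 4))ᶜ ∈ nhds x := by
            refine Metric.isClosed_closedBall.isOpen_compl.mem_nhds ?_
            intro h
            exact hx' (Metric.closedBall_subset_ball (by norm_num) h)
          filter_upwards [this] with z hz using hoff i z hz
        exact (h3.congr_of_eventuallyEq h4).contDiffWithinAt
    refine ⟨F, ?_, ?_, ?_, ?_, ?_, ?_⟩
    · intro ε hε
      rw [hF ε hε]
      exact hsm _
    · intro ε hε x hx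
      rw [hF ε hε]
      exact hoff _ x hx
    · intro r
      obtain ⟨C, hC⟩ := EX_bd (fun i => i.2.1.le) hsize r
      obtain ⟨C', hC'0, hC'⟩ := EX_fbd d.Fr.O_open d.Fr.O_sup d.Fr.f_sm r
      refine ⟨|C| + C', fun ε hε x hx => ?_⟩
      rw [hF ε hε]
      obtain ⟨i, hi⟩ : ∃ i : Eps, i = ⟨ε, hε⟩ := ⟨_, rfl⟩
      have hiε : (i : ℝ) = ε := by rw [hi]
      rw [← hi]
      have hsx : ContDiffAt ℝ (r : ℕ) (fun x => cutF χ d.Fr.f Fr i x - d.Fr.f x) x :=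
        ((hsize.1 i).contDiffAt (Metric.isOpen_ball.mem_nhds hx)).of_le (by exact_mod_cast le_top)
      have hfx : ContDiffAt ℝ (r : ℕ) d.Fr.f x :=
        (d.Fr.f_sm.contDiffAt (d.Fr.O_open.mem_nhds
          (d.Fr.O_sup (Metric.ball_subset_closedBall hx)))).of_le (by exact_mod_cast le_top)
      have h5 : (fun x => cutF χ d.Fr.f Fr i x - d.Fr.f x) + d.Fr.f = cutF χ d.Fr.f Fr i := by
        funext z
        simp
      have h6 := iteratedFDeriv_add_apply hsx hfx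
      rw [h5] at h6
      rw [h6]
      have h7 := hC i x hx
      have h8 := hC' x hx
      rw [hiε] at h7
      have hε1 : 1 ≤ ε⁻¹ := (one_le_inv₀ hε.1).2 hε.2.le
      have hp : 1 ≤ ε⁻¹ ^ (r + 1) := one_le_pow₀ hε1
      have h9 : C * ε ≤ |C| := by
        calc C * ε ≤ |C| * ε := mul_le_mul_of_nonneg_right (le_abs_self C) hε.1.le
          _ ≤ |C| * 1 := mul_le_mul_of_nonneg_left hε.2.le (abs_nonneg C)
          _ = |C| := mul_one _
      refine (norm_add_le _ _).trans ?_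
      calc _ ≤ C * ε * ε⁻¹ ^ (r + 1) + C' := add_le_add h7 h8
        _ ≤ |C| * ε⁻¹ ^ (r + 1) + C' * ε⁻¹ ^ (r + 1) := by
            refine add_le_add (mul_le_mul_of_nonneg_right h9 (by linarith)) ?_
            calc C' = C' * 1 := (mul_one _).symm
              _ ≤ C' * ε⁻¹ ^ (r + 1) := mul_le_mul_of_nonneg_left hp hC'0
        _ = (|C| + C') * ε⁻¹ ^ (r + 1) := by ring
    · intro v w hv hw r
      have hm := d.EX2_metric hM' hsupp hraw hχ h1 v w hv hw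
      obtain ⟨C, hC⟩ := EX_bd (fun i => pow_nonneg i.2.1.le _) hm r
      refine ⟨|C|, fun ε hε x hx => ?_⟩
      rw [hF ε hε]
      have h7 := hC ⟨ε, hε⟩ x hx
      refine le_trans h7 ?_
      have hp : 0 ≤ ε⁻¹ ^ (r + 1) := pow_nonneg (inv_nonneg.2 hε.1.le) _
      refine mul_le_mul_of_nonneg_right ?_ hp
      calc C * ε ^ max K 2 ≤ |C| * ε ^ max K 2 :=
            mul_le_mul_of_nonneg_right (le_abs_self C) (pow_nonneg hε.1.le _)
        _ ≤ |C| * ε ^ K := mul_le_mul_of_nonneg_left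
            (pow_le_pow_of_le_one hε.1.le hε.2.le (le_max_left _ _)) (abs_nonneg C)
    · obtain ⟨C, hC⟩ := d.EX3_close hM4 hsupp hraw hχ h1
      refine ⟨C, fun ε hε x hx => ?_⟩
      rw [hF ε hε]
      exact hC ⟨ε, hε⟩ x hx
    · obtain ⟨C, hC⟩ := d.EX3_first hM4 hsupp hraw hχ h1 hL
      refine ⟨C, fun ε hε x hx => ?_⟩
      rw [hF ε hε]
      exact hC ⟨ε, hε⟩ x hx

end P205F.EE
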