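import Mathlib
import Vale.Agent.Lib.P205E.EC1
import Vale.Agent.Lib.P205F.KB
import Vale.Agent.Lib.P205F.KC

/-! # P205E module EC2: the regularised amplitude is of its own size

`abar ^ 2 = a ^ 2 + ε ^ (2 M)`.  By Leibniz and flatness `|D^r (a ^ 2)| ≤ C a ^ (2 - c)` for every `c > 0`, and
`a ^ (2 - c) ≤ abar ^ (2 - c) ≤ abar ^ 2 * ε ^ (- c M)`; so `Bd SX (abar ^ 2) (abar ^ 2)`, then `Bd.sqrt`. -/

open scoped ContDiff
open Set

namespace P205F.EE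

theorem EC2_wt_one (A : Amp) (i : Eps) (x : ℝ × ℝ) : A.wt 1 0 i x = A.ab i x := by
  rw [Amp.wt, zpow_one, zpow_zero, mul_one]

/-- the pointwise bound with the loss `ε ^ (- c M)` -/
theorem EC2_point (A : Amp) (r : ℕ) (c : ℝ) (hc : 0 < c) (hc1 : c < 1) :
    ∃ C : ℝ, 0 ≤ C ∧ ∀ i : Eps, ∀ x, ‖iteratedFDeriv ℝ r A.a x‖ / A.ab i x ≤
      C * (i : ℝ) ^ (-(c * A.M)) := by
  obtain ⟨C, hC⟩ := A.flat.2.2 r c hc hc1
  refine ⟨|C|, abs_nonneg _, fun i x => ?_⟩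
  have hab := A.ab_pos i x
  have ha := A.flat.2.1 x
  rw [div_le_iff₀ hab]
  have h1 : ‖iteratedFDeriv ℝ r A.a x‖ ≤ |C| * A.ab i x ^ (1 - c) :=
    calc ‖iteratedFDeriv ℝ r A.a x‖ ≤ C * A.a x ^ (1 - c) := hC x
      _ ≤ |C| * A.a x ^ (1 - c) :=
          mul_le_mul_of_nonneg_right (le_abs_self C) (Real.rpow_nonneg ha _)
      _ ≤ |C| * A.ab i x ^ (1 - c) :=
          mul_le_mul_of_nonneg_left (Real.rpow_le_rpow ha (A.le_ab i x) (by linarith))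
            (abs_nonneg C)
  have h2 : A.ab i x ^ (1 - c) = A.ab i x ^ (-c) * A.ab i x := by
    rw [show (1 - c) = -c + 1 by ring, Real.rpow_add hab, Real.rpow_one]
  have hM : 0 < (i : ℝ) ^ A.M := pow_pos i.2.1 _
  have h3 : A.ab i x ^ (-c) ≤ ((i : ℝ) ^ A.M) ^ (-c) :=
    Real.rpow_le_rpow_of_nonpos hM (A.eps_le_ab i x) (by linarith)
  have h4 : ((i : ℝ) ^ A.M) ^ (-c) = (i : ℝ) ^ (-(c * A.M)) := by
    rw [← Real.rpow_natCast, ← Real.rpow_mul i.2.1.le]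
    congr 1
    ring
  calc ‖iteratedFDeriv ℝ r A.a x‖ ≤ |C| * (A.ab i x ^ (-c) * A.ab i x) := by rw [← h2]; exact h1
    _ = |C| * A.ab i x ^ (-c) * A.ab i x := by ring
    _ ≤ |C| * (i : ℝ) ^ (-(c * A.M)) * A.ab i x := by
        refine mul_le_mul_of_nonneg_right (mul_le_mul_of_nonneg_left ?_ (abs_nonneg C)) hab.le
        rw [← h4]
        exact h3

theorem OX_a (A : Amp) : OX A 1 0 (fun _ x => A.a x) := by
  refine ⟨fun i => A.flat.1.contDiffOn, fun r => ?_⟩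
  have hb : ∀ c : ℝ, 0 < c → ∃ C : ℝ, ∀ i : Eps,
      (⨆ x, ‖iteratedFDeriv ℝ r A.a x‖ / A.ab i x) ≤ C * (i : ℝ) ^ (-c) := by
    intro c hc
    have hM0 : (0 : ℝ) ≤ (A.M : ℝ) := Nat.cast_nonneg _
    have hM1 : (0 : ℝ) < (A.M : ℝ) + 1 := by linarith
    have hc' : 0 < min (1 / 2) (c / ((A.M : ℝ) + 1)) := lt_min (by norm_num) (div_pos hc hM1)
    have hc1 : min (1 / 2) (c / ((A.M : ℝ) + 1)) < 1 :=
      lt_of_le_of_lt (min_le_left _ _) (by norm_num)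
    obtain ⟨C, hC0, hC⟩ := EC2_point A r _ hc' hc1
    refine ⟨C, fun i => ciSup_le fun x => (hC i x).trans ?_⟩
    refine mul_le_mul_of_nonneg_left ?_ hC0
    refine Real.rpow_le_rpow_of_exponent_ge i.2.1 i.2.2.le ?_
    have h5 : min (1 / 2) (c / ((A.M : ℝ) + 1)) * (A.M : ℝ) ≤ c := by
      calc min (1 / 2) (c / ((A.M : ℝ) + 1)) * (A.M : ℝ)
          ≤ (c / ((A.M : ℝ) + 1)) * (A.M : ℝ) :=
            mul_le_mul_of_nonneg_right (min_le_right _ _) hM0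
        _ ≤ (c / ((A.M : ℝ) + 1)) * ((A.M : ℝ) + 1) :=
            mul_le_mul_of_nonneg_left (by linarith) (div_pos hc hM1).le
        _ = c := div_mul_cancel₀ _ hM1.ne'
    linarith
  obtain ⟨g', hg', hgg⟩ := GE_of_le hb
  refine ⟨g', hg', fun i x hx => ?_⟩
  have hbdd : BddAbove (range fun x => ‖iteratedFDeriv ℝ r A.a x‖ / A.ab i x) := by
    obtain ⟨C, hC0, hC⟩ := EC2_point A r (1 / 2) (by norm_num) (by norm_num)
    refine ⟨C * (i : ℝ) ^ (-((1 / 2) * (A.M : ℝ))), ?_⟩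
    rintro _ ⟨y, rfl⟩
    exact hC i y
  have h1 : ‖iteratedFDeriv ℝ r A.a x‖ / A.ab i x ≤ g' i := (le_ciSup hbdd x).trans (hgg i)
  rw [div_le_iff₀ (A.ab_pos i x)] at h1
  have h2 : (SX.s i)⁻¹ ^ r = 1 := by
    have : SX.s i = 1 := rfl
    rw [this, inv_one, one_pow]
  rw [EC2_wt_one, h2, mul_one]
  exact h1

theorem EC2_sq (A : Amp) : Bd SX (fun i x => A.ab i x ^ 2)
    (fun i x => A.a x * A.a x + (i : ℝ) ^ (2 * A.M)) := by
  have h1 : Bd SX (fun i x => A.ab i x ^ 2) (fun _ x => A.a x * A.a x) := by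
    refine (Bd.mul (OX_a A) (OX_a A)).mono (SX.G.const 1 le_rfl) fun i x _ => ?_
    show A.wt 1 0 i x * A.wt 1 0 i x ≤ 1 * A.ab i x ^ 2
    rw [EC2_wt_one]
    nlinarith [A.ab_pos i x]
  have h2 : Bd SX (fun i x => A.ab i x ^ 2) (fun i _ => (i : ℝ) ^ (2 * A.M)) := by
    have h3 : Bd SX (fun i _ => (i : ℝ) ^ (2 * A.M)) (fun i _ => (i : ℝ) ^ (2 * A.M)) := by
      refine Bd.const' (SX.G.const 1 le_rfl) _ _ fun i => ?_
      rw [one_mul, Real.norm_eq_abs, abs_of_nonneg (pow_nonneg i.2.1.le _)]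
    refine h3.mono (SX.G.const 1 le_rfl) fun i x _ => ?_
    show (i : ℝ) ^ (2 * A.M) ≤ 1 * A.ab i x ^ 2
    rw [one_mul, A.ab_sq i x]
    nlinarith [sq_nonneg (A.a x)]
  exact h1.add h2

theorem OX_ab (A : Amp) : OX A 1 0 A.ab := by
  have h := Bd.sqrt (SX.G.const 1 le_rfl) (EC2_sq A)
    (fun i x _ => pow_pos (A.ab_pos i x) 2) (fun i x _ => by
      show A.ab i x ^ 2 ≤ 1 * (A.a x * A.a x + (i : ℝ) ^ (2 * A.M))
      rw [one_mul, A.ab_sq i x]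
      nlinarith [sq_nonneg (A.a x)])
  have h2 : Bd SX (fun i x => Real.sqrt (A.ab i x ^ 2)) A.ab := by
    refine h.congr fun i x _ => ?_
    rw [Amp.ab, sq]
  refine h2.mono (SX.G.const 1 le_rfl) fun i x _ => ?_
  show Real.sqrt (A.ab i x ^ 2) ≤ 1 * A.wt 1 0 i x
  rw [one_mul, EC2_wt_one, Real.sqrt_sq (A.ab_pos i x).le]

theorem OX_ab_inv (A : Amp) : OX A (-1) 0 (fun i x => (A.ab i x)⁻¹) := by
  have h := Bd.inv (SX.G.const 1 le_rfl) (OX_ab A) (fun i x _ => A.wt_pos 1 0 i x)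
    (fun i x _ => by
      show A.wt 1 0 i x ≤ 1 * |A.ab i x|
      rw [one_mul, EC2_wt_one]
      exact le_abs_self _)
  refine h.mono (SX.G.const 1 le_rfl) fun i x _ => ?_
  show (A.wt 1 0 i x)⁻¹ ≤ 1 * A.wt (-1) 0 i x
  rw [one_mul, A.wt_inv]
  exact le_rfl

end P205F.EE
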