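import Mathlib
import Vale.Agent.Lib.P205E.EC1
import Vale.Agent.Lib.P205F.KB
import Vale.Agent.Lib.P205F.KC
import Vale.Agent.Lib.P205F.KD

/-! # P205E module EC3: closure properties of the classes `OX` -/

open scoped ContDiff
open Set

namespace P205F.EE

variable {V : Type} [NormedAddCommGroup V] [NormedSpace ℝ V] {A : Amp} {p m p' m' : ℤ}

private theorem EC3_weight {W : Eps → ℝ × ℝ → ℝ} {u : Eps → ℝ × ℝ → V} (h : Bd SX W u)
    (hW : ∀ i x, W i x = A.wt p m i x) : OX A p m u := by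
  have h1 : W = A.wt p m := by
    funext i x
    exact hW i x
  rw [h1] at h
  exact h

theorem OX.congr {u v : Eps → ℝ × ℝ → V} (hu : OX A p m u)
    (h : ∀ i, ∀ x ∈ Metric.ball (0 : ℝ × ℝ) 3, v i x = u i x) : OX A p m v :=
  Bd.congr (S := SX) hu h

theorem OX.mono {u : Eps → ℝ × ℝ → V} (hu : OX A p m u) (hp : p' ≤ p) (hm : m' ≤ m) :
    OX A p' m' u := by
  obtain ⟨C, hC, h⟩ := A.wt_le hp hm
  exact Bd.mono (S := SX) (SX.G.const C hC) hu fun i x _ => h i x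

theorem OX.zero : OX A p m (fun _ _ => (0 : V)) :=
  Bd.zero (S := SX) fun i x _ => (A.wt_pos p m i x).le

theorem OX.add {u v : Eps → ℝ × ℝ → V} (hu : OX A p m u) (hv : OX A p m v) :
    OX A p m (fun i x => u i x + v i x) :=
  Bd.add (S := SX) hu hv

theorem OX.neg {u : Eps → ℝ × ℝ → V} (hu : OX A p m u) : OX A p m (fun i x => -u i x) :=
  Bd.neg (S := SX) hu

theorem OX.sub {u v : Eps → ℝ × ℝ → V} (hu : OX A p m u) (hv : OX A p m v) :
    OX A p m (fun i x => u i x - v i x) :=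
  Bd.sub (S := SX) hu hv

theorem OX.smul {c : Eps → ℝ × ℝ → ℝ} {u : Eps → ℝ × ℝ → V} (hc : OX A p m c) (hu : OX A p' m' u) :
    OX A (p + p') (m + m') (fun i x => c i x • u i x) :=
  EC3_weight (Bd.smul (S := SX) hc hu) fun i x => A.wt_mul p m p' m' i x

theorem OX.mul {c u : Eps → ℝ × ℝ → ℝ} (hc : OX A p m c) (hu : OX A p' m' u) :
    OX A (p + p') (m + m') (fun i x => c i x * u i x) :=
  EC3_weight (Bd.mul (S := SX) hc hu) fun i x => A.wt_mul p m p' m' i x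

theorem OX.inner {H : Type} [NormedAddCommGroup H] [InnerProductSpace ℝ H] {u v : Eps → ℝ × ℝ → H}
    (hu : OX A p m u) (hv : OX A p' m' v) :
    OX A (p + p') (m + m') (fun i x => inner ℝ (u i x) (v i x)) :=
  EC3_weight (Bd.inner (S := SX) hu hv) fun i x => A.wt_mul p m p' m' i x

/-- multiplication by a power of `ε` -/
theorem OX.eps {u : Eps → ℝ × ℝ → V} (n : ℤ) (hu : OX A p m u) :
    OX A p (m + n) (fun i x => (i : ℝ) ^ n • u i x) := by
  refine EC3_weight (Bd.weightSmul (S := SX) (fun i : Eps => (i : ℝ) ^ n) hu) fun i x => ?_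
  have h0 : (0 : ℝ) < (i : ℝ) := i.2.1
  rw [abs_of_pos (zpow_pos h0 n)]
  unfold Amp.wt
  rw [zpow_add₀ h0.ne']
  ring

/-- multiplication by a constant -/
theorem OX.constSmul {u : Eps → ℝ × ℝ → V} (c : ℝ) (hu : OX A p m u) :
    OX A p m (fun i x => c • u i x) :=
  Bd.constSmul (S := SX) (g := fun _ => 1 + |c|)
    (SX.G.const (1 + |c|) (by linarith [abs_nonneg c])) (fun _ => c)
    (fun _ => by linarith) hu

/-- a fixed function, smooth near the closed square -/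
theorem OX.fixed {g : ℝ × ℝ → V} {O : Set (ℝ × ℝ)} (hO : IsOpen O)
    (hs : Metric.closedBall 0 3 ⊆ O) (hg : ContDiffOn ℝ ∞ g O) :
    OX A 0 0 (fun (_ : Eps) x => g x) := by
  have hb : Metric.ball (0 : ℝ × ℝ) 3 ⊆ O := Metric.ball_subset_closedBall.trans hs
  refine EC3_weight (W := fun _ _ => 1) ⟨fun i => hg.mono hb, fun r => ?_⟩
    fun i x => (A.wt_zero i x).symm
  obtain ⟨C, hC, h⟩ := KD_phi hO hg (isCompact_closedBall (0 : ℝ × ℝ) 3) hs r
  refine ⟨fun _ => C, SX.G.const C hC, fun i x hx => ?_⟩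
  have hx' : x ∈ Metric.closedBall (0 : ℝ × ℝ) 3 := Metric.ball_subset_closedBall hx
  have h1 := h r le_rfl x hx'
  rw [iteratedFDerivWithin_of_isOpen r hO (hs hx')] at h1
  have h2 : (SX.s i)⁻¹ = 1 := inv_one
  rw [h2, one_pow, mul_one, mul_one]
  exact h1

theorem OX.inv {u : Eps → ℝ × ℝ → ℝ} {C : ℝ} (hC : 1 ≤ C) (hu : OX A p m u)
    (h : ∀ i, ∀ x ∈ Metric.ball (0 : ℝ × ℝ) 3, A.wt p m i x ≤ C * |u i x|) :
    OX A (-p) (-m) (fun i x => (u i x)⁻¹) :=
  EC3_weight (Bd.inv (S := SX) (g := fun _ => C) (SX.G.const C hC) hu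
    (fun i x _ => A.wt_pos p m i x) h) fun i x => A.wt_inv p m i x

theorem OX.sqrt0 {u : Eps → ℝ × ℝ → ℝ} {C : ℝ} (hC : 1 ≤ C) (hu : OX A 0 0 u)
    (h : ∀ i, ∀ x ∈ Metric.ball (0 : ℝ × ℝ) 3, 1 ≤ C * u i x) :
    OX A 0 0 (fun i x => Real.sqrt (u i x)) :=
  EC3_weight (Bd.sqrt (S := SX) (g := fun _ => C) (SX.G.const C hC) hu
    (fun i x _ => A.wt_pos 0 0 i x) (fun i x hx => by rw [A.wt_zero]; exact h i x hx))
    fun i x => by rw [A.wt_zero, Real.sqrt_one]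

/-- partial derivatives -/
theorem OX.pd {u : Eps → ℝ × ℝ → V} (v : ℝ × ℝ) (hu : OX A p m u) :
    OX A p m (fun i x => pd v (u i) x) :=
  EC3_weight (Bd.dir (S := SX) (g := fun _ => 1 + ‖v‖)
    (SX.G.const (1 + ‖v‖) (by linarith [norm_nonneg v])) (fun _ => v)
    (fun _ => by linarith) hu) fun i x => by
      have h2 : (SX.s i)⁻¹ = 1 := inv_one
      rw [h2, mul_one]

/-- smoothness of the members -/
theorem OX.smooth {u : Eps → ℝ × ℝ → V} (hu : OX A p m u) (i : Eps) :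
    ContDiffOn ℝ ∞ (u i) (Metric.ball 0 3) := hu.1 i

end P205F.EE
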