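import Mathlib
import Vale.Agent.Lib.P205E.EC1
import Vale.Agent.Lib.P205F.KB
import Vale.Agent.Lib.P205F.KD
import Vale.Agent.Lib.P205F.KE

/-! # P205E module EC4: closure properties of the classes `OT` -/

open scoped ContDiff
open Set

namespace P205F.EE

variable {V : Type} [NormedAddCommGroup V] [NormedSpace ℝ V] {A : Amp} {p m p' m' : ℤ}

private theorem EC4_mem {i : Eps} {x : ℝ × ℝ} (hx : x ∈ Metric.ball (0 : ℝ × ℝ) 3) (θ : ℝ) :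
    ((x, θ) : (ℝ × ℝ) × ℝ) ∈ ST.U i := ⟨hx, mem_univ _⟩

private theorem EC4_one : (fun _ : Eps => (1 : ℝ)) ∈ ST.G.mem := ST.G.const 1 le_rfl

theorem OT.congr {u v : Eps → (ℝ × ℝ) × ℝ → V} (hu : OT A p m u)
    (h : ∀ i, ∀ q ∈ ST.U i, v i q = u i q) : OT A p m v := by
  refine ⟨hu.1.congr h, fun i x hx θ => ?_⟩
  rw [h i _ (EC4_mem hx _), h i _ (EC4_mem hx _)]
  exact hu.2 i x hx θ

theorem OT.mono {u : Eps → (ℝ × ℝ) × ℝ → V} (hu : OT A p m u) (hp : p' ≤ p) (hm : m' ≤ m) :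
    OT A p' m' u := by
  obtain ⟨C, hC, h⟩ := A.wt_le hp hm
  exact ⟨hu.1.mono (ST.G.const C hC) (fun i q _ => h i q.1), hu.2⟩

theorem OT.zero : OT A p m (fun _ _ => (0 : V)) :=
  ⟨Bd.zero fun i q _ => (A.wt_pos p m i q.1).le, fun _ _ _ _ => rfl⟩

theorem OT.add {u v : Eps → (ℝ × ℝ) × ℝ → V} (hu : OT A p m u) (hv : OT A p m v) :
    OT A p m (fun i q => u i q + v i q) := by
  refine ⟨hu.1.add hv.1, fun i x hx θ => ?_⟩
  show u i (x, θ + 2 * Real.pi) + v i (x, θ + 2 * Real.pi) = u i (x, θ) + v i (x, θ)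
  rw [hu.2 i x hx θ, hv.2 i x hx θ]

theorem OT.neg {u : Eps → (ℝ × ℝ) × ℝ → V} (hu : OT A p m u) : OT A p m (fun i q => -u i q) := by
  refine ⟨hu.1.neg, fun i x hx θ => ?_⟩
  show -u i (x, θ + 2 * Real.pi) = -u i (x, θ)
  rw [hu.2 i x hx θ]

theorem OT.sub {u v : Eps → (ℝ × ℝ) × ℝ → V} (hu : OT A p m u) (hv : OT A p m v) :
    OT A p m (fun i q => u i q - v i q) := by
  refine ⟨hu.1.sub hv.1, fun i x hx θ => ?_⟩
  show u i (x, θ + 2 * Real.pi) - v i (x, θ + 2 * Real.pi) = u i (x, θ) - v i (x, θ)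
  rw [hu.2 i x hx θ, hv.2 i x hx θ]

theorem OT.smul {c : Eps → (ℝ × ℝ) × ℝ → ℝ} {u : Eps → (ℝ × ℝ) × ℝ → V} (hc : OT A p m c)
    (hu : OT A p' m' u) : OT A (p + p') (m + m') (fun i q => c i q • u i q) := by
  refine ⟨(hc.1.smul hu.1).mono EC4_one (fun i q _ => ?_), fun i x hx θ => ?_⟩
  · rw [A.wt_mul, one_mul]
  · show c i (x, θ + 2 * Real.pi) • u i (x, θ + 2 * Real.pi) = c i (x, θ) • u i (x, θ)
    rw [hu.2 i x hx θ, hc.2 i x hx θ]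

theorem OT.mul {c u : Eps → (ℝ × ℝ) × ℝ → ℝ} (hc : OT A p m c) (hu : OT A p' m' u) :
    OT A (p + p') (m + m') (fun i q => c i q * u i q) := by
  refine ⟨(hc.1.mul hu.1).mono EC4_one (fun i q _ => ?_), fun i x hx θ => ?_⟩
  · rw [A.wt_mul, one_mul]
  · show c i (x, θ + 2 * Real.pi) * u i (x, θ + 2 * Real.pi) = c i (x, θ) * u i (x, θ)
    rw [hu.2 i x hx θ, hc.2 i x hx θ]

theorem OT.inner {H : Type} [NormedAddCommGroup H] [InnerProductSpace ℝ H]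
    {u v : Eps → (ℝ × ℝ) × ℝ → H} (hu : OT A p m u) (hv : OT A p' m' v) :
    OT A (p + p') (m + m') (fun i q => inner ℝ (u i q) (v i q)) := by
  refine ⟨(Bd.inner hu.1 hv.1).mono EC4_one (fun i q _ => ?_), fun i x hx θ => ?_⟩
  · rw [A.wt_mul, one_mul]
  · beta_reduce
    rw [hu.2 i x hx θ, hv.2 i x hx θ]

theorem OT.eps {u : Eps → (ℝ × ℝ) × ℝ → V} (n : ℤ) (hu : OT A p m u) :
    OT A p (m + n) (fun i q => (i : ℝ) ^ n • u i q) := by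
  refine ⟨(hu.1.weightSmul (fun i : Eps => (i : ℝ) ^ n)).mono EC4_one (fun i q _ => ?_),
    fun i x hx θ => ?_⟩
  · have hi : (0 : ℝ) < (i : ℝ) := i.2.1
    have h1 : |(i : ℝ) ^ n| = (i : ℝ) ^ n := abs_of_pos (zpow_pos hi n)
    have h2 : (i : ℝ) ^ (m + n) = (i : ℝ) ^ m * (i : ℝ) ^ n := zpow_add₀ hi.ne' m n
    rw [h1, one_mul]
    unfold Amp.wt
    rw [h2]
    exact le_of_eq (by ring)
  · beta_reduce
    rw [hu.2 i x hx θ]

theorem OT.constSmul {u : Eps → (ℝ × ℝ) × ℝ → V} (c : ℝ) (hu : OT A p m u) :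
    OT A p m (fun i q => c • u i q) := by
  refine ⟨Bd.constSmul (ST.G.const (max 1 |c|) (le_max_left _ _)) (fun _ => c)
    (fun _ => le_max_right _ _) hu.1, fun i x hx θ => ?_⟩
  beta_reduce
  rw [hu.2 i x hx θ]

/-- functions of `x` only -/
theorem OX.toOT {u : Eps → ℝ × ℝ → V} (hu : OX A p m u) : OT A p m (fun i q => u i q.1) := by
  refine ⟨⟨fun i => ?_, fun r => ?_⟩, fun _ _ _ _ => rfl⟩
  · exact (hu.1 i).comp contDiff_fst.contDiffOn (fun q hq => hq.1)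
  · obtain ⟨g, hg, h⟩ := hu.2 r
    refine ⟨g, hg, fun i q hq => ?_⟩
    have hUo : IsOpen (Metric.ball (0 : ℝ × ℝ) 3) := Metric.isOpen_ball
    have hpre : IsOpen ((ContinuousLinearMap.fst ℝ (ℝ × ℝ) ℝ) ⁻¹' Metric.ball (0 : ℝ × ℝ) 3) :=
      hUo.preimage (ContinuousLinearMap.continuous _)
    have hq1 : (ContinuousLinearMap.fst ℝ (ℝ × ℝ) ℝ) q ∈ Metric.ball (0 : ℝ × ℝ) 3 := hq.1
    have h1 := (ContinuousLinearMap.fst ℝ (ℝ × ℝ) ℝ).iteratedFDerivWithin_comp_right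
      (f := u i) (n := ∞) (hu.1 i) hUo.uniqueDiffOn hpre.uniqueDiffOn hq1 (i := r)
      (by exact_mod_cast le_top)
    have h2 := iteratedFDerivWithin_of_isOpen (𝕜 := ℝ)
      (f := u i ∘ (ContinuousLinearMap.fst ℝ (ℝ × ℝ) ℝ)) r hpre hq1
    have h3 := iteratedFDerivWithin_of_isOpen (𝕜 := ℝ) (f := u i) r hUo hq1
    have h4 : iteratedFDeriv ℝ r (fun y : (ℝ × ℝ) × ℝ => u i y.1) q =
        (iteratedFDeriv ℝ r (u i) q.1).compContinuousLinearMap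
          (fun _ => ContinuousLinearMap.fst ℝ (ℝ × ℝ) ℝ) := by
      have h6 : (iteratedFDeriv ℝ r (u i) q.1).compContinuousLinearMap
          (fun _ => ContinuousLinearMap.fst ℝ (ℝ × ℝ) ℝ) =
          (iteratedFDerivWithin ℝ r (u i) (Metric.ball (0 : ℝ × ℝ) 3)
            ((ContinuousLinearMap.fst ℝ (ℝ × ℝ) ℝ) q)).compContinuousLinearMap
          (fun _ => ContinuousLinearMap.fst ℝ (ℝ × ℝ) ℝ) := by
        rw [h3]
        rfl
      exact h2.symm.trans (h1.trans h6.symm)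
    have h5 := h i q.1 hq.1
    show ‖iteratedFDeriv ℝ r (fun y : (ℝ × ℝ) × ℝ => u i y.1) q‖ ≤
      g i * A.wt p m i q.1 * (ST.s i)⁻¹ ^ r
    rw [h4]
    refine (ContinuousMultilinearMap.norm_compContinuousLinearMap_le _ _).trans ?_
    have h6 : (∏ _j : Fin r, ‖ContinuousLinearMap.fst ℝ (ℝ × ℝ) ℝ‖) ≤ 1 :=
      Finset.prod_le_one (fun _ _ => norm_nonneg _)
        (fun _ _ => ContinuousLinearMap.norm_fst_le _ _ _)
    refine (mul_le_of_le_one_right (norm_nonneg _) h6).trans ?_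
    exact h5

theorem OT.cos : OT A 0 0 (fun (_ : Eps) (q : (ℝ × ℝ) × ℝ) => Real.cos q.2) := by
  have h1 := Bd.cosPhase (S := ST) EC4_one (fun _ => ContinuousLinearMap.snd ℝ (ℝ × ℝ) ℝ)
    (fun _ => ContinuousLinearMap.norm_snd_le _ _ _)
  have h2 : Bd ST (fun _ _ => (1 : ℝ)) (fun (_ : Eps) (q : (ℝ × ℝ) × ℝ) => Real.cos q.2) := by
    refine h1.congr fun i q _ => ?_
    show Real.cos q.2 = Real.cos (q.2 / 1)
    rw [div_one]
  refine ⟨h2.mono EC4_one (fun i q _ => ?_), fun i x hx θ => ?_⟩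
  · rw [A.wt_zero, one_mul]
  · exact Real.cos_add_two_pi θ

/-- composition with a fixed function, smooth near a compact set containing all the values -/
theorem OT.comp {V' : Type} [NormedAddCommGroup V'] [NormedSpace ℝ V'] {φ : V → V'} {O K : Set V}
    (hO : IsOpen O) (hφ : ContDiffOn ℝ ∞ φ O) (hK : IsCompact K) (hKO : K ⊆ O)
    {u : Eps → (ℝ × ℝ) × ℝ → V} (hu : OT A 0 0 u) (hm : ∀ i, ∀ q ∈ ST.U i, u i q ∈ K) :
    OT A 0 0 (fun i q => φ (u i q)) := by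
  have h1 : Bd ST (fun _ _ => (1 : ℝ)) u :=
    hu.1.mono EC4_one (fun i q _ => by rw [A.wt_zero, one_mul])
  refine ⟨(Bd.comp hO hφ hK hKO h1 hm).mono EC4_one (fun i q _ => ?_), fun i x hx θ => ?_⟩
  · rw [A.wt_zero, one_mul]
  · beta_reduce
    rw [hu.2 i x hx θ]

theorem OT.prodMk {V' : Type} [NormedAddCommGroup V'] [NormedSpace ℝ V']
    {u : Eps → (ℝ × ℝ) × ℝ → V} {v : Eps → (ℝ × ℝ) × ℝ → V'} (hu : OT A p m u) (hv : OT A p m v) :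
    OT A p m (fun i q => (u i q, v i q)) := by
  refine ⟨Bd.prodMk hu.1 hv.1, fun i x hx θ => ?_⟩
  beta_reduce
  rw [hu.2 i x hx θ, hv.2 i x hx θ]

/-- the derivative is periodic -/
private theorem EC4_fderiv {u : Eps → (ℝ × ℝ) × ℝ → V} (hu : OT A p m u) (i : Eps) {x : ℝ × ℝ}
    (hx : x ∈ Metric.ball (0 : ℝ × ℝ) 3) (θ : ℝ) :
    fderiv ℝ (u i) (x, θ + 2 * Real.pi) = fderiv ℝ (u i) (x, θ) := by
  have h1 : fderiv ℝ (fun q : (ℝ × ℝ) × ℝ => u i (q + ((0 : ℝ × ℝ), 2 * Real.pi))) (x, θ) =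
      fderiv ℝ (u i) ((x, θ) + ((0 : ℝ × ℝ), 2 * Real.pi)) := fderiv_comp_add_right _
  have h2 : ((x, θ) : (ℝ × ℝ) × ℝ) + ((0 : ℝ × ℝ), 2 * Real.pi) = (x, θ + 2 * Real.pi) := by
    rw [Prod.mk_add_mk, add_zero]
  rw [h2] at h1
  rw [← h1]
  refine Filter.EventuallyEq.fderiv_eq ?_
  filter_upwards [(ST.isOpen i).mem_nhds (EC4_mem (i := i) hx θ)] with q hq
  have h3 : q + ((0 : ℝ × ℝ), 2 * Real.pi) = (q.1, q.2 + 2 * Real.pi) := by
    ext <;> simp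
  rw [h3]
  exact hu.2 i q.1 hq.1 q.2

theorem OT.dX {u : Eps → (ℝ × ℝ) × ℝ → V} (v : ℝ × ℝ) (hu : OT A p m u) : OT A p m (dX v u) := by
  refine ⟨?_, fun i x hx θ => ?_⟩
  · have h1 := Bd.dir (ST.G.const (max 1 ‖((v, 0) : (ℝ × ℝ) × ℝ)‖) (le_max_left _ _))
      (fun _ => ((v, 0) : (ℝ × ℝ) × ℝ)) (fun _ => le_max_right _ _) hu.1
    refine h1.mono EC4_one (fun i q _ => ?_)
    show A.wt p m i q.1 * (1 : ℝ)⁻¹ ≤ 1 * A.wt p m i q.1
    rw [inv_one, mul_one, one_mul]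
  · unfold P205F.EE.dX
    rw [EC4_fderiv hu i hx θ]

theorem OT.dT {u : Eps → (ℝ × ℝ) × ℝ → V} (hu : OT A p m u) : OT A p m (dT u) := by
  refine ⟨?_, fun i x hx θ => ?_⟩
  · have h1 := Bd.dir (ST.G.const (max 1 ‖((0, 1) : (ℝ × ℝ) × ℝ)‖) (le_max_left _ _))
      (fun _ => ((0, 1) : (ℝ × ℝ) × ℝ)) (fun _ => le_max_right _ _) hu.1
    refine h1.mono EC4_one (fun i q _ => ?_)
    show A.wt p m i q.1 * (1 : ℝ)⁻¹ ≤ 1 * A.wt p m i q.1
    rw [inv_one, mul_one, one_mul]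
  · unfold P205F.EE.dT
    rw [EC4_fderiv hu i hx θ]

/-- smoothness of the members -/
theorem OT.smooth {u : Eps → (ℝ × ℝ) × ℝ → V} (hu : OT A p m u) (i : Eps) :
    ContDiffOn ℝ ∞ (u i) (Metric.ball 0 3 ×ˢ univ) := hu.1.1 i

end P205F.EE
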