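import Mathlib
import Vale.Agent.Lib.P205E.EC3
import Vale.Agent.Lib.P205E.EC4

/-! # P205E module EC5: rules for the derivations `dX`, `dT`, `DD` -/

open scoped ContDiff
open Set

namespace P205F.EE

variable {V : Type} [NormedAddCommGroup V] [NormedSpace ℝ V] {A : Amp} {p m p' m' : ℤ}

private theorem EC5_nhds (i : Eps) {q : (ℝ × ℝ) × ℝ} (hq : q ∈ ST.U i) : ST.U i ∈ nhds q :=
  (ST.isOpen i).mem_nhds hq

private theorem EC5_diff {u : Eps → (ℝ × ℝ) × ℝ → V} (hu : OT A p m u) {i : Eps}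
    {q : (ℝ × ℝ) × ℝ} (hq : q ∈ ST.U i) : DifferentiableAt ℝ (u i) q :=
  ((hu.1.1 i).contDiffAt (EC5_nhds i hq)).differentiableAt (by simp)

section

variable {u v : Eps → (ℝ × ℝ) × ℝ → V} (hu : OT A p m u) (hv : OT A p' m' v) (w : ℝ × ℝ)
  (ψ : Eps → ℝ × ℝ → ℝ)
include hu hv

private theorem EC5_add (y : (ℝ × ℝ) × ℝ) {i : Eps} {q : (ℝ × ℝ) × ℝ} (hq : q ∈ ST.U i) :
    fderiv ℝ (fun q => u i q + v i q) q y = fderiv ℝ (u i) q y + fderiv ℝ (v i) q y := by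
  have h : HasFDerivAt (fun q => u i q + v i q) (fderiv ℝ (u i) q + fderiv ℝ (v i) q) q :=
    (EC5_diff hu hq).hasFDerivAt.add (EC5_diff hv hq).hasFDerivAt
  rw [h.fderiv]
  rfl

private theorem EC5_sub (y : (ℝ × ℝ) × ℝ) {i : Eps} {q : (ℝ × ℝ) × ℝ} (hq : q ∈ ST.U i) :
    fderiv ℝ (fun q => u i q - v i q) q y = fderiv ℝ (u i) q y - fderiv ℝ (v i) q y := by
  have h : HasFDerivAt (fun q => u i q - v i q) (fderiv ℝ (u i) q - fderiv ℝ (v i) q) q :=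
    (EC5_diff hu hq).hasFDerivAt.sub (EC5_diff hv hq).hasFDerivAt
  rw [h.fderiv]
  rfl

theorem dX_add {i : Eps} {q : (ℝ × ℝ) × ℝ} (hq : q ∈ ST.U i) :
    dX w (fun i q => u i q + v i q) i q = dX w u i q + dX w v i q :=
  EC5_add hu hv (w, 0) hq

theorem dT_add {i : Eps} {q : (ℝ × ℝ) × ℝ} (hq : q ∈ ST.U i) :
    dT (fun i q => u i q + v i q) i q = dT u i q + dT v i q :=
  EC5_add hu hv (0, 1) hq

theorem DD_add {i : Eps} {q : (ℝ × ℝ) × ℝ} (hq : q ∈ ST.U i) :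
    DD w ψ (fun i q => u i q + v i q) i q = DD w ψ u i q + DD w ψ v i q := by
  unfold DD
  rw [dX_add hu hv w hq, dT_add hu hv hq]
  module

theorem DD_sub {i : Eps} {q : (ℝ × ℝ) × ℝ} (hq : q ∈ ST.U i) :
    DD w ψ (fun i q => u i q - v i q) i q = DD w ψ u i q - DD w ψ v i q := by
  have h1 : dX w (fun i q => u i q - v i q) i q = dX w u i q - dX w v i q :=
    EC5_sub hu hv (w, 0) hq
  have h2 : dT (fun i q => u i q - v i q) i q = dT u i q - dT v i q :=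
    EC5_sub hu hv (0, 1) hq
  unfold DD
  rw [h1, h2]
  module

end

section

variable {c : Eps → (ℝ × ℝ) × ℝ → ℝ} {u : Eps → (ℝ × ℝ) × ℝ → V} (hc : OT A p m c)
  (hu : OT A p' m' u) (w : ℝ × ℝ) (ψ : Eps → ℝ × ℝ → ℝ)
include hc hu

private theorem EC5_smul (y : (ℝ × ℝ) × ℝ) {i : Eps} {q : (ℝ × ℝ) × ℝ} (hq : q ∈ ST.U i) :
    fderiv ℝ (fun q => c i q • u i q) q y =
      fderiv ℝ (c i) q y • u i q + c i q • fderiv ℝ (u i) q y := by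
  have h : HasFDerivAt (fun q => c i q • u i q)
      (c i q • fderiv ℝ (u i) q + (fderiv ℝ (c i) q).smulRight (u i q)) q :=
    (EC5_diff hc hq).hasFDerivAt.smul (EC5_diff hu hq).hasFDerivAt
  rw [h.fderiv, add_comm]
  rfl

theorem dX_smul {i : Eps} {q : (ℝ × ℝ) × ℝ} (hq : q ∈ ST.U i) :
    dX w (fun i q => c i q • u i q) i q = dX w c i q • u i q + c i q • dX w u i q :=
  EC5_smul hc hu (w, 0) hq

theorem dT_smul {i : Eps} {q : (ℝ × ℝ) × ℝ} (hq : q ∈ ST.U i) :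
    dT (fun i q => c i q • u i q) i q = dT c i q • u i q + c i q • dT u i q :=
  EC5_smul hc hu (0, 1) hq

theorem DD_smul {i : Eps} {q : (ℝ × ℝ) × ℝ} (hq : q ∈ ST.U i) :
    DD w ψ (fun i q => c i q • u i q) i q = DD w ψ c i q • u i q + c i q • DD w ψ u i q := by
  unfold DD
  rw [dX_smul hc hu w hq, dT_smul hc hu hq, smul_eq_mul]
  module

end

section

variable {u v : Eps → (ℝ × ℝ) × ℝ → F4} (hu : OT A p m u)
  (hv : OT A p' m' v) (w : ℝ × ℝ) (ψ : Eps → ℝ × ℝ → ℝ)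
include hu hv

private theorem EC5_inner (y : (ℝ × ℝ) × ℝ) {i : Eps} {q : (ℝ × ℝ) × ℝ} (hq : q ∈ ST.U i) :
    fderiv ℝ (fun q => inner ℝ (u i q) (v i q)) q y =
      inner ℝ (fderiv ℝ (u i) q y) (v i q) + inner ℝ (u i q) (fderiv ℝ (v i) q y) := by
  rw [fderiv_inner_apply ℝ (EC5_diff hu hq) (EC5_diff hv hq), add_comm]

theorem dX_inner {i : Eps} {q : (ℝ × ℝ) × ℝ} (hq : q ∈ ST.U i) :
    dX w (fun i q => inner ℝ (u i q) (v i q)) i q =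
      inner ℝ (dX w u i q) (v i q) + inner ℝ (u i q) (dX w v i q) :=
  EC5_inner hu hv (w, 0) hq

theorem dT_inner {i : Eps} {q : (ℝ × ℝ) × ℝ} (hq : q ∈ ST.U i) :
    dT (fun i q => inner ℝ (u i q) (v i q)) i q =
      inner ℝ (dT u i q) (v i q) + inner ℝ (u i q) (dT v i q) :=
  EC5_inner hu hv (0, 1) hq

theorem DD_inner {i : Eps} {q : (ℝ × ℝ) × ℝ} (hq : q ∈ ST.U i) :
    DD w ψ (fun i q => inner ℝ (u i q) (v i q)) i q =
      inner ℝ (DD w ψ u i q) (v i q) + inner ℝ (u i q) (DD w ψ v i q) := by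
  unfold DD
  rw [dX_inner hu hv w hq, dT_inner hu hv hq, inner_add_left, inner_add_right,
    real_inner_smul_left, real_inner_smul_right, smul_eq_mul]
  ring

end

private theorem EC5_const (g : Eps → ℝ) {u : Eps → (ℝ × ℝ) × ℝ → V} (hu : OT A p m u)
    (y : (ℝ × ℝ) × ℝ) {i : Eps} {q : (ℝ × ℝ) × ℝ} (hq : q ∈ ST.U i) :
    fderiv ℝ (fun q => g i • u i q) q y = g i • fderiv ℝ (u i) q y := by
  have h : HasFDerivAt (fun q => g i • u i q) (g i • fderiv ℝ (u i) q) q :=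
    (EC5_diff hu hq).hasFDerivAt.const_smul (g i)
  rw [h.fderiv]
  rfl

/-- multiplication by a function of `ε` only -/
theorem DD_epsSmul (g : Eps → ℝ) {u : Eps → (ℝ × ℝ) × ℝ → V} (hu : OT A p m u) (w : ℝ × ℝ)
    (ψ : Eps → ℝ × ℝ → ℝ) {i : Eps} {q : (ℝ × ℝ) × ℝ} (hq : q ∈ ST.U i) :
    DD w ψ (fun i q => g i • u i q) i q = g i • DD w ψ u i q := by
  have h1 : dX w (fun i q => g i • u i q) i q = g i • dX w u i q := EC5_const g hu (w, 0) hq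
  have h2 : dT (fun i q => g i • u i q) i q = g i • dT u i q := EC5_const g hu (0, 1) hq
  unfold DD
  rw [h1, h2]
  module

theorem dX_epsSmul (g : Eps → ℝ) {u : Eps → (ℝ × ℝ) × ℝ → V} (hu : OT A p m u) (w : ℝ × ℝ)
    {i : Eps} {q : (ℝ × ℝ) × ℝ} (hq : q ∈ ST.U i) :
    dX w (fun i q => g i • u i q) i q = g i • dX w u i q := EC5_const g hu (w, 0) hq

theorem dT_epsSmul (g : Eps → ℝ) {u : Eps → (ℝ × ℝ) × ℝ → V} (hu : OT A p m u)
    {i : Eps} {q : (ℝ × ℝ) × ℝ} (hq : q ∈ ST.U i) :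
    dT (fun i q => g i • u i q) i q = g i • dT u i q := EC5_const g hu (0, 1) hq

private theorem EC5_ofX {u : Eps → ℝ × ℝ → V}
    (hu : ∀ i, ContDiffOn ℝ ∞ (u i) (Metric.ball 0 3)) (y : (ℝ × ℝ) × ℝ) {i : Eps}
    {q : (ℝ × ℝ) × ℝ} (hq : q ∈ ST.U i) :
    fderiv ℝ (fun q : (ℝ × ℝ) × ℝ => u i q.1) q y = fderiv ℝ (u i) q.1 y.1 := by
  have hq1 : q.1 ∈ Metric.ball (0 : ℝ × ℝ) 3 := hq.1
  have h1 : DifferentiableAt ℝ (u i) q.1 :=
    ((hu i).contDiffAt (Metric.isOpen_ball.mem_nhds hq1)).differentiableAt (by simp)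
  have h : HasFDerivAt (fun q : (ℝ × ℝ) × ℝ => u i q.1)
      ((fderiv ℝ (u i) q.1).comp (ContinuousLinearMap.fst ℝ (ℝ × ℝ) ℝ)) q :=
    h1.hasFDerivAt.comp q hasFDerivAt_fst
  rw [h.fderiv]
  rfl

/-- functions of `x` only -/
theorem dX_ofX {u : Eps → ℝ × ℝ → V} (hu : ∀ i, ContDiffOn ℝ ∞ (u i) (Metric.ball 0 3))
    (w : ℝ × ℝ) {i : Eps} {q : (ℝ × ℝ) × ℝ} (hq : q ∈ ST.U i) :
    dX w (fun i q => u i q.1) i q = pd w (u i) q.1 := EC5_ofX hu (w, 0) hq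

theorem dT_ofX {u : Eps → ℝ × ℝ → V} (hu : ∀ i, ContDiffOn ℝ ∞ (u i) (Metric.ball 0 3))
    {i : Eps} {q : (ℝ × ℝ) × ℝ} (hq : q ∈ ST.U i) :
    dT (fun i q => u i q.1) i q = 0 :=
  (EC5_ofX hu (0, 1) hq).trans (map_zero _)

theorem DD_ofX {u : Eps → ℝ × ℝ → V} (hu : ∀ i, ContDiffOn ℝ ∞ (u i) (Metric.ball 0 3))
    (w : ℝ × ℝ) (ψ : Eps → ℝ × ℝ → ℝ) {i : Eps} {q : (ℝ × ℝ) × ℝ} (hq : q ∈ ST.U i) :
    DD w ψ (fun i q => u i q.1) i q = pd w (u i) q.1 := by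
  unfold DD
  rw [dX_ofX hu w hq, dT_ofX hu hq, smul_zero, add_zero]

/-- equality on the domain gives equality of derivatives on the domain -/
theorem DD_congr {u v : Eps → (ℝ × ℝ) × ℝ → V} (h : ∀ i, ∀ q ∈ ST.U i, u i q = v i q) (w : ℝ × ℝ)
    (ψ : Eps → ℝ × ℝ → ℝ) {i : Eps} {q : (ℝ × ℝ) × ℝ} (hq : q ∈ ST.U i) :
    DD w ψ u i q = DD w ψ v i q ∧ dX w u i q = dX w v i q ∧ dT u i q = dT v i q := by
  have h0 : u i =ᶠ[nhds q] v i := by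
    filter_upwards [EC5_nhds i hq] with y hy
    exact h i y hy
  have h1 : dX w u i q = dX w v i q := by
    unfold dX
    rw [h0.fderiv_eq]
  have h2 : dT u i q = dT v i q := by
    unfold dT
    rw [h0.fderiv_eq]
  refine ⟨?_, h1, h2⟩
  unfold DD
  rw [h1, h2]

private theorem EC5_psi {ψ : Eps → ℝ × ℝ → ℝ} (hψ : OX A 0 2 ψ) (w : ℝ × ℝ)
    {u : Eps → (ℝ × ℝ) × ℝ → V} (hu : OT A p m u) :
    OT A p (m + 1) (fun i q => (i : ℝ) ^ (-1 : ℤ) • (pd w (ψ i) q.1 • dT u i q)) := by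
  have h1 : OT A 0 2 (fun i q => pd w (ψ i) q.1) := (hψ.pd w).toOT
  have h2 := (OT.smul h1 hu.dT).eps (-1)
  exact h2.mono (by omega) (by omega)

/-- the derivation `D_1` loses a power of `ε` -/
theorem OT.DD1 {ψ : Eps → ℝ × ℝ → ℝ} (hψ : OX A 0 2 ψ) {u : Eps → (ℝ × ℝ) × ℝ → V}
    (hu : OT A p m u) : OT A p (m - 1) (DD e1 ψ u) := by
  have h1 : OT A p (m - 1) (P205F.EE.dX e1 u) := (hu.dX e1).mono le_rfl (by omega)
  have h2 : OT A p (m - 1) (fun i q => (i : ℝ) ^ (-1 : ℤ) • P205F.EE.dT u i q) :=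
    (hu.dT.eps (-1)).mono le_rfl (by omega)
  have h3 : OT A p (m - 1) (fun i q => (i : ℝ) ^ (-1 : ℤ) • (pd e1 (ψ i) q.1 • P205F.EE.dT u i q)) :=
    (EC5_psi hψ e1 hu).mono le_rfl (by omega)
  refine ((h1.add h2).add h3).congr fun i q _ => ?_
  have h4 : (i : ℝ) ^ (-1 : ℤ) = (i : ℝ)⁻¹ := zpow_neg_one _
  have h5 : (e1 : ℝ × ℝ).1 = 1 := rfl
  unfold DD
  rw [h4, h5]
  module

/-- the derivation `D_2` does not -/
theorem OT.DD2 {ψ : Eps → ℝ × ℝ → ℝ} (hψ : OX A 0 2 ψ) {u : Eps → (ℝ × ℝ) × ℝ → V}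
    (hu : OT A p m u) : OT A p m (DD e2 ψ u) := by
  have h1 : OT A p m (P205F.EE.dX e2 u) := hu.dX e2
  have h3 : OT A p m (fun i q => (i : ℝ) ^ (-1 : ℤ) • (pd e2 (ψ i) q.1 • P205F.EE.dT u i q)) :=
    (EC5_psi hψ e2 hu).mono le_rfl (by omega)
  refine (h1.add h3).congr fun i q _ => ?_
  have h4 : (i : ℝ) ^ (-1 : ℤ) = (i : ℝ)⁻¹ := zpow_neg_one _
  have h5 : (e2 : ℝ × ℝ).1 = 0 := rfl
  unfold DD
  rw [h4, h5]
  module

end P205F.EE
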