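import Mathlib
import Vale.Agent.Lib.P205F.KDefs

/-!
# P205E: definitions for the exact stage

See notes/P205/FULL_PROOF_ES.md.  Functions of `x : ℝ × ℝ` (on the square `ball 0 3`) and of
`(x, θ) : (ℝ × ℝ) × ℝ` (periodic in `θ`), families in the small parameter `ε ∈ (0, 1)`.
`OX A p m`, `OT A p m`: size `abar ^ p * ε ^ m` with all derivatives, up to factors `ε ^ (-c)`.
-/

open scoped ContDiff
open Set

namespace P205F.EE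

/-- the target space -/
abbrev F4 := EuclideanSpace ℝ (Fin 4)

/-- the small parameter -/
abbrev Eps := {e : ℝ // 0 < e ∧ e < 1}

/-- the growth class of the exact stage: smaller than every negative power of `ε` -/
def GE : Growth Eps where
  mem := {g | (∀ i, 1 ≤ g i) ∧ ∀ c : ℝ, 0 < c → ∃ C : ℝ, ∀ i : Eps, g i ≤ C * (i : ℝ) ^ (-c)}
  one_le := fun g hg => hg.1
  const := by
    intro c hc
    refine ⟨fun _ => hc, fun d hd => ⟨c, fun i => ?_⟩⟩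
    have h1 : (1 : ℝ) ≤ (i : ℝ) ^ (-d) :=
      Real.one_le_rpow_of_pos_of_le_one_of_nonpos i.2.1 i.2.2.le (by linarith)
    nlinarith
  mul := by
    intro f hf g hg
    refine ⟨fun i => ?_, fun c hc => ?_⟩
    · have h1 := hf.1 i
      have h2 := hg.1 i
      nlinarith
    · obtain ⟨C, hC⟩ := hf.2 (c / 2) (by linarith)
      obtain ⟨C', hC'⟩ := hg.2 (c / 2) (by linarith)
      refine ⟨C * C', fun i => ?_⟩
      have h1 := hf.1 i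
      have h2 := hg.1 i
      have h3 := hC i
      have h4 := hC' i
      have h5 : (i : ℝ) ^ (-c) = (i : ℝ) ^ (-(c / 2)) * (i : ℝ) ^ (-(c / 2)) := by
        rw [← Real.rpow_add i.2.1]
        congr 1
        ring
      calc f i * g i ≤ (C * (i : ℝ) ^ (-(c / 2))) * (C' * (i : ℝ) ^ (-(c / 2))) :=
            mul_le_mul h3 h4 (by linarith) (by linarith)
        _ = C * C' * (i : ℝ) ^ (-c) := by rw [h5]; ring
  down := by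
    intro g hg f hf hfg
    refine ⟨hf, fun c hc => ?_⟩
    obtain ⟨C, hC⟩ := hg.2 c hc
    exact ⟨C, fun i => (hfg i).trans (hC i)⟩

/-- families of functions of `x` on the square `ball 0 3`, scale `1` -/
def SX : Setting Eps (ℝ × ℝ) where
  G := GE
  U := fun _ => Metric.ball 0 3
  s := fun _ => 1
  isOpen := fun _ => Metric.isOpen_ball
  s_pos := fun _ => one_pos
  s_le := fun _ => le_rfl

/-- families of functions of `(x, θ)` on `ball 0 3 × ℝ`, scale `1` -/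
def ST : Setting Eps ((ℝ × ℝ) × ℝ) where
  G := GE
  U := fun _ => Metric.ball 0 3 ×ˢ univ
  s := fun _ => 1
  isOpen := fun _ => Metric.isOpen_ball.prod isOpen_univ
  s_pos := fun _ => one_pos
  s_le := fun _ => le_rfl

/-- flat functions: smooth, nonnegative, every derivative is `≤ C * a ^ (1 - c)` for every `c > 0` -/
def Flat {E : Type} [NormedAddCommGroup E] [NormedSpace ℝ E] (a : E → ℝ) : Prop :=
  ContDiff ℝ ∞ a ∧ (∀ x, 0 ≤ a x) ∧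
    ∀ r : ℕ, ∀ c : ℝ, 0 < c → c < 1 → ∃ C : ℝ, ∀ x, ‖iteratedFDeriv ℝ r a x‖ ≤ C * a x ^ (1 - c)

/-- amplitudes: a flat function and the number `M` of the regularisation -/
structure Amp where
  a : ℝ × ℝ → ℝ
  M : ℕ
  flat : Flat a

/-- the regularised amplitude -/
noncomputable def Amp.ab (A : Amp) (i : Eps) (x : ℝ × ℝ) : ℝ :=
  Real.sqrt (A.a x ^ 2 + (i : ℝ) ^ (2 * A.M))

/-- the weights `abar ^ p * ε ^ m` -/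
noncomputable def Amp.wt (A : Amp) (p m : ℤ) (i : Eps) (x : ℝ × ℝ) : ℝ :=
  A.ab i x ^ p * (i : ℝ) ^ m

section classes

variable {V : Type} [NormedAddCommGroup V] [NormedSpace ℝ V]

/-- `O(p, m)` for functions of `x` -/
def OX (A : Amp) (p m : ℤ) (u : Eps → ℝ × ℝ → V) : Prop := Bd SX (A.wt p m) u

/-- `O(p, m)` for functions of `(x, θ)`, periodic in `θ` -/
def OT (A : Amp) (p m : ℤ) (u : Eps → (ℝ × ℝ) × ℝ → V) : Prop :=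
  Bd ST (fun i q => A.wt p m i q.1) u ∧
    ∀ i, ∀ x ∈ Metric.ball (0 : ℝ × ℝ) 3, ∀ θ : ℝ, u i (x, θ + 2 * Real.pi) = u i (x, θ)

/-- the mean over `θ` -/
noncomputable def mean (u : Eps → (ℝ × ℝ) × ℝ → V) (i : Eps) (x : ℝ × ℝ) : V :=
  (2 * Real.pi)⁻¹ • ∫ θ in (0 : ℝ)..(2 * Real.pi), u i (x, θ)

/-- the primitive in `θ` with mean zero (of a function with mean zero) -/
noncomputable def prim (u : Eps → (ℝ × ℝ) × ℝ → V) (i : Eps) (q : (ℝ × ℝ) × ℝ) : V :=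
  (∫ s in (0 : ℝ)..q.2, u i (q.1, s)) -
    (2 * Real.pi)⁻¹ • ∫ t in (0 : ℝ)..(2 * Real.pi), ∫ s in (0 : ℝ)..t, u i (q.1, s)

/-- the class `O'(m)`: size `abar * ε ^ m` with mean of size `abar ^ 2 * ε ^ m` -/
def OP (A : Amp) (m : ℤ) (u : Eps → (ℝ × ℝ) × ℝ → V) : Prop := OT A 1 m u ∧ OX A 2 m (mean u)

/-- mean zero (on the square) -/
def Mz (u : Eps → (ℝ × ℝ) × ℝ → V) : Prop :=
  ∀ i, ∀ x ∈ Metric.ball (0 : ℝ × ℝ) 3, mean u i x = 0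

/-- partial derivative of a function of `x` -/
noncomputable def pd (v : ℝ × ℝ) (f : ℝ × ℝ → V) (x : ℝ × ℝ) : V := fderiv ℝ f x v

/-- partial derivative in `x` of a function of `(x, θ)` -/
noncomputable def dX (v : ℝ × ℝ) (u : Eps → (ℝ × ℝ) × ℝ → V) (i : Eps) (q : (ℝ × ℝ) × ℝ) : V :=
  fderiv ℝ (u i) q (v, 0)

/-- partial derivative in `θ` -/
noncomputable def dT (u : Eps → (ℝ × ℝ) × ℝ → V) (i : Eps) (q : (ℝ × ℝ) × ℝ) : V :=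
  fderiv ℝ (u i) q (0, 1)

/-- the derivation `D_v`: derivative in direction `v` of `u (x, (x₁ + ψ x) / ε)` -/
noncomputable def DD (v : ℝ × ℝ) (ψ : Eps → ℝ × ℝ → ℝ) (u : Eps → (ℝ × ℝ) × ℝ → V) (i : Eps)
    (q : (ℝ × ℝ) × ℝ) : V :=
  dX v u i q + ((i : ℝ)⁻¹ * (v.1 + pd v (ψ i) q.1)) • dT u i q

end classes

/-- first coordinate vector -/
def e1 : ℝ × ℝ := (1, 0)

/-- second coordinate vector -/
def e2 : ℝ × ℝ := (0, 1)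

/-- the frame of the exact stage: `f` smooth near the closed square, `f₁, f₂, f₂₂` independent -/
structure Frm where
  f : ℝ × ℝ → F4
  O : Set (ℝ × ℝ)
  O_open : IsOpen O
  O_sup : Metric.closedBall 0 3 ⊆ O
  T2 : ℝ × ℝ → F4
  n1 : ℝ × ℝ → F4
  nh : ℝ × ℝ → F4
  zh : ℝ × ℝ → F4
  yh : ℝ × ℝ → F4
  k1 : ℝ × ℝ → ℝ
  k2 : ℝ × ℝ → ℝ
  ze : ℝ × ℝ → ℝ
  f_sm : ContDiffOn ℝ ∞ f O
  T2_sm : ContDiffOn ℝ ∞ T2 O
  n1_sm : ContDiffOn ℝ ∞ n1 O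
  nh_sm : ContDiffOn ℝ ∞ nh O
  zh_sm : ContDiffOn ℝ ∞ zh O
  yh_sm : ContDiffOn ℝ ∞ yh O
  k1_sm : ContDiffOn ℝ ∞ k1 O
  k2_sm : ContDiffOn ℝ ∞ k2 O
  ze_sm : ContDiffOn ℝ ∞ ze O
  ze_pos : ∀ x ∈ O, 0 < ze x
  f1_eq : ∀ x ∈ O, pd e1 f x = k2 x • pd e2 f x + k1 x • pd e2 (pd e2 f) x + ze x • zh x
  f2_T2 : ∀ x ∈ O, inner ℝ (pd e2 f x) (T2 x) = 1
  f22_T2 : ∀ x ∈ O, inner ℝ (pd e2 (pd e2 f) x) (T2 x) = 0
  f2_n1 : ∀ x ∈ O, inner ℝ (pd e2 f x) (n1 x) = 0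
  f22_n1 : ∀ x ∈ O, inner ℝ (pd e2 (pd e2 f) x) (n1 x) = 1
  f1_nh : ∀ x ∈ O, inner ℝ (pd e1 f x) (nh x) = 0
  f2_nh : ∀ x ∈ O, inner ℝ (pd e2 f x) (nh x) = 0
  f22_nh : ∀ x ∈ O, inner ℝ (pd e2 (pd e2 f) x) (nh x) = 1
  f2_zh : ∀ x ∈ O, inner ℝ (pd e2 f x) (zh x) = 0
  f22_zh : ∀ x ∈ O, inner ℝ (pd e2 (pd e2 f) x) (zh x) = 0
  f2_yh : ∀ x ∈ O, inner ℝ (pd e2 f x) (yh x) = 0
  f22_yh : ∀ x ∈ O, inner ℝ (pd e2 (pd e2 f) x) (yh x) = 0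
  T2_zh : ∀ x ∈ O, inner ℝ (T2 x) (zh x) = 0
  T2_yh : ∀ x ∈ O, inner ℝ (T2 x) (yh x) = 0
  n1_zh : ∀ x ∈ O, inner ℝ (n1 x) (zh x) = 0
  n1_yh : ∀ x ∈ O, inner ℝ (n1 x) (yh x) = 0
  zh_zh : ∀ x ∈ O, inner ℝ (zh x) (zh x) = 1
  yh_yh : ∀ x ∈ O, inner ℝ (yh x) (yh x) = 1
  zh_yh : ∀ x ∈ O, inner ℝ (zh x) (yh x) = 0

/-- the loops: `X = ζ + α² Xt`, `Y = α Yt` with `X² + Y² = ζ² + α²`, mean of `X` is `ζ`, mean of `Y`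
is zero, and their derivatives `XA, YA` in the amplitude `α`; the argument is `(α, ζ, cos θ)` -/
structure Loop where
  Xt : ℝ × ℝ × ℝ → ℝ
  Yt : ℝ × ℝ × ℝ → ℝ
  XA : ℝ × ℝ × ℝ → ℝ
  YA : ℝ × ℝ × ℝ → ℝ
  Xt_sm : ContDiffOn ℝ ∞ Xt {p | 0 < p.2.1}
  Yt_sm : ContDiffOn ℝ ∞ Yt {p | 0 < p.2.1}
  XA_sm : ContDiffOn ℝ ∞ XA {p | 0 < p.2.1}
  YA_sm : ContDiffOn ℝ ∞ YA {p | 0 < p.2.1}
  circ : ∀ α ζ c : ℝ, 0 < ζ → (ζ + α ^ 2 * Xt (α, ζ, c)) ^ 2 + (α * Yt (α, ζ, c)) ^ 2 = ζ ^ 2 + α ^ 2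
  circA : ∀ α ζ c : ℝ, 0 < ζ →
    (ζ + α ^ 2 * Xt (α, ζ, c)) * XA (α, ζ, c) + α * Yt (α, ζ, c) * YA (α, ζ, c) = α
  mXt : ∀ α ζ : ℝ, 0 < ζ → ∫ θ in (0 : ℝ)..(2 * Real.pi), Xt (α, ζ, Real.cos θ) = 0
  mYt : ∀ α ζ : ℝ, 0 < ζ → ∫ θ in (0 : ℝ)..(2 * Real.pi), Yt (α, ζ, Real.cos θ) = 0
  mXA : ∀ α ζ : ℝ, 0 < ζ → ∫ θ in (0 : ℝ)..(2 * Real.pi), XA (α, ζ, Real.cos θ) = 0
  mYA : ∀ α ζ : ℝ, 0 < ζ → ∫ θ in (0 : ℝ)..(2 * Real.pi), YA (α, ζ, Real.cos θ) = 0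

/-- the data of the exact stage -/
structure ED where
  A : Amp
  Fr : Frm
  Lp : Loop

namespace ED

variable (d : ED)

/-- the argument of the loop functions -/
noncomputable def arg (i : Eps) (q : (ℝ × ℝ) × ℝ) : ℝ × ℝ × ℝ :=
  (d.A.ab i q.1, d.Fr.ze q.1, Real.cos q.2)

noncomputable def XX (i : Eps) (q : (ℝ × ℝ) × ℝ) : ℝ :=
  d.Fr.ze q.1 + d.A.ab i q.1 ^ 2 * d.Lp.Xt (d.arg i q)

noncomputable def YY (i : Eps) (q : (ℝ × ℝ) × ℝ) : ℝ := d.A.ab i q.1 * d.Lp.Yt (d.arg i q)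

noncomputable def RR (i : Eps) (x : ℝ × ℝ) : ℝ := Real.sqrt (d.Fr.ze x ^ 2 + d.A.ab i x ^ 2)

/-- the loop minus its mean: `R e - z` -/
noncomputable def Lz (i : Eps) (q : (ℝ × ℝ) × ℝ) : F4 :=
  (d.A.ab i q.1 ^ 2 * d.Lp.Xt (d.arg i q)) • d.Fr.zh q.1 +
    (d.A.ab i q.1 * d.Lp.Yt (d.arg i q)) • d.Fr.yh q.1

/-- the new first derivative `F0 = f₁ + (R e - z)` -/
noncomputable def F0 (i : Eps) (q : (ℝ × ℝ) × ℝ) : F4 := pd e1 d.Fr.f q.1 + d.Lz i q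

/-- the first corrector -/
noncomputable def u1 : Eps → (ℝ × ℝ) × ℝ → F4 := prim d.Lz

/-- the unit vector `e` -/
noncomputable def ee (i : Eps) (q : (ℝ × ℝ) × ℝ) : F4 :=
  (d.RR i q.1)⁻¹ • (d.XX i q • d.Fr.zh q.1 + d.YY i q • d.Fr.yh q.1)

/-- the unit vector orthogonal to `e` in the plane `P` -/
noncomputable def ep (i : Eps) (q : (ℝ × ℝ) × ℝ) : F4 :=
  (d.RR i q.1)⁻¹ • (-d.YY i q • d.Fr.zh q.1 + d.XX i q • d.Fr.yh q.1)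

/-- derivative of the loop in the amplitude -/
noncomputable def rr (i : Eps) (q : (ℝ × ℝ) × ℝ) : F4 :=
  d.Lp.XA (d.arg i q) • d.Fr.zh q.1 + d.Lp.YA (d.arg i q) • d.Fr.yh q.1

/-- its primitive -/
noncomputable def vt : Eps → (ℝ × ℝ) × ℝ → F4 := prim d.rr

/-- `FF - f - ε u1` -/
noncomputable def VV (FF : Eps → (ℝ × ℝ) × ℝ → F4) (i : Eps) (q : (ℝ × ℝ) × ℝ) : F4 :=
  FF i q - d.Fr.f q.1 - (i : ℝ) • d.u1 i q

/-- the metric of `(FF, ψ)` is `f_i.f_j + abar² [i=j=1] + m + y` on the square -/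
def Err (FF : Eps → (ℝ × ℝ) × ℝ → F4) (ψ : Eps → ℝ × ℝ → ℝ) (m11 m12 m22 : Eps → ℝ × ℝ → ℝ)
    (y11 y12 y22 : Eps → (ℝ × ℝ) × ℝ → ℝ) : Prop :=
  ∀ i, ∀ q ∈ ST.U i,
    inner ℝ (DD e1 ψ FF i q) (DD e1 ψ FF i q) =
      inner ℝ (pd e1 d.Fr.f q.1) (pd e1 d.Fr.f q.1) + d.A.ab i q.1 ^ 2 + m11 i q.1 + y11 i q ∧
    inner ℝ (DD e1 ψ FF i q) (DD e2 ψ FF i q) =
      inner ℝ (pd e1 d.Fr.f q.1) (pd e2 d.Fr.f q.1) + m12 i q.1 + y12 i q ∧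
    inner ℝ (DD e2 ψ FF i q) (DD e2 ψ FF i q) =
      inner ℝ (pd e2 d.Fr.f q.1) (pd e2 d.Fr.f q.1) + m22 i q.1 + y22 i q

/-- the state of the induction, with explicit errors -/
structure St (k11 k12 k22 j1 j2 : ℤ) (FF : Eps → (ℝ × ℝ) × ℝ → F4) (ψ : Eps → ℝ × ℝ → ℝ)
    (m11 m12 m22 : Eps → ℝ × ℝ → ℝ) (y11 y12 y22 : Eps → (ℝ × ℝ) × ℝ → ℝ) : Prop where
  hV : OP d.A 2 (d.VV FF)
  hψ : OX d.A 0 2 ψ
  err : d.Err FF ψ m11 m12 m22 y11 y12 y22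
  hm11 : OX d.A 2 k11 m11
  hm12 : OX d.A 2 k12 m12
  hm22 : OX d.A 2 k22 m22
  hy11 : OT d.A 1 j1 y11
  hy12 : OT d.A 1 j1 y12
  hy22 : OT d.A 1 j2 y22
  zy11 : Mz y11
  zy12 : Mz y12
  zy22 : Mz y22

end ED

end P205F.EE
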