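import Mathlib
import Vale.Agent.Lib.P205E.EDefs

/-! # P205E module EC6: the mean -/

open scoped ContDiff
open Set

namespace P205F.EE

/-! ### differentiation under the integral sign -/

private noncomputable def IG {V : Type} [NormedAddCommGroup V] [NormedSpace ℝ V]
    (G : (ℝ × ℝ) × ℝ → V) (x : ℝ × ℝ) : V := ∫ θ in (0 : ℝ)..(2 * Real.pi), G (x, θ)

private noncomputable def GX {V : Type} [NormedAddCommGroup V] [NormedSpace ℝ V]
    (G : (ℝ × ℝ) × ℝ → V) (q : (ℝ × ℝ) × ℝ) : (ℝ × ℝ) →L[ℝ] V :=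
  (fderiv ℝ G q).comp (ContinuousLinearMap.inl ℝ (ℝ × ℝ) ℝ)

private theorem BB_open : IsOpen (Metric.ball (0 : ℝ × ℝ) 3 ×ˢ (univ : Set ℝ)) :=
  Metric.isOpen_ball.prod isOpen_univ

private theorem slice_cont {V : Type} [NormedAddCommGroup V]
    {G : (ℝ × ℝ) × ℝ → V} (hG : ContinuousOn G (Metric.ball (0 : ℝ × ℝ) 3 ×ˢ univ)) {x : ℝ × ℝ}
    (hx : x ∈ Metric.ball (0 : ℝ × ℝ) 3) : Continuous fun θ : ℝ => G (x, θ) := by
  have h1 : Continuous fun θ : ℝ => ((x, θ) : (ℝ × ℝ) × ℝ) := by fun_prop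
  exact hG.comp_continuous h1 (fun θ => ⟨hx, mem_univ _⟩)

private theorem slice_int {V : Type} [NormedAddCommGroup V]
    {G : (ℝ × ℝ) × ℝ → V} (hG : ContinuousOn G (Metric.ball (0 : ℝ × ℝ) 3 ×ˢ univ)) {x : ℝ × ℝ}
    (hx : x ∈ Metric.ball (0 : ℝ × ℝ) 3) (a b : ℝ) :
    IntervalIntegrable (fun θ : ℝ => G (x, θ)) MeasureTheory.volume a b :=
  (slice_cont hG hx).intervalIntegrable a b

private theorem GX_smooth {V : Type} [NormedAddCommGroup V] [NormedSpace ℝ V]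
    {G : (ℝ × ℝ) × ℝ → V} (hG : ContDiffOn ℝ ∞ G (Metric.ball (0 : ℝ × ℝ) 3 ×ˢ univ)) :
    ContDiffOn ℝ ∞ (GX G) (Metric.ball (0 : ℝ × ℝ) 3 ×ˢ univ) := by
  have h1 : ContDiffOn ℝ ∞ (fderiv ℝ G) (Metric.ball (0 : ℝ × ℝ) 3 ×ˢ univ) :=
    hG.fderiv_of_isOpen BB_open (by simp)
  exact h1.clm_comp contDiffOn_const

private theorem IG_hasFDerivAt {V : Type} [NormedAddCommGroup V] [NormedSpace ℝ V]
    {G : (ℝ × ℝ) × ℝ → V} (hG : ContDiffOn ℝ ∞ G (Metric.ball (0 : ℝ × ℝ) 3 ×ˢ univ)) {x : ℝ × ℝ}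
    (hx : x ∈ Metric.ball (0 : ℝ × ℝ) 3) : HasFDerivAt (IG G) (IG (GX G) x) x := by
  obtain ⟨ρ, hρ, hρ'⟩ := Metric.nhds_basis_closedBall.mem_iff.1 (Metric.isOpen_ball.mem_nhds hx)
  have hc := (GX_smooth hG).continuousOn
  have hK : IsCompact (Metric.closedBall x ρ ×ˢ Icc (0 : ℝ) (2 * Real.pi)) :=
    (isCompact_closedBall x ρ).prod isCompact_Icc
  have hsub : Metric.closedBall x ρ ×ˢ Icc (0 : ℝ) (2 * Real.pi) ⊆
      Metric.ball (0 : ℝ × ℝ) 3 ×ˢ (univ : Set ℝ) := prod_mono hρ' (subset_univ _)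
  obtain ⟨C, hC⟩ := hK.exists_bound_of_continuousOn (hc.mono hsub)
  have hpi : (0 : ℝ) ≤ 2 * Real.pi := by positivity
  refine intervalIntegral.hasFDerivAt_integral_of_dominated_of_fderiv_le
    (F := fun y θ => G (y, θ)) (F' := fun y θ => GX G (y, θ)) (bound := fun _ => C)
    (Metric.closedBall_mem_nhds x hρ) ?_ ?_ ?_ ?_ ?_ ?_
  · filter_upwards [Metric.isOpen_ball.mem_nhds hx] with y hy
    exact (slice_cont hG.continuousOn hy).aestronglyMeasurable
  · exact slice_int hG.continuousOn hx _ _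
  · exact (slice_cont hc hx).aestronglyMeasurable
  · refine Filter.Eventually.of_forall fun t ht y hy => hC (y, t) ⟨hy, ?_⟩
    rw [uIoc_of_le hpi] at ht
    exact ⟨ht.1.le, ht.2⟩
  · exact intervalIntegrable_const
  · refine Filter.Eventually.of_forall fun t ht y hy => ?_
    have h1 : HasFDerivAt G (fderiv ℝ G (y, t)) (y, t) :=
      ((hG.contDiffAt (BB_open.mem_nhds ⟨hρ' hy, mem_univ _⟩)).differentiableAt
        (by simp)).hasFDerivAt
    exact h1.comp y (hasFDerivAt_prodMk_left y t)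

private theorem IG_main (r : ℕ) : ∀ (V : Type) [NormedAddCommGroup V] [NormedSpace ℝ V]
    [CompleteSpace V] (G : (ℝ × ℝ) × ℝ → V)
    (_ : ContDiffOn ℝ ∞ G (Metric.ball (0 : ℝ × ℝ) 3 ×ˢ univ)),
    ContDiffOn ℝ r (IG G) (Metric.ball (0 : ℝ × ℝ) 3) ∧
      ∀ x ∈ Metric.ball (0 : ℝ × ℝ) 3, ∀ C : ℝ, (∀ θ : ℝ, ‖iteratedFDeriv ℝ r G (x, θ)‖ ≤ C) →
        ‖iteratedFDeriv ℝ r (IG G) x‖ ≤ 2 * Real.pi * C := by
  induction r with
  | zero =>
    intro V _ _ _ G hG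
    constructor
    · rw [Nat.cast_zero, contDiffOn_zero]
      exact fun x hx => (IG_hasFDerivAt hG hx).continuousAt.continuousWithinAt
    · intro x hx C hC
      rw [norm_iteratedFDeriv_zero]
      have h1 : ∀ θ ∈ uIoc (0 : ℝ) (2 * Real.pi), ‖G (x, θ)‖ ≤ C := by
        intro θ _
        have := hC θ
        rwa [norm_iteratedFDeriv_zero] at this
      have h2 := intervalIntegral.norm_integral_le_of_norm_le_const h1
      have h3 : |2 * Real.pi - 0| = 2 * Real.pi := by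
        rw [sub_zero, abs_of_pos]
        positivity
      rw [h3] at h2
      unfold IG
      linarith
  | succ r ih =>
    intro V _ _ _ G hG
    have hfd : ∀ y ∈ Metric.ball (0 : ℝ × ℝ) 3, fderiv ℝ (IG G) y = IG (GX G) y :=
      fun y hy => (IG_hasFDerivAt hG hy).fderiv
    obtain ⟨h1, h2⟩ := ih ((ℝ × ℝ) →L[ℝ] V) (GX G) (GX_smooth hG)
    constructor
    · have h3 : ((r + 1 : ℕ) : WithTop ℕ∞) = (r : WithTop ℕ∞) + 1 := by push_cast; rfl
      rw [h3, contDiffOn_succ_iff_fderiv_of_isOpen Metric.isOpen_ball]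
      refine ⟨fun y hy => (IG_hasFDerivAt hG hy).differentiableAt.differentiableWithinAt,
        fun h => ?_, h1.congr hfd⟩
      exact absurd h (by simp)
    · intro x hx C hC
      rw [← norm_iteratedFDeriv_fderiv]
      have h3 : fderiv ℝ (IG G) =ᶠ[nhds x] IG (GX G) := by
        filter_upwards [Metric.isOpen_ball.mem_nhds hx] with y hy using hfd y hy
      rw [(h3.iteratedFDeriv ℝ r).eq_of_nhds]
      refine h2 x hx C fun θ => ?_
      refine le_trans ?_ (hC θ)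
      rw [← norm_iteratedFDeriv_fderiv]
      set L : (((ℝ × ℝ) × ℝ) →L[ℝ] V) →L[ℝ] ((ℝ × ℝ) →L[ℝ] V) :=
        (ContinuousLinearMap.compL ℝ (ℝ × ℝ) ((ℝ × ℝ) × ℝ) V).flip
          (ContinuousLinearMap.inl ℝ (ℝ × ℝ) ℝ) with hL
      have hL1 : ‖L‖ ≤ 1 := by
        refine ContinuousLinearMap.opNorm_le_bound _ zero_le_one fun T => ?_
        have h4 : L T = T.comp (ContinuousLinearMap.inl ℝ (ℝ × ℝ) ℝ) := rfl
        rw [h4]
        refine (ContinuousLinearMap.opNorm_comp_le _ _).trans ?_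
        have h5 := ContinuousLinearMap.norm_inl_le_one ℝ (ℝ × ℝ) ℝ
        have h6 := norm_nonneg T
        nlinarith
      have h5 : GX G = L ∘ fderiv ℝ G := rfl
      have h6 : ContDiffAt ℝ ∞ (fderiv ℝ G) (x, θ) :=
        (hG.fderiv_of_isOpen BB_open (m := ∞) (by simp)).contDiffAt
          (BB_open.mem_nhds ⟨hx, mem_univ _⟩)
      rw [h5, L.iteratedFDeriv_comp_left h6 (by exact_mod_cast le_top)]
      refine (ContinuousLinearMap.norm_compContinuousMultilinearMap_le _ _).trans ?_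
      have h7 := norm_nonneg (iteratedFDeriv ℝ r (fderiv ℝ G) (x, θ))
      nlinarith

variable {V : Type} [NormedAddCommGroup V] [NormedSpace ℝ V] [CompleteSpace V] {A : Amp}
  {p m p' m' : ℤ}

omit [CompleteSpace V] in
private theorem mean_eq (u : Eps → (ℝ × ℝ) × ℝ → V) (i : Eps) :
    mean u i = (2 * Real.pi)⁻¹ • IG (u i) := rfl

/-- the mean (differentiation under the integral sign) -/
theorem OT.mean {u : Eps → (ℝ × ℝ) × ℝ → V} (hu : OT A p m u) : OX A p m (mean u) := by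
  obtain ⟨⟨hs, hb⟩, -⟩ := hu
  have hs' : ∀ i, ContDiffOn ℝ ∞ (IG (u i)) (Metric.ball (0 : ℝ × ℝ) 3) := fun i =>
    contDiffOn_infty.2 fun n => (IG_main n V (u i) (hs i)).1
  refine ⟨fun i => ?_, fun r => ?_⟩
  · rw [mean_eq]
    exact (hs' i).const_smul _
  · obtain ⟨g, hg, hg'⟩ := hb r
    refine ⟨g, hg, fun i x hx => ?_⟩
    have h1 := (IG_main r V (u i) (hs i)).2 x hx (g i * A.wt p m i x * (1 : ℝ)⁻¹ ^ r)
      (fun θ => hg' i (x, θ) ⟨hx, mem_univ _⟩)
    have h2 : ContDiffAt ℝ r (IG (u i)) x :=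
      ((hs' i).contDiffAt (Metric.isOpen_ball.mem_nhds hx)).of_le (by exact_mod_cast le_top)
    have hpi : (0 : ℝ) < 2 * Real.pi := by positivity
    rw [mean_eq, iteratedFDeriv_const_smul_apply h2, norm_smul, Real.norm_eq_abs,
      abs_of_pos (inv_pos.2 hpi)]
    calc (2 * Real.pi)⁻¹ * ‖iteratedFDeriv ℝ r (IG (u i)) x‖
        ≤ (2 * Real.pi)⁻¹ * (2 * Real.pi * (g i * A.wt p m i x * (1 : ℝ)⁻¹ ^ r)) :=
          mul_le_mul_of_nonneg_left h1 (inv_pos.2 hpi).le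
      _ = g i * A.wt p m i x * (1 : ℝ)⁻¹ ^ r := by
          rw [← mul_assoc, inv_mul_cancel₀ hpi.ne', one_mul]

omit [CompleteSpace V] in
private theorem OT.cont {u : Eps → (ℝ × ℝ) × ℝ → V} (hu : OT A p m u) (i : Eps) :
    ContinuousOn (u i) (Metric.ball (0 : ℝ × ℝ) 3 ×ˢ univ) := (hu.1.1 i).continuousOn

theorem mean_add {u v : Eps → (ℝ × ℝ) × ℝ → V} (hu : OT A p m u) (hv : OT A p' m' v) {i : Eps}
    {x : ℝ × ℝ} (hx : x ∈ Metric.ball (0 : ℝ × ℝ) 3) :
    mean (fun i q => u i q + v i q) i x = mean u i x + mean v i x := by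
  unfold P205F.EE.mean
  rw [intervalIntegral.integral_add (slice_int (OT.cont hu i) hx _ _)
    (slice_int (OT.cont hv i) hx _ _), smul_add]

theorem mean_sub {u v : Eps → (ℝ × ℝ) × ℝ → V} (hu : OT A p m u) (hv : OT A p' m' v) {i : Eps}
    {x : ℝ × ℝ} (hx : x ∈ Metric.ball (0 : ℝ × ℝ) 3) :
    mean (fun i q => u i q - v i q) i x = mean u i x - mean v i x := by
  unfold P205F.EE.mean
  rw [intervalIntegral.integral_sub (slice_int (OT.cont hu i) hx _ _)
    (slice_int (OT.cont hv i) hx _ _), smul_sub]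

theorem mean_smulX (c : Eps → ℝ × ℝ → ℝ) (u : Eps → (ℝ × ℝ) × ℝ → V) (i : Eps) (x : ℝ × ℝ) :
    mean (fun i q => c i q.1 • u i q) i x = c i x • mean u i x := by
  unfold P205F.EE.mean
  dsimp only
  rw [intervalIntegral.integral_smul, smul_comm]

theorem mean_innerX (c : Eps → ℝ × ℝ → F4) {u : Eps → (ℝ × ℝ) × ℝ → F4} (hu : OT A p m u) {i : Eps}
    {x : ℝ × ℝ} (hx : x ∈ Metric.ball (0 : ℝ × ℝ) 3) :
    mean (fun i q => inner ℝ (c i q.1) (u i q)) i x = inner ℝ (c i x) (mean u i x) := by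
  unfold P205F.EE.mean
  rw [inner_smul_right, smul_eq_mul]
  congr 1
  have h := (innerSL ℝ (c i x)).intervalIntegral_comp_comm
    (slice_int (OT.cont hu i) hx 0 (2 * Real.pi))
  simpa using h

/-- a scalar function times a vector depending on `x` only -/
theorem mean_smulV {c : Eps → (ℝ × ℝ) × ℝ → ℝ} (hc : OT A p m c) (v : Eps → ℝ × ℝ → V) {i : Eps}
    {x : ℝ × ℝ} (hx : x ∈ Metric.ball (0 : ℝ × ℝ) 3) :
    mean (fun i q => c i q • v i q.1) i x = mean c i x • v i x := by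
  unfold P205F.EE.mean
  dsimp only
  rw [intervalIntegral.integral_smul_const, smul_assoc]

theorem mean_ofX (u : Eps → ℝ × ℝ → V) (i : Eps) (x : ℝ × ℝ) :
    mean (fun i q => u i q.1) i x = u i x := by
  unfold P205F.EE.mean
  have hpi : (2 * Real.pi : ℝ) ≠ 0 := by positivity
  dsimp only
  rw [intervalIntegral.integral_const, sub_zero, smul_smul, inv_mul_cancel₀ hpi, one_smul]

theorem mean_dX {u : Eps → (ℝ × ℝ) × ℝ → V} (hu : OT A p m u) (w : ℝ × ℝ) {i : Eps}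
    {x : ℝ × ℝ} (hx : x ∈ Metric.ball (0 : ℝ × ℝ) 3) :
    mean (dX w u) i x = pd w (mean u i) x := by
  have h1 := IG_hasFDerivAt (hu.1.1 i) hx
  have h2 : HasFDerivAt (mean u i) ((2 * Real.pi)⁻¹ • IG (GX (u i)) x) x := by
    rw [mean_eq]
    exact h1.const_smul _
  unfold pd
  rw [h2.fderiv]
  have h3 := ((ContinuousLinearMap.apply ℝ V w)).intervalIntegral_comp_comm
    (slice_int (GX_smooth (hu.1.1 i)).continuousOn hx 0 (2 * Real.pi))
  unfold P205F.EE.mean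
  have h4 : IG (GX (u i)) x w = ∫ θ in (0 : ℝ)..(2 * Real.pi), dX w u i (x, θ) := by
    refine Eq.trans h3.symm ?_
    rfl
  rw [_root_.smul_apply, h4]

theorem mean_dT {u : Eps → (ℝ × ℝ) × ℝ → V} (hu : OT A p m u) : Mz (dT u) := by
  intro i x hx
  have hs := hu.1.1 i
  have hc : ContinuousOn (dT u i) (Metric.ball (0 : ℝ × ℝ) 3 ×ˢ univ) := by
    have h1 : ContDiffOn ℝ ∞ (fderiv ℝ (u i)) (Metric.ball (0 : ℝ × ℝ) 3 ×ˢ univ) :=
      hs.fderiv_of_isOpen BB_open (by simp)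
    exact (h1.clm_apply contDiffOn_const).continuousOn
  have h2 : ∀ t ∈ uIcc (0 : ℝ) (2 * Real.pi), HasDerivAt (fun θ : ℝ => u i (x, θ))
      (dT u i (x, t)) t := by
    intro t _
    have h3 : HasFDerivAt (u i) (fderiv ℝ (u i) (x, t)) (x, t) :=
      ((hs.contDiffAt (BB_open.mem_nhds ⟨hx, mem_univ _⟩)).differentiableAt
        (by simp)).hasFDerivAt
    have h4 := h3.comp_hasDerivAt t ((hasDerivAt_const t x).prodMk (hasDerivAt_id t))
    exact h4
  have h5 := intervalIntegral.integral_eq_sub_of_hasDerivAt h2 (slice_int hc hx _ _)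
  have h6 := hu.2 i x hx 0
  rw [zero_add] at h6
  unfold P205F.EE.mean
  rw [h5, h6, sub_self, smul_zero]

/-- an odd periodic function has mean zero -/
theorem Mz_of_odd {u : Eps → (ℝ × ℝ) × ℝ → V} (hu : OT A p m u)
    (h : ∀ i, ∀ x ∈ Metric.ball (0 : ℝ × ℝ) 3, ∀ θ : ℝ, u i (x, -θ) = -u i (x, θ)) : Mz u := by
  intro i x hx
  have hper : Function.Periodic (fun θ : ℝ => u i (x, θ)) (2 * Real.pi) := fun θ => hu.2 i x hx θ
  have h1 := hper.intervalIntegral_add_eq (-Real.pi) 0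
  have e1 : -Real.pi + 2 * Real.pi = Real.pi := by ring
  rw [e1, zero_add] at h1
  have h2 : ∫ θ in (-Real.pi)..Real.pi, u i (x, θ) = -∫ θ in (-Real.pi)..Real.pi, u i (x, θ) := by
    have h3 := intervalIntegral.integral_comp_neg (a := -Real.pi) (b := Real.pi)
      (fun θ : ℝ => u i (x, θ))
    rw [neg_neg] at h3
    rw [← intervalIntegral.integral_neg]
    refine h3.symm.trans (intervalIntegral.integral_congr fun θ _ => ?_)
    exact h i x hx θ
  have h4 : ∫ θ in (-Real.pi)..Real.pi, u i (x, θ) = 0 := by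
    have h5 : (2 : ℝ) • (∫ θ in (-Real.pi)..Real.pi, u i (x, θ)) = 0 := by
      rw [two_smul]
      nth_rewrite 1 [h2]
      exact neg_add_cancel _
    exact (smul_eq_zero.1 h5).resolve_left two_ne_zero
  unfold P205F.EE.mean
  rw [← h1, h4, smul_zero]

end P205F.EE
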