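import Mathlib
import Vale.Agent.Lib.P205E.EC4
import Vale.Agent.Lib.P205E.EC6

/-! # P205E module EC7: primitives -/

open scoped ContDiff
open Set

namespace P205F.EE

section EC7

variable {X : Type} [NormedAddCommGroup X] [NormedSpace ℝ X]
  {V : Type} [NormedAddCommGroup V] [NormedSpace ℝ V] {O : Set X} {I : Set ℝ}

/-- primitive in the last variable -/
noncomputable def EC7_P (f : X × ℝ → V) (q : X × ℝ) : V := ∫ s in (0 : ℝ)..q.2, f (q.1, s)

/-- partial derivative in the first variable -/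
noncomputable def EC7_D (f : X × ℝ → V) (q : X × ℝ) : X →L[ℝ] V :=
  (fderiv ℝ f q).comp (ContinuousLinearMap.inl ℝ X ℝ)

omit [NormedSpace ℝ X] in
theorem EC7_cont0 {f : X × ℝ → V} (hf : ContinuousOn f (O ×ˢ univ)) :
    ContinuousOn (EC7_P f) (O ×ˢ univ) := by
  have h1 : Continuous (Function.uncurry fun (x : O) (t : ℝ) => f ((x : X), t)) := by
    have h2 : Continuous fun p : O × ℝ => ((p.1 : X), p.2) := by fun_prop
    exact hf.comp_continuous h2 fun p => ⟨p.1.2, mem_univ _⟩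
  have h3 := intervalIntegral.continuous_parametric_primitive_of_continuous
    (μ := MeasureTheory.volume) (a₀ := (0 : ℝ)) h1
  rw [continuousOn_iff_continuous_domRestrict]
  have h4 : Continuous fun p : (O ×ˢ (univ : Set ℝ) : Set (X × ℝ)) =>
      ((⟨p.1.1, p.2.1⟩ : O), p.1.2) := by
    refine Continuous.prodMk ?_ (by fun_prop)
    exact Continuous.subtype_mk (by fun_prop) _
  exact h3.comp h4

omit [NormedSpace ℝ X] in
theorem EC7_cont (hI : IsOpen I) (hc : I.OrdConnected) (h0 : (0 : ℝ) ∈ I) (hO : IsOpen O)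
    {f : X × ℝ → V} (hf : ContinuousOn f (O ×ˢ I)) : ContinuousOn (EC7_P f) (O ×ˢ I) := by
  rintro ⟨x0, t0⟩ ⟨hx0, ht0⟩
  apply ContinuousAt.continuousWithinAt
  obtain ⟨a, haI, ha0, hat⟩ : ∃ a ∈ I, a < 0 ∧ a < t0 := by
    have hm : min 0 t0 ∈ I := by
      rcases min_choice (0 : ℝ) t0 with h | h <;> rw [h]
      · exact h0
      · exact ht0
    obtain ⟨e, he, hb⟩ := Metric.isOpen_iff.1 hI _ hm
    refine ⟨min 0 t0 - e / 2, hb ?_, ?_, ?_⟩
    · rw [Metric.mem_ball, Real.dist_eq, abs_lt]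
      constructor <;> linarith
    · have := min_le_left 0 t0; linarith
    · have := min_le_right 0 t0; linarith
  obtain ⟨b, hbI, hb0, hbt⟩ : ∃ b ∈ I, 0 < b ∧ t0 < b := by
    have hm : max 0 t0 ∈ I := by
      rcases max_choice (0 : ℝ) t0 with h | h <;> rw [h]
      · exact h0
      · exact ht0
    obtain ⟨e, he, hb⟩ := Metric.isOpen_iff.1 hI _ hm
    refine ⟨max 0 t0 + e / 2, hb ?_, ?_, ?_⟩
    · rw [Metric.mem_ball, Real.dist_eq, abs_lt]
      constructor <;> linarith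
    · have := le_max_left 0 t0; linarith
    · have := le_max_right 0 t0; linarith
  have hab : a ≤ b := by linarith
  have hsub : Icc a b ⊆ I := hc.out haI hbI
  let f' : X × ℝ → V := fun q => f (q.1, (projIcc a b hab q.2 : ℝ))
  have hf' : ContinuousOn f' (O ×ˢ univ) := by
    refine hf.comp (Continuous.continuousOn ?_) ?_
    · exact continuous_fst.prodMk (continuous_subtype_val.comp
        (continuous_projIcc.comp continuous_snd))
    · rintro ⟨x, t⟩ ⟨hx, _⟩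
      exact ⟨hx, hsub (projIcc a b hab t).2⟩
  have h1 : ContinuousAt (EC7_P f') (x0, t0) :=
    (EC7_cont0 hf').continuousAt ((hO.prod isOpen_univ).mem_nhds ⟨hx0, mem_univ _⟩)
  refine h1.congr ?_
  have h2 : O ×ˢ Ioo a b ∈ nhds (x0, t0) :=
    (hO.prod isOpen_Ioo).mem_nhds ⟨hx0, hat, hbt⟩
  filter_upwards [h2] with q hq
  refine intervalIntegral.integral_congr fun s hs => ?_
  have hs' : s ∈ Icc a b := by
    have h3 : uIcc (0 : ℝ) q.2 ⊆ Icc a b :=
      uIcc_subset_Icc ⟨ha0.le, hb0.le⟩ ⟨hq.2.1.le, hq.2.2.le⟩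
    exact h3 hs
  show f (q.1, (projIcc a b hab s : ℝ)) = f (q.1, s)
  rw [projIcc_of_mem hab hs']


variable [ProperSpace X] [CompleteSpace V]

theorem EC7_deriv (hI : IsOpen I) (hc : I.OrdConnected) (h0 : (0 : ℝ) ∈ I) (hO : IsOpen O)
    {f : X × ℝ → V} (hf : ContDiffOn ℝ ∞ f (O ×ˢ I)) {q : X × ℝ} (hq : q ∈ O ×ˢ I) :
    HasFDerivAt (EC7_P f) ((EC7_P (EC7_D f) q).comp (ContinuousLinearMap.fst ℝ X ℝ) +
      (ContinuousLinearMap.snd ℝ X ℝ).smulRight (f q)) q := by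
  have hop : IsOpen (O ×ˢ I) := hO.prod hI
  have hfc : ContinuousOn f (O ×ˢ I) := hf.continuousOn
  have hdc : ContinuousOn (EC7_D f) (O ×ˢ I) := by
    have h1 : ContinuousOn (fderiv ℝ f) (O ×ˢ I) :=
      hf.continuousOn_fderiv_of_isOpen hop (by norm_cast)
    exact (((ContinuousLinearMap.compL ℝ X (X × ℝ) V).flip
      (ContinuousLinearMap.inl ℝ X ℝ)).continuous.comp_continuousOn h1)
  have hPd : ContinuousOn (EC7_P (EC7_D f)) (O ×ˢ I) := EC7_cont hI hc h0 hO hdc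
  have hslice : ∀ {F : Type} [NormedAddCommGroup F] [NormedSpace ℝ F] (g : X × ℝ → F),
      ContinuousOn g (O ×ˢ I) → ∀ x ∈ O, ∀ t ∈ I, ContinuousOn (fun s => g (x, s)) (uIcc 0 t) := by
    intro F _ _ g hg x hx t ht
    refine hg.comp (Continuous.continuousOn (by fun_prop)) ?_
    intro s hs
    exact ⟨hx, hc.uIcc_subset h0 ht hs⟩
  have hmem : ∀ᶠ v in nhds q, v ∈ O ×ˢ I := hop.mem_nhds hq
  have key := hasStrictFDerivAt_uncurry_coprod (𝕜 := ℝ) (u := q)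
    (f := fun x t => ∫ s in (0 : ℝ)..t, f (x, s))
    (f₁ := fun x t => EC7_P (EC7_D f) (x, t))
    (f₂ := fun x t => (ContinuousLinearMap.id ℝ ℝ).smulRight (f (x, t))) ?_ ?_ ?_ ?_
  · refine key.hasFDerivAt.congr_fderiv ?_
    ext w
    · simp only [ContinuousLinearMap.coprod_comp_inl]
      simp
      rfl
    · simp
      show (1 : ℝ) • f (q.1, q.2) = f q
      rw [one_smul]
  · filter_upwards [hmem] with v hv
    obtain ⟨δ, hδ, hball⟩ := Metric.nhds_basis_closedBall.mem_iff.1 (hO.mem_nhds hv.1)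
    have hK : IsCompact (Metric.closedBall v.1 δ ×ˢ uIcc (0 : ℝ) v.2) :=
      (isCompact_closedBall _ _).prod isCompact_uIcc
    have hKs : Metric.closedBall v.1 δ ×ˢ uIcc (0 : ℝ) v.2 ⊆ O ×ˢ I :=
      prod_mono hball (hc.uIcc_subset h0 hv.2)
    obtain ⟨C, hC⟩ := hK.exists_bound_of_continuousOn (hdc.mono hKs)
    have hnb : Metric.closedBall v.1 δ ∈ nhds v.1 := Metric.closedBall_mem_nhds _ hδ
    refine intervalIntegral.hasFDerivAt_integral_of_dominated_of_fderiv_le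
      (F := fun x t => f (x, t)) (F' := fun x t => EC7_D f (x, t)) (bound := fun _ => C)
      hnb ?_ ?_ ?_ ?_ ?_ ?_
    · filter_upwards [hnb] with x hx
      exact ((hslice f hfc x (hball hx) v.2 hv.2).intervalIntegrable).def'.aestronglyMeasurable
    · exact (hslice f hfc v.1 hv.1 v.2 hv.2).intervalIntegrable
    · exact ((hslice _ hdc v.1 hv.1 v.2 hv.2).intervalIntegrable).def'.aestronglyMeasurable
    · refine Filter.Eventually.of_forall fun t ht x hx => ?_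
      exact hC (x, t) ⟨hx, uIoc_subset_uIcc ht⟩
    · exact intervalIntegrable_const
    · refine Filter.Eventually.of_forall fun t ht x hx => ?_
      have hxt : (x, t) ∈ O ×ˢ I := hKs ⟨hx, uIoc_subset_uIcc ht⟩
      have h1 : HasFDerivAt f (fderiv ℝ f (x, t)) (x, t) :=
        ((hf.contDiffAt (hop.mem_nhds hxt)).differentiableAt (by norm_num)).hasFDerivAt
      have h2 : HasFDerivAt (fun y : X => (y, t)) (ContinuousLinearMap.inl ℝ X ℝ) x := by
        have h3 := (hasFDerivAt_id (𝕜 := ℝ) x).prodMk (hasFDerivAt_const (𝕜 := ℝ) t x)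
        refine h3.congr_fderiv ?_
        ext w <;> simp
      exact h1.comp x h2
  · filter_upwards [hmem] with v hv
    have h1 : HasDerivAt (fun t => ∫ s in (0 : ℝ)..t, f (v.1, s)) (f (v.1, v.2)) v.2 := by
      have hca : ∀ t ∈ I, ContinuousAt (fun s => f (v.1, s)) t := by
        intro t ht
        have h2 : ContinuousAt f (v.1, t) := hfc.continuousAt (hop.mem_nhds ⟨hv.1, ht⟩)
        exact h2.comp (f := fun s : ℝ => (v.1, s)) (by fun_prop)
      refine intervalIntegral.integral_hasDerivAt_right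
        (hslice f hfc v.1 hv.1 v.2 hv.2).intervalIntegrable ?_ (hca _ hv.2)
      have hco : ContinuousOn (fun s => f (v.1, s)) I := fun t ht => (hca t ht).continuousWithinAt
      exact hco.stronglyMeasurableAtFilter hI _ hv.2
    refine h1.hasFDerivAt.congr_fderiv ?_
    ext
    simp
    show f v = (1 : ℝ) • f (v.1, v.2)
    rw [one_smul]
  · exact (hPd.continuousAt (hop.mem_nhds hq))
  · have h1 : ContinuousAt f q := hfc.continuousAt (hop.mem_nhds hq)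
    exact ((ContinuousLinearMap.smulRightL ℝ ℝ V (ContinuousLinearMap.id ℝ ℝ)).continuous.continuousAt).comp h1


omit [ProperSpace X] [CompleteSpace V] in
theorem EC7_D_smooth (hop : IsOpen (O ×ˢ I)) {f : X × ℝ → V} (hf : ContDiffOn ℝ ∞ f (O ×ˢ I)) :
    ContDiffOn ℝ ∞ (EC7_D f) (O ×ˢ I) := by
  have h1 : ContDiffOn ℝ ∞ (fderiv ℝ f) (O ×ˢ I) := hf.fderiv_of_isOpen hop (by norm_cast)
  exact ((ContinuousLinearMap.compL ℝ X (X × ℝ) V).flip
      (ContinuousLinearMap.inl ℝ X ℝ)).contDiff.comp_contDiffOn h1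

/-- precomposition with the first projection -/
noncomputable def EC7_L1 (X : Type) [NormedAddCommGroup X] [NormedSpace ℝ X]
    (V : Type) [NormedAddCommGroup V] [NormedSpace ℝ V] : (X →L[ℝ] V) →L[ℝ] (X × ℝ →L[ℝ] V) :=
  (ContinuousLinearMap.compL ℝ (X × ℝ) X V).flip (ContinuousLinearMap.fst ℝ X ℝ)

/-- the second projection times a vector -/
noncomputable def EC7_L2 (X : Type) [NormedAddCommGroup X] [NormedSpace ℝ X]
    (V : Type) [NormedAddCommGroup V] [NormedSpace ℝ V] : V →L[ℝ] (X × ℝ →L[ℝ] V) :=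
  ContinuousLinearMap.smulRightL ℝ (X × ℝ) V (ContinuousLinearMap.snd ℝ X ℝ)

theorem EC7_fderiv (hI : IsOpen I) (hc : I.OrdConnected) (h0 : (0 : ℝ) ∈ I) (hO : IsOpen O)
    {f : X × ℝ → V} (hf : ContDiffOn ℝ ∞ f (O ×ˢ I)) {q : X × ℝ} (hq : q ∈ O ×ˢ I) :
    fderiv ℝ (EC7_P f) q = EC7_L1 X V (EC7_P (EC7_D f) q) + EC7_L2 X V (f q) := by
  rw [(EC7_deriv hI hc h0 hO hf hq).fderiv]
  rfl

theorem EC7_smooth_aux (hI : IsOpen I) (hc : I.OrdConnected) (h0 : (0 : ℝ) ∈ I) (hO : IsOpen O)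
    (r : ℕ) : ∀ (V : Type) [NormedAddCommGroup V] [NormedSpace ℝ V] [CompleteSpace V]
      (f : X × ℝ → V), ContDiffOn ℝ ∞ f (O ×ˢ I) → ContDiffOn ℝ r (EC7_P f) (O ×ˢ I) := by
  induction r with
  | zero =>
    intro V _ _ _ f hf
    rw [Nat.cast_zero, contDiffOn_zero]
    exact EC7_cont hI hc h0 hO hf.continuousOn
  | succ r ih =>
    intro V _ _ _ f hf
    have hop : IsOpen (O ×ˢ I) := hO.prod hI
    have h1 := ih (X →L[ℝ] V) (EC7_D f) (EC7_D_smooth hop hf)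
    rw [Nat.cast_succ, contDiffOn_succ_iff_fderiv_of_isOpen hop]
    refine ⟨fun q hq => (EC7_deriv hI hc h0 hO hf hq).differentiableAt.differentiableWithinAt,
      fun h => ?_, ?_⟩
    · exact absurd h (by norm_cast)
    · have h2 : ContDiffOn ℝ r (fun q => EC7_L1 X V (EC7_P (EC7_D f) q) + EC7_L2 X V (f q))
          (O ×ˢ I) :=
        ((EC7_L1 X V).contDiff.comp_contDiffOn h1).add
          ((EC7_L2 X V).contDiff.comp_contDiffOn (hf.of_le (by norm_cast; exact le_top)))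
      exact h2.congr fun q hq => EC7_fderiv hI hc h0 hO hf hq

theorem EC7_smooth (hI : IsOpen I) (hc : I.OrdConnected) (h0 : (0 : ℝ) ∈ I) (hO : IsOpen O)
    {f : X × ℝ → V} (hf : ContDiffOn ℝ ∞ f (O ×ˢ I)) : ContDiffOn ℝ ∞ (EC7_P f) (O ×ˢ I) := by
  rw [contDiffOn_infty]
  exact fun r => EC7_smooth_aux hI hc h0 hO r V f hf

/-- bounds for primitives: a class `Q` of families which is closed under `D` and whose primitives
are bounded -/
theorem EC7_bd_aux (hI : IsOpen I) (hc : I.OrdConnected) (h0 : (0 : ℝ) ∈ I) (hO : IsOpen O)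
    (S : Setting Eps (X × ℝ)) (hS : ∀ i, S.U i = O ×ˢ I) (hs : ∀ i, S.s i = 1)
    (W : Eps → X × ℝ → ℝ)
    (Q : ∀ (V : Type) [NormedAddCommGroup V] [NormedSpace ℝ V] [CompleteSpace V],
      (Eps → X × ℝ → V) → Prop)
    (h1 : ∀ (V : Type) [NormedAddCommGroup V] [NormedSpace ℝ V] [CompleteSpace V]
      (u : Eps → X × ℝ → V), Q V u → Bd S W u)
    (h2 : ∀ (V : Type) [NormedAddCommGroup V] [NormedSpace ℝ V] [CompleteSpace V]
      (u : Eps → X × ℝ → V), Q V u → Q (X →L[ℝ] V) (fun i => EC7_D (u i)))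
    (h3 : ∀ (V : Type) [NormedAddCommGroup V] [NormedSpace ℝ V] [CompleteSpace V]
      (u : Eps → X × ℝ → V), Q V u → ∃ g ∈ S.G.mem, ∀ i, ∀ q ∈ S.U i,
        ‖EC7_P (u i) q‖ ≤ g i * W i q) (r : ℕ) :
    ∀ (V : Type) [NormedAddCommGroup V] [NormedSpace ℝ V] [CompleteSpace V]
      (u : Eps → X × ℝ → V), Q V u → ∃ g ∈ S.G.mem, ∀ i, ∀ q ∈ S.U i,
        ‖iteratedFDeriv ℝ r (EC7_P (u i)) q‖ ≤ g i * W i q := by
  induction r with
  | zero =>
    intro V _ _ _ u hu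
    obtain ⟨g, hg, hb⟩ := h3 V u hu
    refine ⟨g, hg, fun i q hq => ?_⟩
    rw [norm_iteratedFDeriv_zero]
    exact hb i q hq
  | succ r ih =>
    intro V _ _ _ u hu
    obtain ⟨g, hg, hb⟩ := ih (X →L[ℝ] V) (fun i => EC7_D (u i)) (h2 V u hu)
    obtain ⟨g', hg', hb'⟩ := ((h1 V u hu).clm (EC7_L2 X V)).2 r
    have hC : (fun _ => max 1 ‖EC7_L1 X V‖ : Eps → ℝ) ∈ S.G.mem := S.G.const _ (le_max_left _ _)
    refine ⟨_, Growth.add (S.G.mul _ hC _ hg) hg', fun i q hq => ?_⟩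
    have hsm : ContDiffOn ℝ ∞ (u i) (O ×ˢ I) := by
      rw [← hS i]
      exact (h1 V u hu).1 i
    have hop : IsOpen (O ×ˢ I) := hO.prod hI
    have hq' : q ∈ O ×ˢ I := by rw [← hS i]; exact hq
    have hev : fderiv ℝ (EC7_P (u i)) =ᶠ[nhds q]
        fun q => EC7_L1 X V (EC7_P (EC7_D (u i)) q) + EC7_L2 X V (u i q) := by
      filter_upwards [hop.mem_nhds hq'] with v hv
      exact EC7_fderiv hI hc h0 hO hsm hv
    rw [← norm_iteratedFDeriv_fderiv, (hev.iteratedFDeriv ℝ r).eq_of_nhds]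
    have hA : ContDiffAt ℝ r (EC7_P (EC7_D (u i))) q :=
      ((EC7_smooth hI hc h0 hO (EC7_D_smooth hop hsm)).contDiffAt (hop.mem_nhds hq')).of_le
        (by norm_cast; exact le_top)
    have hB : ContDiffAt ℝ r (u i) q :=
      (hsm.contDiffAt (hop.mem_nhds hq')).of_le (by norm_cast; exact le_top)
    have hA' : ContDiffAt ℝ r (fun q => EC7_L1 X V (EC7_P (EC7_D (u i)) q)) q :=
      (EC7_L1 X V).contDiff.contDiffAt.comp q hA
    have hB' : ContDiffAt ℝ r (fun q => EC7_L2 X V (u i q)) q :=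
      (EC7_L2 X V).contDiff.contDiffAt.comp q hB
    have h4 : iteratedFDeriv ℝ r (fun q => EC7_L1 X V (EC7_P (EC7_D (u i)) q) +
        EC7_L2 X V (u i q)) q = iteratedFDeriv ℝ r (fun q => EC7_L1 X V (EC7_P (EC7_D (u i)) q)) q +
        iteratedFDeriv ℝ r (fun q => EC7_L2 X V (u i q)) q := iteratedFDeriv_add_apply hA' hB'
    rw [h4]
    refine (norm_add_le _ _).trans ?_
    rw [add_mul]
    refine add_le_add ?_ ?_
    · have h5 : ‖iteratedFDeriv ℝ r (fun q => EC7_L1 X V (EC7_P (EC7_D (u i)) q)) q‖ ≤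
          ‖EC7_L1 X V‖ * ‖iteratedFDeriv ℝ r (EC7_P (EC7_D (u i))) q‖ :=
        (EC7_L1 X V).norm_iteratedFDeriv_comp_left hA le_rfl
      refine h5.trans ?_
      rw [mul_assoc]
      exact mul_le_mul (le_max_right _ _) (hb i q hq) (norm_nonneg _)
        (zero_le_one.trans (le_max_left _ _))
    · have h6 := hb' i q hq
      rw [hs i, inv_one, one_pow, mul_one] at h6
      exact h6

theorem EC7_bd (hI : IsOpen I) (hc : I.OrdConnected) (h0 : (0 : ℝ) ∈ I) (hO : IsOpen O)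
    (S : Setting Eps (X × ℝ)) (hS : ∀ i, S.U i = O ×ˢ I) (hs : ∀ i, S.s i = 1)
    (W : Eps → X × ℝ → ℝ)
    (Q : ∀ (V : Type) [NormedAddCommGroup V] [NormedSpace ℝ V] [CompleteSpace V],
      (Eps → X × ℝ → V) → Prop)
    (h1 : ∀ (V : Type) [NormedAddCommGroup V] [NormedSpace ℝ V] [CompleteSpace V]
      (u : Eps → X × ℝ → V), Q V u → Bd S W u)
    (h2 : ∀ (V : Type) [NormedAddCommGroup V] [NormedSpace ℝ V] [CompleteSpace V]
      (u : Eps → X × ℝ → V), Q V u → Q (X →L[ℝ] V) (fun i => EC7_D (u i)))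
    (h3 : ∀ (V : Type) [NormedAddCommGroup V] [NormedSpace ℝ V] [CompleteSpace V]
      (u : Eps → X × ℝ → V), Q V u → ∃ g ∈ S.G.mem, ∀ i, ∀ q ∈ S.U i,
        ‖EC7_P (u i) q‖ ≤ g i * W i q)
    {u : Eps → X × ℝ → V} (hu : Q V u) : Bd S W (fun i => EC7_P (u i)) := by
  refine ⟨fun i => ?_, fun r => ?_⟩
  · rw [hS i]
    refine EC7_smooth hI hc h0 hO ?_
    rw [← hS i]
    exact (h1 V u hu).1 i
  · obtain ⟨g, hg, hb⟩ := EC7_bd_aux hI hc h0 hO S hS hs W Q h1 h2 h3 r V u hu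
    refine ⟨g, hg, fun i q hq => ?_⟩
    rw [hs i, inv_one, one_pow, mul_one]
    exact hb i q hq

end EC7

variable {V : Type} [NormedAddCommGroup V] [NormedSpace ℝ V] [CompleteSpace V] {A : Amp}
  {p m p' m' : ℤ}

omit [CompleteSpace V] in
/-- the family of the partial derivatives -/
theorem EC7_OT_D {u : Eps → (ℝ × ℝ) × ℝ → V} (hu : OT A p m u) :
    OT A p m (fun i => EC7_D (u i)) := by
  refine ⟨?_, fun i x hx θ => ?_⟩
  · have h1 := hu.1.fderiv
    have h2 : Bd ST (fun i q => A.wt p m i q.1) (fun i x => fderiv ℝ (u i) x) := by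
      have h3 : (fun (i : Eps) (q : (ℝ × ℝ) × ℝ) => A.wt p m i q.1 * (ST.s i)⁻¹) =
          fun i q => A.wt p m i q.1 := by
        funext i q
        show A.wt p m i q.1 * (1 : ℝ)⁻¹ = _
        rw [inv_one, mul_one]
      rwa [h3] at h1
    exact h2.clm ((ContinuousLinearMap.compL ℝ (ℝ × ℝ) ((ℝ × ℝ) × ℝ) V).flip
      (ContinuousLinearMap.inl ℝ (ℝ × ℝ) ℝ))
  · show (fderiv ℝ (u i) (x, θ + 2 * Real.pi)).comp _ = (fderiv ℝ (u i) (x, θ)).comp _
    congr 1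
    have h1 : fderiv ℝ (fun q : (ℝ × ℝ) × ℝ => u i (q + ((0 : ℝ × ℝ), 2 * Real.pi))) (x, θ) =
        fderiv ℝ (u i) ((x, θ) + ((0 : ℝ × ℝ), 2 * Real.pi)) := fderiv_comp_add_right _
    have h2 : (fun q : (ℝ × ℝ) × ℝ => u i (q + ((0 : ℝ × ℝ), 2 * Real.pi))) =ᶠ[nhds (x, θ)]
        u i := by
      have h3 : Metric.ball (0 : ℝ × ℝ) 3 ×ˢ (univ : Set ℝ) ∈ nhds (x, θ) :=
        (Metric.isOpen_ball.prod isOpen_univ).mem_nhds ⟨hx, mem_univ _⟩
      filter_upwards [h3] with q hq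
      have h4 := hu.2 i q.1 hq.1 q.2
      have h5 : q + ((0 : ℝ × ℝ), 2 * Real.pi) = (q.1, q.2 + 2 * Real.pi) := by
        ext <;> simp
      rw [h5, h4]
    have h6 : (x, θ) + ((0 : ℝ × ℝ), 2 * Real.pi) = (x, θ + 2 * Real.pi) := by
      ext <;> simp
    rw [← h6, ← h1, h2.fderiv_eq]

omit [CompleteSpace V] in
theorem EC7_slice {u : Eps → (ℝ × ℝ) × ℝ → V} (hu : OT A p m u) (i : Eps) {x : ℝ × ℝ}
    (hx : x ∈ Metric.ball (0 : ℝ × ℝ) 3) : Continuous fun s : ℝ => u i (x, s) := by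
  rw [continuous_iff_continuousAt]
  intro s
  have h1 : ContinuousAt (u i) (x, s) := (hu.1.1 i).continuousOn.continuousAt
    ((Metric.isOpen_ball.prod isOpen_univ).mem_nhds ⟨hx, mem_univ _⟩)
  exact h1.comp (f := fun s : ℝ => (x, s)) (by fun_prop)

theorem EC7_Mz_D {u : Eps → (ℝ × ℝ) × ℝ → V} (hu : OT A p m u) (hz : Mz u) :
    Mz (fun i => EC7_D (u i)) := by
  intro i x hx
  refine ContinuousLinearMap.ext fun w => ?_
  have h1 : mean (dX w u) i x = 0 := by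
    rw [mean_dX hu w hx]
    have h2 : mean u i =ᶠ[nhds x] fun _ => (0 : V) := by
      filter_upwards [Metric.isOpen_ball.mem_nhds hx] with y hy
      exact hz i y hy
    show fderiv ℝ (mean u i) x w = 0
    rw [h2.fderiv_eq]
    simp
  have hint : IntervalIntegrable (fun θ => EC7_D (u i) (x, θ)) MeasureTheory.volume 0
      (2 * Real.pi) := (EC7_slice (EC7_OT_D hu) i hx).intervalIntegrable _ _
  show (mean (fun i => EC7_D (u i)) i x) w = 0
  rw [← h1]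
  unfold mean
  rw [smul_apply, ContinuousLinearMap.intervalIntegral_apply hint]
  rfl

omit [CompleteSpace V] in
theorem EC7_int_zero {u : Eps → (ℝ × ℝ) × ℝ → V} (hz : Mz u) (i : Eps) {x : ℝ × ℝ}
    (hx : x ∈ Metric.ball (0 : ℝ × ℝ) 3) : ∫ s in (0 : ℝ)..(2 * Real.pi), u i (x, s) = 0 := by
  have h1 := hz i x hx
  unfold mean at h1
  rcases smul_eq_zero.1 h1 with h2 | h2
  · exfalso
    have := Real.pi_pos
    have h3 : (2 * Real.pi)⁻¹ ≠ 0 := by positivity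
    exact h3 h2
  · exact h2

omit [CompleteSpace V] in
theorem EC7_P_periodic {u : Eps → (ℝ × ℝ) × ℝ → V} (hu : OT A p m u) (hz : Mz u) (i : Eps)
    {x : ℝ × ℝ} (hx : x ∈ Metric.ball (0 : ℝ × ℝ) 3) (θ : ℝ) :
    EC7_P (u i) (x, θ + 2 * Real.pi) = EC7_P (u i) (x, θ) := by
  have hc := EC7_slice hu i hx
  show ∫ s in (0 : ℝ)..(θ + 2 * Real.pi), u i (x, s) = ∫ s in (0 : ℝ)..θ, u i (x, s)
  have h1 : Function.Periodic (fun s => u i (x, s)) (2 * Real.pi) := fun s => hu.2 i x hx s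
  rw [← intervalIntegral.integral_add_adjacent_intervals (hc.intervalIntegrable 0 θ)
    (hc.intervalIntegrable θ (θ + 2 * Real.pi)), h1.intervalIntegral_add_eq θ 0, zero_add,
    EC7_int_zero hz i hx, add_zero]

theorem EC7_OT_P {u : Eps → (ℝ × ℝ) × ℝ → V} (hu : OT A p m u) (hz : Mz u) :
    OT A p m (fun i => EC7_P (u i)) := by
  refine ⟨?_, fun i x hx θ => EC7_P_periodic hu hz i hx θ⟩
  refine EC7_bd (X := ℝ × ℝ) (O := Metric.ball 0 3) (I := univ) isOpen_univ ordConnected_univ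
    (mem_univ _) Metric.isOpen_ball ST (fun _ => rfl) (fun _ => rfl) _
    (fun V _ _ _ u => OT A p m u ∧ Mz u) (fun V _ _ _ u h => h.1.1)
    (fun V _ _ _ u h => ⟨EC7_OT_D h.1, EC7_Mz_D h.1 h.2⟩) ?_ ⟨hu, hz⟩
  intro V _ _ _ u h
  obtain ⟨g, hg, hb⟩ := h.1.1.bound
  have hC : (fun _ => 2 * Real.pi : Eps → ℝ) ∈ ST.G.mem :=
    ST.G.const _ (by have := Real.pi_gt_three; linarith)
  refine ⟨_, ST.G.mul _ hg _ hC, fun i q hq => ?_⟩
  have hper : Function.Periodic (fun θ => EC7_P (u i) (q.1, θ)) (2 * Real.pi) :=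
    fun θ => EC7_P_periodic h.1 h.2 i hq.1 θ
  obtain ⟨θ, hθ, he⟩ := hper.exists_mem_Ico₀ Real.two_pi_pos q.2
  have he' : EC7_P (u i) q = EC7_P (u i) (q.1, θ) := he
  rw [he']
  have h2 : ‖EC7_P (u i) (q.1, θ)‖ ≤ g i * A.wt p m i q.1 * |θ - 0| := by
    refine intervalIntegral.norm_integral_le_of_norm_le_const fun s _ => ?_
    exact hb i (q.1, s) ⟨hq.1, mem_univ _⟩
  have h3 : 0 ≤ g i * A.wt p m i q.1 := (norm_nonneg _).trans (hb i q hq)
  refine h2.trans ?_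
  rw [sub_zero, abs_of_nonneg hθ.1]
  calc g i * A.wt p m i q.1 * θ ≤ g i * A.wt p m i q.1 * (2 * Real.pi) :=
        mul_le_mul_of_nonneg_left hθ.2.le h3
    _ = _ := by ring

omit [CompleteSpace V] in
theorem EC7_prim_eq (u : Eps → (ℝ × ℝ) × ℝ → V) (i : Eps) (q : (ℝ × ℝ) × ℝ) :
    prim u i q = EC7_P (u i) q - mean (fun i => EC7_P (u i)) i q.1 := rfl

/-- the primitive in `θ` of a function with mean zero -/
theorem OT.prim {u : Eps → (ℝ × ℝ) × ℝ → V} (hu : OT A p m u) (hz : Mz u) :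
    OT A p m (prim u) := (EC7_OT_P hu hz).sub (EC7_OT_P hu hz).mean.toOT

omit [CompleteSpace V] in
theorem EC7_P_slice {u : Eps → (ℝ × ℝ) × ℝ → V} (hu : OT A p m u) (i : Eps) {x : ℝ × ℝ}
    (hx : x ∈ Metric.ball (0 : ℝ × ℝ) 3) : Continuous fun s : ℝ => EC7_P (u i) (x, s) :=
  intervalIntegral.continuous_primitive
    (fun a b => (EC7_slice hu i hx).intervalIntegrable a b) 0

theorem Mz_prim {u : Eps → (ℝ × ℝ) × ℝ → V} (hu : OT A p m u) : Mz (prim u) := by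
  intro i x hx
  have hpi := Real.pi_pos
  have h1 : mean (P205F.EE.prim u) i x = (2 * Real.pi)⁻¹ •
      ∫ θ in (0 : ℝ)..(2 * Real.pi), (EC7_P (u i) (x, θ) - mean (fun i => EC7_P (u i)) i x) := rfl
  rw [h1, intervalIntegral.integral_sub ((EC7_P_slice hu i hx).intervalIntegrable _ _)
    intervalIntegrable_const, intervalIntegral.integral_const, smul_sub, smul_smul, sub_zero,
    inv_mul_cancel₀ (by positivity), one_smul]
  exact sub_self _

theorem dT_prim {u : Eps → (ℝ × ℝ) × ℝ → V} (hu : OT A p m u) {i : Eps} {q : (ℝ × ℝ) × ℝ}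
    (hq : q ∈ ST.U i) : dT (prim u) i q = u i q := by
  have hsm : ContDiffOn ℝ ∞ (u i) (Metric.ball (0 : ℝ × ℝ) 3 ×ˢ (univ : Set ℝ)) := hu.1.1 i
  have hop : IsOpen (Metric.ball (0 : ℝ × ℝ) 3 ×ˢ (univ : Set ℝ)) :=
    Metric.isOpen_ball.prod isOpen_univ
  have h1 := EC7_deriv isOpen_univ ordConnected_univ (mem_univ _) Metric.isOpen_ball hsm hq
  have h2 := EC7_smooth isOpen_univ ordConnected_univ (mem_univ _) Metric.isOpen_ball hsm
  have h3 := EC7_deriv isOpen_univ ordConnected_univ (mem_univ _) Metric.isOpen_ball h2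
    (q := (q.1, 2 * Real.pi)) ⟨hq.1, mem_univ _⟩
  have h4 : HasFDerivAt (fun q' : (ℝ × ℝ) × ℝ => (q'.1, 2 * Real.pi))
      ((ContinuousLinearMap.inl ℝ (ℝ × ℝ) ℝ).comp (ContinuousLinearMap.fst ℝ (ℝ × ℝ) ℝ)) q := by
    have h5 := (hasFDerivAt_fst (𝕜 := ℝ) (E := ℝ × ℝ) (F := ℝ) (p := q)).prodMk
      (hasFDerivAt_const (𝕜 := ℝ) (2 * Real.pi) q)
    refine h5.congr_fderiv ?_
    ext <;> simp
  have h6 := h3.comp q h4
  have h7 := h1.sub (h6.const_smul (2 * Real.pi)⁻¹)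
  have h8 : HasFDerivAt (P205F.EE.prim u i) _ q := h7
  show fderiv ℝ (P205F.EE.prim u i) q (0, 1) = u i q
  rw [h8.fderiv]
  simp

theorem EC7_P_innerX (c : F4) {f : (ℝ × ℝ) × ℝ → F4} {x : ℝ × ℝ}
    (hf : Continuous fun s : ℝ => f (x, s)) (θ : ℝ) :
    inner ℝ c (EC7_P f (x, θ)) = ∫ s in (0 : ℝ)..θ, inner ℝ c (f (x, s)) :=
  ((innerSL ℝ c).intervalIntegral_comp_comm (hf.intervalIntegrable _ _)).symm

theorem prim_innerX (c : Eps → ℝ × ℝ → F4) {u : Eps → (ℝ × ℝ) × ℝ → F4} (hu : OT A p m u)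
    {i : Eps} {q : (ℝ × ℝ) × ℝ} (hq : q ∈ ST.U i) :
    inner ℝ (c i q.1) (prim u i q) = prim (fun i q => inner ℝ (c i q.1) (u i q)) i q := by
  have hc := EC7_slice hu i hq.1
  rw [EC7_prim_eq, inner_sub_right]
  have h1 := EC7_P_innerX (c i q.1) hc q.2
  have h2 : inner ℝ (c i q.1) (mean (fun i => EC7_P (u i)) i q.1) =
      (2 * Real.pi)⁻¹ • ∫ t in (0 : ℝ)..(2 * Real.pi), ∫ s in (0 : ℝ)..t,
        inner ℝ (c i q.1) (u i (q.1, s)) := by
    unfold mean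
    rw [real_inner_smul_right, smul_eq_mul]
    congr 1
    have h3 := (innerSL ℝ (c i q.1)).intervalIntegral_comp_comm
      ((EC7_P_slice hu i hq.1).intervalIntegrable (μ := MeasureTheory.volume) 0 (2 * Real.pi))
    refine (h3.symm.trans ?_)
    refine intervalIntegral.integral_congr fun t _ => ?_
    exact EC7_P_innerX (c i q.1) hc t
  rw [h2]
  have h4 : inner ℝ (c i q.1) (EC7_P (u i) q) = _ := h1
  rw [h4]
  rfl

/-- the primitive of an even function with mean zero is odd -/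
theorem prim_odd {u : Eps → (ℝ × ℝ) × ℝ → V} (hu : OT A p m u) (hz : Mz u)
    (h : ∀ i, ∀ x ∈ Metric.ball (0 : ℝ × ℝ) 3, ∀ θ : ℝ, u i (x, -θ) = u i (x, θ)) {i : Eps}
    {x : ℝ × ℝ} (hx : x ∈ Metric.ball (0 : ℝ × ℝ) 3) (θ : ℝ) :
    prim u i (x, -θ) = -prim u i (x, θ) := by
  have h1 : ∀ i, ∀ x ∈ Metric.ball (0 : ℝ × ℝ) 3, ∀ θ : ℝ,
      EC7_P (u i) (x, -θ) = -EC7_P (u i) (x, θ) := by
    intro i x hx θ
    show ∫ s in (0 : ℝ)..(-θ), u i (x, s) = -∫ s in (0 : ℝ)..θ, u i (x, s)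
    have h2 := intervalIntegral.integral_comp_neg (a := 0) (b := θ) fun s => u i (x, s)
    have h3 : ∫ s in (0 : ℝ)..θ, u i (x, -s) = ∫ s in (0 : ℝ)..θ, u i (x, s) :=
      intervalIntegral.integral_congr fun s _ => h i x hx s
    rw [← h3, h2, neg_zero, ← intervalIntegral.integral_symm]
  have h2 : Mz (fun i => EC7_P (u i)) := Mz_of_odd (EC7_OT_P hu hz) h1
  rw [EC7_prim_eq, EC7_prim_eq, h2 i x hx, sub_zero, sub_zero]
  exact h1 i x hx θ

/-- primitive in `x₂` -/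
noncomputable def xprim (u : Eps → ℝ × ℝ → ℝ) (i : Eps) (x : ℝ × ℝ) : ℝ :=
  ∫ t in (0 : ℝ)..x.2, u i (x.1, t)

theorem EC7_SX (i : Eps) : SX.U i = Metric.ball (0 : ℝ) 3 ×ˢ Metric.ball (0 : ℝ) 3 := by
  show Metric.ball (0 : ℝ × ℝ) 3 = _
  rw [ball_prod_same]
  rfl

theorem EC7_ord : (Metric.ball (0 : ℝ) 3).OrdConnected := by
  rw [Real.ball_eq_Ioo]
  exact ordConnected_Ioo

omit [CompleteSpace V] in
theorem EC7_OX_D {u : Eps → ℝ × ℝ → V} (hu : OX A p m u) : OX A p m (fun i => EC7_D (u i)) := by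
  have h1 := hu.fderiv
  have h2 : Bd SX (A.wt p m) (fun i x => fderiv ℝ (u i) x) := by
    have h3 : (fun (i : Eps) (q : ℝ × ℝ) => A.wt p m i q * (SX.s i)⁻¹) = A.wt p m := by
      funext i q
      show A.wt p m i q * (1 : ℝ)⁻¹ = _
      rw [inv_one, mul_one]
    rwa [h3] at h1
  exact h2.clm ((ContinuousLinearMap.compL ℝ ℝ (ℝ × ℝ) V).flip
    (ContinuousLinearMap.inl ℝ ℝ ℝ))

theorem OX.xprim {u : Eps → ℝ × ℝ → ℝ} (hu : OX A 0 m u) : OX A 0 m (xprim u) := by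
  refine EC7_bd (X := ℝ) (O := Metric.ball 0 3) (I := Metric.ball 0 3) Metric.isOpen_ball EC7_ord
    (Metric.mem_ball_self (by norm_num)) Metric.isOpen_ball SX EC7_SX (fun _ => rfl) (A.wt 0 m)
    (fun V _ _ _ u => OX A 0 m u) (fun V _ _ _ u h => h) (fun V _ _ _ u h => EC7_OX_D h) ?_ hu
  intro V _ _ _ u h
  obtain ⟨g, hg, hb⟩ := Bd.bound h
  have hC : (fun _ => 3 : Eps → ℝ) ∈ SX.G.mem := SX.G.const _ (by norm_num)
  refine ⟨_, SX.G.mul _ hg _ hC, fun i q hq => ?_⟩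
  have hq' : q ∈ Metric.ball (0 : ℝ) 3 ×ˢ Metric.ball (0 : ℝ) 3 := by rw [← EC7_SX i]; exact hq
  have hw : ∀ y z : ℝ × ℝ, A.wt 0 m i y = A.wt 0 m i z := by
    intro y z
    unfold Amp.wt
    rw [zpow_zero, zpow_zero]
  have h2 : ‖EC7_P (u i) q‖ ≤ g i * A.wt 0 m i q * |q.2 - 0| := by
    refine intervalIntegral.norm_integral_le_of_norm_le_const fun s hs => ?_
    have h3 : (q.1, s) ∈ SX.U i := by
      rw [EC7_SX i]
      exact ⟨hq'.1, EC7_ord.uIcc_subset (Metric.mem_ball_self (by norm_num)) hq'.2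
        (uIoc_subset_uIcc hs)⟩
    rw [hw q (q.1, s)]
    exact hb i (q.1, s) h3
  have h3 : 0 ≤ g i * A.wt 0 m i q := (norm_nonneg _).trans (hb i q hq)
  have h4 : |q.2 - 0| ≤ 3 := by
    have h5 := hq'.2
    rw [Metric.mem_ball, Real.dist_eq] at h5
    exact h5.le
  refine h2.trans ?_
  calc g i * A.wt 0 m i q * |q.2 - 0| ≤ g i * A.wt 0 m i q * 3 :=
        mul_le_mul_of_nonneg_left h4 h3
    _ = _ := by ring

theorem pd_xprim {u : Eps → ℝ × ℝ → ℝ} (hu : OX A p m u) {i : Eps} {x : ℝ × ℝ}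
    (hx : x ∈ Metric.ball (0 : ℝ × ℝ) 3) : pd e2 (P205F.EE.xprim u i) x = u i x := by
  have hsm : ContDiffOn ℝ ∞ (u i) (Metric.ball (0 : ℝ) 3 ×ˢ Metric.ball (0 : ℝ) 3) := by
    rw [← EC7_SX i]
    exact hu.1 i
  have hx' : x ∈ Metric.ball (0 : ℝ) 3 ×ˢ Metric.ball (0 : ℝ) 3 := by rw [← EC7_SX i]; exact hx
  have h1 := EC7_deriv Metric.isOpen_ball EC7_ord (Metric.mem_ball_self (by norm_num))
    Metric.isOpen_ball hsm hx'
  have h2 : HasFDerivAt (P205F.EE.xprim u i) _ x := h1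
  show fderiv ℝ (P205F.EE.xprim u i) x (0, 1) = u i x
  rw [h2.fderiv]
  simp

end P205F.EE
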