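import Mathlib
import Vale.Agent.Lib.P205E.EC3
import Vale.Agent.Lib.P205E.EC4
import Vale.Agent.Lib.P205E.EC6

/-! # P205E module EC8: the class `OP` (size `abar ε^m`, mean of size `abar² ε^m`) -/

open scoped ContDiff
open Set

namespace P205F.EE

variable {V : Type} [NormedAddCommGroup V] [NormedSpace ℝ V] [CompleteSpace V] {A : Amp}
  {p m p' m' : ℤ}

omit [CompleteSpace V] in
private theorem EC8_mean_congr {u v : Eps → (ℝ × ℝ) × ℝ → V}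
    (h : ∀ i, ∀ q ∈ ST.U i, v i q = u i q) (i : Eps) {x : ℝ × ℝ}
    (hx : x ∈ Metric.ball (0 : ℝ × ℝ) 3) : mean v i x = mean u i x := by
  unfold mean
  congr 1
  refine intervalIntegral.integral_congr fun θ _ => ?_
  exact h i (x, θ) ⟨hx, mem_univ _⟩

omit [CompleteSpace V] in
private theorem EC8_mean_neg (u : Eps → (ℝ × ℝ) × ℝ → V) (i : Eps) (x : ℝ × ℝ) :
    mean (fun i q => -u i q) i x = -mean u i x := by
  unfold mean
  rw [intervalIntegral.integral_neg, smul_neg]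

theorem OP.congr {u v : Eps → (ℝ × ℝ) × ℝ → V} (hu : OP A m u)
    (h : ∀ i, ∀ q ∈ ST.U i, v i q = u i q) : OP A m v :=
  ⟨hu.1.congr h, hu.2.congr fun i _ hx => EC8_mean_congr h i hx⟩

theorem OP.mono {u : Eps → (ℝ × ℝ) × ℝ → V} (hu : OP A m u) (hm : m' ≤ m) : OP A m' u :=
  ⟨hu.1.mono le_rfl hm, hu.2.mono le_rfl hm⟩

theorem OP.ofMz {u : Eps → (ℝ × ℝ) × ℝ → V} (hu : OT A 1 m u) (hz : Mz u) : OP A m u :=
  ⟨hu, OX.zero.congr fun i x hx => hz i x hx⟩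

theorem OP.zero : OP A m (fun _ _ => (0 : V)) :=
  OP.ofMz OT.zero fun i x _ => by simp [mean]

theorem OP.add {u v : Eps → (ℝ × ℝ) × ℝ → V} (hu : OP A m u) (hv : OP A m v) :
    OP A m (fun i q => u i q + v i q) :=
  ⟨hu.1.add hv.1, (hu.2.add hv.2).congr fun _ _ hx => mean_add hu.1 hv.1 hx⟩

theorem OP.neg {u : Eps → (ℝ × ℝ) × ℝ → V} (hu : OP A m u) : OP A m (fun i q => -u i q) :=
  ⟨hu.1.neg, hu.2.neg.congr fun i x _ => EC8_mean_neg u i x⟩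

theorem OP.sub {u v : Eps → (ℝ × ℝ) × ℝ → V} (hu : OP A m u) (hv : OP A m v) :
    OP A m (fun i q => u i q - v i q) :=
  ⟨hu.1.sub hv.1, (hu.2.sub hv.2).congr fun _ _ hx => mean_sub hu.1 hv.1 hx⟩

theorem OP.of2 {u : Eps → (ℝ × ℝ) × ℝ → V} (hu : OT A 2 m u) : OP A m u :=
  ⟨hu.mono (by norm_num) le_rfl, hu.mean⟩

theorem OP.ofX2 {u : Eps → ℝ × ℝ → V} (hu : OX A 2 m u) : OP A m (fun i q => u i q.1) :=
  OP.of2 hu.toOT

theorem OP.smulX {c : Eps → ℝ × ℝ → ℝ} {u : Eps → (ℝ × ℝ) × ℝ → V} (hc : OX A 0 m' c)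
    (hu : OP A m u) : OP A (m' + m) (fun i q => c i q.1 • u i q) := by
  refine ⟨?_, ?_⟩
  · have h1 := hc.toOT.smul hu.1
    rwa [zero_add] at h1
  · have h1 := hc.smul hu.2
    rw [zero_add] at h1
    exact h1.congr fun i x _ => mean_smulX c u i x

theorem OP.mulX {c : Eps → ℝ × ℝ → ℝ} {u : Eps → (ℝ × ℝ) × ℝ → ℝ} (hc : OX A 0 m' c)
    (hu : OP A m u) : OP A (m' + m) (fun i q => c i q.1 * u i q) :=
  OP.smulX hc hu

theorem OP.innerX {c : Eps → ℝ × ℝ → F4} {u : Eps → (ℝ × ℝ) × ℝ → F4} (hc : OX A 0 m' c)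
    (hu : OP A m u) : OP A (m' + m) (fun i q => inner ℝ (c i q.1) (u i q)) := by
  refine ⟨?_, ?_⟩
  · have h1 := hc.toOT.inner hu.1
    rwa [zero_add] at h1
  · have h1 := hc.inner hu.2
    rw [zero_add] at h1
    exact h1.congr fun i x hx => mean_innerX c hu.1 hx

theorem OP.dX {u : Eps → (ℝ × ℝ) × ℝ → V} (w : ℝ × ℝ) (hu : OP A m u) : OP A m (dX w u) :=
  ⟨hu.1.dX w, (hu.2.pd w).congr fun _ _ hx => mean_dX hu.1 w hx⟩

theorem OP.dT {u : Eps → (ℝ × ℝ) × ℝ → V} (hu : OP A m u) : OP A m (dT u) :=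
  OP.ofMz hu.1.dT (mean_dT hu.1)

theorem OP.eps {u : Eps → (ℝ × ℝ) × ℝ → V} (n : ℤ) (hu : OP A m u) :
    OP A (m + n) (fun i q => (i : ℝ) ^ n • u i q) :=
  ⟨hu.1.eps n, (hu.2.eps n).congr fun i x _ => mean_smulX (fun i _ => (i : ℝ) ^ n) u i x⟩

/-- `D_2` and `D_1` on the class `OP` -/
theorem OP.DD2 {ψ : Eps → ℝ × ℝ → ℝ} (hψ : OX A 0 2 ψ) {u : Eps → (ℝ × ℝ) × ℝ → V}
    (hu : OP A m u) : OP A m (DD e2 ψ u) := by
  have h1 : OX A 0 (2 + -1) (fun (i : Eps) x => (i : ℝ) ^ (-1 : ℤ) • P205F.EE.pd e2 (ψ i) x) :=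
    (hψ.pd e2).eps (-1)
  have h2 : OP A (2 + -1 + m) (fun i q => ((i : ℝ) ^ (-1 : ℤ) • P205F.EE.pd e2 (ψ i) q.1) •
      P205F.EE.dT u i q) := OP.smulX h1 hu.dT
  have h3 := (hu.dX e2).add (h2.mono (by omega : m ≤ 2 + -1 + m))
  refine h3.congr fun i q _ => ?_
  simp only [P205F.EE.DD, e2, zero_add, zpow_neg_one, smul_eq_mul]

theorem OP.DD1 {ψ : Eps → ℝ × ℝ → ℝ} (hψ : OX A 0 2 ψ) {u : Eps → (ℝ × ℝ) × ℝ → V}
    (hu : OP A m u) : OP A (m - 1) (DD e1 ψ u) := by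
  have h0 : OX A 0 0 (fun (_ : Eps) (_ : ℝ × ℝ) => (1 : ℝ)) :=
    OX.fixed isOpen_univ (subset_univ _) contDiffOn_const
  have h1 : OX A 0 (0 + -1) (fun (i : Eps) x =>
      (i : ℝ) ^ (-1 : ℤ) • (1 + P205F.EE.pd e1 (ψ i) x)) :=
    (h0.add ((hψ.pd e1).mono le_rfl (by norm_num))).eps (-1)
  have h2 : OP A (0 + -1 + m) (fun i q => ((i : ℝ) ^ (-1 : ℤ) • (1 + P205F.EE.pd e1 (ψ i) q.1)) •
      P205F.EE.dT u i q) := OP.smulX h1 hu.dT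
  have h3 := ((hu.dX e1).mono (by omega : m - 1 ≤ m)).add
    (h2.mono (by omega : m - 1 ≤ 0 + -1 + m))
  refine h3.congr fun i q _ => ?_
  simp only [P205F.EE.DD, e1, zpow_neg_one, smul_eq_mul]

end P205F.EE
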