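import Mathlib
import Vale.Agent.Lib.P205E.EC2
import Vale.Agent.Lib.P205E.EC3
import Vale.Agent.Lib.P205E.EC4

/-! # P205E module EL1: size of the loop objects -/

open scoped ContDiff
open Set

namespace P205F.EE

private theorem EL1_pd {V : Type} [NormedAddCommGroup V] [NormedSpace ℝ V] {g : ℝ × ℝ → V}
    {O : Set (ℝ × ℝ)} (hO : IsOpen O) (hg : ContDiffOn ℝ ∞ g O) (v : ℝ × ℝ) :
    ContDiffOn ℝ ∞ (pd v g) O := by
  have h1 : ContDiffOn ℝ ∞ (fderiv ℝ g) O :=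
    hg.fderiv_of_isOpen hO (by exact_mod_cast le_top)
  exact h1.clm_apply contDiffOn_const

namespace ED

variable (d : ED)

private theorem EL1_mem {x : ℝ × ℝ} (hx : x ∈ Metric.ball (0 : ℝ × ℝ) 3) : x ∈ d.Fr.O :=
  d.Fr.O_sup (Metric.ball_subset_closedBall hx)

/-- the vectors and functions of the frame are of size one -/
theorem OX_frame : OX d.A 0 0 (fun _ => d.Fr.T2) ∧ OX d.A 0 0 (fun _ => d.Fr.n1) ∧
    OX d.A 0 0 (fun _ => d.Fr.nh) ∧ OX d.A 0 0 (fun _ => d.Fr.zh) ∧ OX d.A 0 0 (fun _ => d.Fr.yh) ∧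
    OX d.A 0 0 (fun _ => d.Fr.k1) ∧ OX d.A 0 0 (fun _ => d.Fr.k2) ∧ OX d.A 0 0 (fun _ => d.Fr.ze) :=
  ⟨OX.fixed d.Fr.O_open d.Fr.O_sup d.Fr.T2_sm, OX.fixed d.Fr.O_open d.Fr.O_sup d.Fr.n1_sm,
    OX.fixed d.Fr.O_open d.Fr.O_sup d.Fr.nh_sm, OX.fixed d.Fr.O_open d.Fr.O_sup d.Fr.zh_sm,
    OX.fixed d.Fr.O_open d.Fr.O_sup d.Fr.yh_sm, OX.fixed d.Fr.O_open d.Fr.O_sup d.Fr.k1_sm,
    OX.fixed d.Fr.O_open d.Fr.O_sup d.Fr.k2_sm, OX.fixed d.Fr.O_open d.Fr.O_sup d.Fr.ze_sm⟩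

theorem OX_f : OX d.A 0 0 (fun _ => d.Fr.f) := OX.fixed d.Fr.O_open d.Fr.O_sup d.Fr.f_sm

theorem OX_f1 : OX d.A 0 0 (fun _ => pd e1 d.Fr.f) :=
  OX.fixed d.Fr.O_open d.Fr.O_sup (EL1_pd d.Fr.O_open d.Fr.f_sm e1)

theorem OX_f2 : OX d.A 0 0 (fun _ => pd e2 d.Fr.f) :=
  OX.fixed d.Fr.O_open d.Fr.O_sup (EL1_pd d.Fr.O_open d.Fr.f_sm e2)

theorem OX_f22 : OX d.A 0 0 (fun _ => pd e2 (pd e2 d.Fr.f)) :=
  OX.fixed d.Fr.O_open d.Fr.O_sup (EL1_pd d.Fr.O_open (EL1_pd d.Fr.O_open d.Fr.f_sm e2) e2)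

/-- `ζ` is bounded below -/
theorem ze_lower : ∃ C : ℝ, 1 ≤ C ∧ ∀ x ∈ Metric.ball (0 : ℝ × ℝ) 3, 1 ≤ C * d.Fr.ze x := by
  have hc : ContinuousOn d.Fr.ze (Metric.closedBall 0 3) :=
    d.Fr.ze_sm.continuousOn.mono d.Fr.O_sup
  obtain ⟨y, hy, hmin⟩ := (isCompact_closedBall (0 : ℝ × ℝ) 3).exists_isMinOn
    ⟨0, Metric.mem_closedBall_self (by norm_num)⟩ hc
  have hy0 : 0 < d.Fr.ze y := d.Fr.ze_pos y (d.Fr.O_sup hy)
  refine ⟨max 1 (d.Fr.ze y)⁻¹, le_max_left _ _, fun x hx => ?_⟩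
  have h1 : d.Fr.ze y ≤ d.Fr.ze x := hmin (Metric.ball_subset_closedBall hx)
  calc (1 : ℝ) = (d.Fr.ze y)⁻¹ * d.Fr.ze y := (inv_mul_cancel₀ hy0.ne').symm
    _ ≤ max 1 (d.Fr.ze y)⁻¹ * d.Fr.ze x :=
      mul_le_mul (le_max_right _ _) h1 hy0.le (zero_le_one.trans (le_max_left _ _))

theorem OX_ze_inv : OX d.A 0 0 (fun _ x => (d.Fr.ze x)⁻¹) := by
  obtain ⟨C, hC, h⟩ := d.ze_lower
  have h1 := OX.inv (A := d.A) (p := 0) (m := 0) (u := fun _ => d.Fr.ze) hC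
    d.OX_frame.2.2.2.2.2.2.2 (fun i x hx => by
      rw [d.A.wt_zero, abs_of_pos (d.Fr.ze_pos x (d.EL1_mem hx))]
      exact h x hx)
  exact h1.mono (by norm_num) (by norm_num)

/-- a function smooth on `{ζ > 0}` evaluated at `(abar, ζ, cos θ)` -/
theorem OT_arg {φ : ℝ × ℝ × ℝ → ℝ} (hφ : ContDiffOn ℝ ∞ φ {p | 0 < p.2.1}) :
    OT d.A 0 0 (fun i q => φ (d.arg i q)) := by
  obtain ⟨C, hC, h⟩ := d.ze_lower
  obtain ⟨B, hB1, hB⟩ := d.A.ab_le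
  have hc : ContinuousOn d.Fr.ze (Metric.closedBall 0 3) :=
    d.Fr.ze_sm.continuousOn.mono d.Fr.O_sup
  obtain ⟨D, hD⟩ := (isCompact_closedBall (0 : ℝ × ℝ) 3).exists_bound_of_continuousOn hc
  have hO : IsOpen {p : ℝ × ℝ × ℝ | 0 < p.2.1} :=
    isOpen_lt continuous_const (continuous_fst.comp continuous_snd)
  have hK : IsCompact (Icc (0 : ℝ) B ×ˢ (Icc C⁻¹ D ×ˢ Icc (-1 : ℝ) 1)) :=
    isCompact_Icc.prod (isCompact_Icc.prod isCompact_Icc)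
  have hC0 : 0 < C⁻¹ := inv_pos.2 (by linarith)
  have hab : OT d.A 0 0 (fun i q => d.A.ab i q.1) :=
    ((OX_ab d.A).mono (by norm_num : (0 : ℤ) ≤ 1) le_rfl).toOT
  have hze : OT d.A 0 0 (fun (_ : Eps) (q : (ℝ × ℝ) × ℝ) => d.Fr.ze q.1) :=
    d.OX_frame.2.2.2.2.2.2.2.toOT
  refine OT.comp hO hφ hK ?_ (hab.prodMk (hze.prodMk OT.cos)) ?_
  · rintro p ⟨_, hp, _⟩
    exact hC0.trans_le hp.1
  · intro i q hq
    have hq1 : q.1 ∈ Metric.ball (0 : ℝ × ℝ) 3 := hq.1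
    have h1 := h q.1 hq1
    have h2 := hD q.1 (Metric.ball_subset_closedBall hq1)
    refine ⟨⟨(d.A.ab_pos i q.1).le, hB i q.1⟩, ⟨?_, ?_⟩, Real.neg_one_le_cos _,
      Real.cos_le_one _⟩
    · exact (inv_le_iff_one_le_mul₀' (by linarith)).2 h1
    · exact (le_abs_self _).trans h2

theorem RR_sq {i : Eps} {x : ℝ × ℝ} : d.RR i x ^ 2 = d.Fr.ze x ^ 2 + d.A.ab i x ^ 2 := by
  unfold RR
  exact Real.sq_sqrt (by positivity)

theorem RR_pos (i : Eps) (x : ℝ × ℝ) : 0 < d.RR i x := by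
  unfold RR
  have h1 := d.A.ab_pos i x
  exact Real.sqrt_pos.2 (by positivity)

private theorem EL1_ze_le (i : Eps) (x : ℝ × ℝ) : d.Fr.ze x ≤ d.RR i x := by
  unfold RR
  refine Real.le_sqrt_of_sq_le ?_
  have := sq_nonneg (d.A.ab i x)
  linarith

theorem OX_RR : OX d.A 0 0 d.RR := by
  obtain ⟨C, hC, h⟩ := d.ze_lower
  have hze := d.OX_frame.2.2.2.2.2.2.2
  have h1 : OX d.A 0 0 (fun (_ : Eps) x => d.Fr.ze x * d.Fr.ze x) :=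
    (OX.mul hze hze).mono (by norm_num) (by norm_num)
  have h2 : OX d.A 0 0 (fun i x => d.A.ab i x * d.A.ab i x) :=
    (OX.mul (OX_ab d.A) (OX_ab d.A)).mono (by norm_num) (by norm_num)
  have h3 := OX.sqrt0 (C := C ^ 2) (one_le_pow₀ hC) (h1.add h2) (fun i x hx => by
    have h4 := h x hx
    have h5 : 1 ≤ (C * d.Fr.ze x) ^ 2 := one_le_pow₀ h4
    have h6 : 0 ≤ C ^ 2 * (d.A.ab i x * d.A.ab i x) := by
      have := mul_self_nonneg (d.A.ab i x)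
      positivity
    calc (1 : ℝ) ≤ (C * d.Fr.ze x) ^ 2 := h5
      _ = C ^ 2 * (d.Fr.ze x * d.Fr.ze x) := by ring
      _ ≤ C ^ 2 * (d.Fr.ze x * d.Fr.ze x + d.A.ab i x * d.A.ab i x) := by linarith)
  refine h3.congr fun i x _ => ?_
  unfold RR
  rw [sq, sq]

theorem OX_RR_inv : OX d.A 0 0 (fun i x => (d.RR i x)⁻¹) := by
  obtain ⟨C, hC, h⟩ := d.ze_lower
  have h1 := OX.inv (A := d.A) (p := 0) (m := 0) hC d.OX_RR (fun i x hx => by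
      rw [d.A.wt_zero, abs_of_pos (d.RR_pos i x)]
      exact (h x hx).trans (mul_le_mul_of_nonneg_left (d.EL1_ze_le i x) (by linarith)))
  exact h1.mono (by norm_num) (by norm_num)

/-- `R - ζ = abar² / (R + ζ)` -/
theorem OX_RR_sub : OX d.A 2 0 (fun i x => d.RR i x - d.Fr.ze x) := by
  obtain ⟨C, hC, h⟩ := d.ze_lower
  have hze := d.OX_frame.2.2.2.2.2.2.2
  have h1 : OX d.A 2 0 (fun i x => d.A.ab i x * d.A.ab i x) :=
    (OX.mul (OX_ab d.A) (OX_ab d.A)).mono (by norm_num) (by norm_num)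
  have h2 : OX d.A 0 0 (fun i x => d.RR i x + d.Fr.ze x) := d.OX_RR.add hze
  have h3 := OX.inv (A := d.A) (p := 0) (m := 0) hC h2 (fun i x hx => by
      have h5 := d.Fr.ze_pos x (d.EL1_mem hx)
      have h6 := d.RR_pos i x
      rw [d.A.wt_zero, abs_of_pos (by linarith)]
      exact (h x hx).trans (mul_le_mul_of_nonneg_left (by linarith) (by linarith)))
  have h4 : OX d.A 2 0 (fun i x => d.A.ab i x * d.A.ab i x * (d.RR i x + d.Fr.ze x)⁻¹) :=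
    (OX.mul h1 h3).mono (by norm_num) (by norm_num)
  refine h4.congr fun i x hx => ?_
  have h5 := d.Fr.ze_pos x (d.EL1_mem hx)
  have h6 := d.RR_pos i x
  have h7 : d.RR i x + d.Fr.ze x ≠ 0 := by positivity
  have h8 := d.RR_sq (i := i) (x := x)
  rw [eq_mul_inv_iff_mul_eq₀ h7]
  linear_combination h8

end ED

end P205F.EE
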