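import Mathlib
import Vale.Agent.Lib.P205E.EC7
import Vale.Agent.Lib.P205E.EL1

/-! # P205E module EL1b: size of the loop objects, second part -/

open scoped ContDiff
open Set

namespace P205F.EE

private theorem EL1b_mean_zero {f : Eps → (ℝ × ℝ) × ℝ → ℝ} {i : Eps} {x : ℝ × ℝ}
    (h : ∫ θ in (0 : ℝ)..(2 * Real.pi), f i (x, θ) = 0) : mean f i x = 0 := by
  unfold mean
  rw [h, smul_zero]

namespace ED

variable (d : ED)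

private theorem EL1b_ze_pos {x : ℝ × ℝ} (hx : x ∈ Metric.ball (0 : ℝ × ℝ) 3) : 0 < d.Fr.ze x :=
  d.Fr.ze_pos x (d.Fr.O_sup (Metric.ball_subset_closedBall hx))

private theorem EL1b_mXt {i : Eps} {x : ℝ × ℝ} (hx : x ∈ Metric.ball (0 : ℝ × ℝ) 3) :
    mean (fun i q => d.Lp.Xt (d.arg i q)) i x = 0 :=
  EL1b_mean_zero (d.Lp.mXt (d.A.ab i x) (d.Fr.ze x) (d.EL1b_ze_pos hx))

private theorem EL1b_mYt {i : Eps} {x : ℝ × ℝ} (hx : x ∈ Metric.ball (0 : ℝ × ℝ) 3) :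
    mean (fun i q => d.Lp.Yt (d.arg i q)) i x = 0 :=
  EL1b_mean_zero (d.Lp.mYt (d.A.ab i x) (d.Fr.ze x) (d.EL1b_ze_pos hx))

private theorem EL1b_mXA {i : Eps} {x : ℝ × ℝ} (hx : x ∈ Metric.ball (0 : ℝ × ℝ) 3) :
    mean (fun i q => d.Lp.XA (d.arg i q)) i x = 0 :=
  EL1b_mean_zero (d.Lp.mXA (d.A.ab i x) (d.Fr.ze x) (d.EL1b_ze_pos hx))

private theorem EL1b_mYA {i : Eps} {x : ℝ × ℝ} (hx : x ∈ Metric.ball (0 : ℝ × ℝ) 3) :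
    mean (fun i q => d.Lp.YA (d.arg i q)) i x = 0 :=
  EL1b_mean_zero (d.Lp.mYA (d.A.ab i x) (d.Fr.ze x) (d.EL1b_ze_pos hx))

private theorem EL1b_ab : OT d.A 1 0 (fun i q => d.A.ab i q.1) := (OX_ab d.A).toOT

private theorem EL1b_ab2 : OX d.A 2 0 (fun i x => d.A.ab i x ^ 2) := by
  have h := OX.mul (OX_ab d.A) (OX_ab d.A)
  exact (h.mono (by norm_num : (2 : ℤ) ≤ 1 + 1) (by norm_num : (0 : ℤ) ≤ 0 + 0)).congr
    fun i x _ => sq _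

private theorem EL1b_zh : OT d.A 0 0 (fun (_ : Eps) (q : (ℝ × ℝ) × ℝ) => d.Fr.zh q.1) :=
  (d.OX_frame.2.2.2.1).toOT

private theorem EL1b_yh : OT d.A 0 0 (fun (_ : Eps) (q : (ℝ × ℝ) × ℝ) => d.Fr.yh q.1) :=
  (d.OX_frame.2.2.2.2.1).toOT

private theorem EL1b_ze : OX d.A 0 0 (fun (_ : Eps) => d.Fr.ze) := d.OX_frame.2.2.2.2.2.2.2

private theorem EL1b_X : OT d.A 2 0 (fun i q => d.A.ab i q.1 ^ 2 * d.Lp.Xt (d.arg i q)) := by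
  have h := OT.mul (d.EL1b_ab2.toOT) (d.OT_arg d.Lp.Xt_sm)
  exact h.mono (by norm_num : (2 : ℤ) ≤ 2 + 0) (by norm_num : (0 : ℤ) ≤ 0 + 0)

private theorem EL1b_Y : OT d.A 1 0 (fun i q => d.A.ab i q.1 * d.Lp.Yt (d.arg i q)) := by
  have h := OT.mul d.EL1b_ab (d.OT_arg d.Lp.Yt_sm)
  exact h.mono (by norm_num : (1 : ℤ) ≤ 1 + 0) (by norm_num : (0 : ℤ) ≤ 0 + 0)

theorem OT_XX : OT d.A 0 0 d.XX :=
  d.EL1b_ze.toOT.add (d.EL1b_X.mono (by norm_num) le_rfl)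

theorem OT_YY : OT d.A 1 0 d.YY := d.EL1b_Y

theorem OT_XX_sub : OT d.A 2 0 (fun i q => d.XX i q - d.Fr.ze q.1) :=
  d.EL1b_X.congr fun i q _ => by
    unfold XX
    ring

/-- `cos φ - 1 = XX / R - 1` -/
theorem OT_cc_sub : OT d.A 2 0 (fun i q => (d.RR i q.1)⁻¹ * d.XX i q - 1) := by
  have h1 := OT.mul d.OX_RR_inv.toOT d.OT_XX_sub
  have h2 := OT.mul d.OX_RR_inv.toOT d.OX_RR_sub.toOT
  have h3 := (h1.sub h2).mono (by norm_num : (2 : ℤ) ≤ 0 + 2) (by norm_num : (0 : ℤ) ≤ 0 + 0)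
  refine h3.congr fun i q _ => ?_
  have h4 := (d.RR_pos i q.1).ne'
  field_simp
  ring

theorem OT_Lz : OT d.A 1 0 d.Lz := by
  have h1 := (OT.smul d.EL1b_X d.EL1b_zh).mono (by norm_num : (1 : ℤ) ≤ 2 + 0)
    (by norm_num : (0 : ℤ) ≤ 0 + 0)
  have h2 := (OT.smul d.EL1b_Y d.EL1b_yh).mono (by norm_num : (1 : ℤ) ≤ 1 + 0)
    (by norm_num : (0 : ℤ) ≤ 0 + 0)
  exact h1.add h2

theorem Mz_Lz : Mz d.Lz := by
  intro i x hx
  have e1 := mean_add (OT.smul d.EL1b_X d.EL1b_zh) (OT.smul d.EL1b_Y d.EL1b_yh) (i := i) hx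
  have e2 := mean_smulV d.EL1b_X (fun _ => d.Fr.zh) (i := i) hx
  have e3 := mean_smulV d.EL1b_Y (fun _ => d.Fr.yh) (i := i) hx
  have e4 : mean (fun i q => d.A.ab i q.1 ^ 2 * d.Lp.Xt (d.arg i q)) i x = 0 := by
    have h := mean_smulX (fun i x => d.A.ab i x ^ 2) (fun i q => d.Lp.Xt (d.arg i q)) i x
    rw [d.EL1b_mXt hx, smul_zero] at h
    exact h
  have e5 : mean (fun i q => d.A.ab i q.1 * d.Lp.Yt (d.arg i q)) i x = 0 := by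
    have h := mean_smulX (fun i x => d.A.ab i x) (fun i q => d.Lp.Yt (d.arg i q)) i x
    rw [d.EL1b_mYt hx, smul_zero] at h
    exact h
  rw [e4, zero_smul] at e2
  rw [e5, zero_smul] at e3
  rw [e2, e3, add_zero] at e1
  exact e1

theorem OT_F0 : OT d.A 0 0 d.F0 :=
  d.OX_f1.toOT.add (d.OT_Lz.mono (by norm_num) le_rfl)

theorem OT_u1 : OT d.A 1 0 d.u1 := d.OT_Lz.prim d.Mz_Lz

theorem Mz_u1 : Mz d.u1 := Mz_prim d.OT_Lz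

theorem OT_ee : OT d.A 0 0 d.ee := by
  have h1 := (OT.smul d.OT_XX d.EL1b_zh).mono (by norm_num : (0 : ℤ) ≤ 0 + 0)
    (by norm_num : (0 : ℤ) ≤ 0 + 0)
  have h2 := (OT.smul d.OT_YY d.EL1b_yh).mono (by norm_num : (0 : ℤ) ≤ 1 + 0)
    (by norm_num : (0 : ℤ) ≤ 0 + 0)
  exact (OT.smul d.OX_RR_inv.toOT (h1.add h2)).mono (by norm_num) (by norm_num)

theorem OT_ep : OT d.A 0 0 d.ep := by
  have h1 := (OT.smul d.OT_XX d.EL1b_yh).mono (by norm_num : (0 : ℤ) ≤ 0 + 0)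
    (by norm_num : (0 : ℤ) ≤ 0 + 0)
  have h2 := (OT.smul d.OT_YY.neg d.EL1b_zh).mono (by norm_num : (0 : ℤ) ≤ 1 + 0)
    (by norm_num : (0 : ℤ) ≤ 0 + 0)
  exact (OT.smul d.OX_RR_inv.toOT (h2.add h1)).mono (by norm_num) (by norm_num)

/-- `e - zh` has size `abar` -/
theorem OT_ee_sub : OT d.A 1 0 (fun i q => d.ee i q - d.Fr.zh q.1) := by
  have h1 := (OT.smul d.OT_cc_sub d.EL1b_zh).mono (by norm_num : (1 : ℤ) ≤ 2 + 0)
    (by norm_num : (0 : ℤ) ≤ 0 + 0)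
  have h2 := (OT.smul (OT.mul d.OX_RR_inv.toOT d.OT_YY) d.EL1b_yh).mono
    (by norm_num : (1 : ℤ) ≤ 0 + 1 + 0) (by norm_num : (0 : ℤ) ≤ 0 + 0 + 0)
  refine (h1.add h2).congr fun i q _ => ?_
  unfold ee
  module

theorem OT_rr : OT d.A 0 0 d.rr := by
  have h1 := (OT.smul (d.OT_arg d.Lp.XA_sm) d.EL1b_zh).mono (by norm_num : (0 : ℤ) ≤ 0 + 0)
    (by norm_num : (0 : ℤ) ≤ 0 + 0)
  have h2 := (OT.smul (d.OT_arg d.Lp.YA_sm) d.EL1b_yh).mono (by norm_num : (0 : ℤ) ≤ 0 + 0)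
    (by norm_num : (0 : ℤ) ≤ 0 + 0)
  exact h1.add h2

theorem Mz_rr : Mz d.rr := by
  intro i x hx
  have e1 := mean_add (OT.smul (d.OT_arg d.Lp.XA_sm) d.EL1b_zh)
    (OT.smul (d.OT_arg d.Lp.YA_sm) d.EL1b_yh) (i := i) hx
  have e2 := mean_smulV (d.OT_arg d.Lp.XA_sm) (fun _ => d.Fr.zh) (i := i) hx
  have e3 := mean_smulV (d.OT_arg d.Lp.YA_sm) (fun _ => d.Fr.yh) (i := i) hx
  rw [d.EL1b_mXA hx, zero_smul] at e2
  rw [d.EL1b_mYA hx, zero_smul] at e3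
  rw [e2, e3, add_zero] at e1
  exact e1

theorem OT_vt : OT d.A 0 0 d.vt := d.OT_rr.prim d.Mz_rr

theorem Mz_vt : Mz d.vt := Mz_prim d.OT_rr

/-- `R² - ζ XX` has size `abar²` -/
theorem OT_RX : OT d.A 2 0 (fun i q => d.RR i q.1 ^ 2 - d.Fr.ze q.1 * d.XX i q) := by
  have h1 := (OT.mul d.EL1b_ze.toOT d.EL1b_X).mono (by norm_num : (2 : ℤ) ≤ 0 + 2)
    (by norm_num : (0 : ℤ) ≤ 0 + 0)
  refine (d.EL1b_ab2.toOT.sub h1).congr fun i q _ => ?_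
  rw [d.RR_sq]
  unfold XX
  ring

/-- its mean is `abar²` -/
theorem mean_RX {i : Eps} {x : ℝ × ℝ} (hx : x ∈ Metric.ball (0 : ℝ × ℝ) 3) :
    mean (fun i q => d.RR i q.1 ^ 2 - d.Fr.ze q.1 * d.XX i q) i x = d.A.ab i x ^ 2 := by
  have e0 : (fun (i : Eps) (q : (ℝ × ℝ) × ℝ) => d.RR i q.1 ^ 2 - d.Fr.ze q.1 * d.XX i q) =
      fun i q => d.A.ab i q.1 ^ 2 -
        (d.Fr.ze q.1 * d.A.ab i q.1 ^ 2) • d.Lp.Xt (d.arg i q) := by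
    funext i q
    rw [d.RR_sq, smul_eq_mul]
    unfold XX
    ring
  rw [e0]
  have h1 := OX.mul d.EL1b_ze d.EL1b_ab2
  have e1 := mean_sub d.EL1b_ab2.toOT (OT.smul h1.toOT (d.OT_arg d.Lp.Xt_sm)) (i := i) hx
  have e2 := mean_smulX (fun i x => d.Fr.ze x * d.A.ab i x ^ 2)
    (fun i q => d.Lp.Xt (d.arg i q)) i x
  have e3 := mean_ofX (fun i x => d.A.ab i x ^ 2) i x
  rw [d.EL1b_mXt hx, smul_zero] at e2
  rw [e2, e3, sub_zero] at e1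
  exact e1

/-- mean of `XX` is `ζ`, mean of `YY` is zero -/
theorem mean_XX {i : Eps} {x : ℝ × ℝ} (hx : x ∈ Metric.ball (0 : ℝ × ℝ) 3) :
    mean d.XX i x = d.Fr.ze x ∧ mean d.YY i x = 0 := by
  constructor
  · have e1 := mean_add d.EL1b_ze.toOT d.EL1b_X (i := i) hx
    have e2 := mean_smulX (fun i x => d.A.ab i x ^ 2) (fun i q => d.Lp.Xt (d.arg i q)) i x
    have e3 := mean_ofX (fun (_ : Eps) x => d.Fr.ze x) i x
    rw [d.EL1b_mXt hx, smul_zero] at e2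
    have e2' : mean (fun i q => d.A.ab i q.1 ^ 2 * d.Lp.Xt (d.arg i q)) i x = 0 := e2
    rw [e2', e3, add_zero] at e1
    exact e1
  · have h := mean_smulX (fun i x => d.A.ab i x) (fun i q => d.Lp.Yt (d.arg i q)) i x
    rw [d.EL1b_mYt hx, smul_zero] at h
    exact h

end ED

end P205F.EE
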