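import Vale.Agent.Lib.P205E.EL1b

/-! # P205E module EL2: pointwise identities for the loop objects -/

open scoped ContDiff
open Set

namespace P205F.EE

namespace ED

variable (d : ED) {i : Eps} {q : (ℝ × ℝ) × ℝ}

private theorem EL2_O (hq : q ∈ ST.U i) : q.1 ∈ d.Fr.O :=
  d.Fr.O_sup (Metric.ball_subset_closedBall hq.1)

/-- `F0` in the basis `f2, f22, zh, yh` -/
private theorem EL2_F0 (hq : q ∈ ST.U i) : d.F0 i q =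
    d.Fr.k2 q.1 • pd e2 d.Fr.f q.1 + d.Fr.k1 q.1 • pd e2 (pd e2 d.Fr.f) q.1 +
      (d.XX i q • d.Fr.zh q.1 + d.YY i q • d.Fr.yh q.1) := by
  unfold F0 Lz XX YY
  rw [d.Fr.f1_eq q.1 (d.EL2_O hq), add_smul]
  abel

/-- inner product with a vector of the plane `P` -/
private theorem EL2_plane (hq : q ∈ ST.U i) (s t : ℝ) :
    inner ℝ (d.F0 i q) (s • d.Fr.zh q.1 + t • d.Fr.yh q.1) = d.XX i q * s + d.YY i q * t := by
  have hx := d.EL2_O hq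
  have h1 := d.Fr.f2_zh q.1 hx
  have h2 := d.Fr.f22_zh q.1 hx
  have h3 := d.Fr.f2_yh q.1 hx
  have h4 := d.Fr.f22_yh q.1 hx
  have h5 := d.Fr.zh_zh q.1 hx
  have h6 := d.Fr.yh_yh q.1 hx
  have h7 := d.Fr.zh_yh q.1 hx
  have h8 : inner ℝ (d.Fr.yh q.1) (d.Fr.zh q.1) = 0 := by
    rw [real_inner_comm]
    exact h7
  rw [d.EL2_F0 hq]
  simp only [inner_add_left, inner_add_right, real_inner_smul_left, real_inner_smul_right,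
    h1, h2, h3, h4, h5, h6, h7, h8]
  ring

/-- a vector orthogonal to the plane `P` -/
private theorem EL2_perp {v z y : F4} (h1 : inner ℝ v z = 0) (h2 : inner ℝ v y = 0) (s t : ℝ) :
    inner ℝ v (s • z + t • y) = 0 := by
  rw [inner_add_right, real_inner_smul_right, real_inner_smul_right, h1, h2]
  ring

/-- `XX² + YY² = R²` -/
theorem XX_YY (hq : q ∈ ST.U i) : d.XX i q ^ 2 + d.YY i q ^ 2 = d.RR i q.1 ^ 2 := by
  rw [d.RR_sq]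
  exact d.Lp.circ _ _ _ (d.Fr.ze_pos q.1 (d.EL2_O hq))

theorem F0_F0 (hq : q ∈ ST.U i) : inner ℝ (d.F0 i q) (d.F0 i q) =
    inner ℝ (pd e1 d.Fr.f q.1) (pd e1 d.Fr.f q.1) + d.A.ab i q.1 ^ 2 := by
  have hx := d.EL2_O hq
  have h1 := d.Fr.f2_zh q.1 hx
  have h2 := d.Fr.f22_zh q.1 hx
  have h3 := d.Fr.f2_yh q.1 hx
  have h4 := d.Fr.f22_yh q.1 hx
  have h5 := d.Fr.zh_zh q.1 hx
  have h6 := d.Fr.yh_yh q.1 hx
  have h7 := d.Fr.zh_yh q.1 hx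
  have h8 : inner ℝ (d.Fr.yh q.1) (d.Fr.zh q.1) = 0 := by
    rw [real_inner_comm]
    exact h7
  have h1' : inner ℝ (d.Fr.zh q.1) (pd e2 d.Fr.f q.1) = 0 := by
    rw [real_inner_comm]
    exact h1
  have h2' : inner ℝ (d.Fr.zh q.1) (pd e2 (pd e2 d.Fr.f) q.1) = 0 := by
    rw [real_inner_comm]
    exact h2
  have h3' : inner ℝ (d.Fr.yh q.1) (pd e2 d.Fr.f q.1) = 0 := by
    rw [real_inner_comm]
    exact h3
  have h4' : inner ℝ (d.Fr.yh q.1) (pd e2 (pd e2 d.Fr.f) q.1) = 0 := by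
    rw [real_inner_comm]
    exact h4
  have hc := d.XX_YY hq
  rw [d.RR_sq] at hc
  rw [d.EL2_F0 hq, d.Fr.f1_eq q.1 hx]
  simp only [inner_add_left, inner_add_right, real_inner_smul_left, real_inner_smul_right,
    h1, h2, h3, h4, h5, h6, h7, h8, h1', h2', h3', h4']
  linear_combination hc

theorem f2_Lz (hq : q ∈ ST.U i) : inner ℝ (pd e2 d.Fr.f q.1) (d.Lz i q) = 0 :=
  EL2_perp (d.Fr.f2_zh q.1 (d.EL2_O hq)) (d.Fr.f2_yh q.1 (d.EL2_O hq)) _ _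

theorem f22_Lz (hq : q ∈ ST.U i) : inner ℝ (pd e2 (pd e2 d.Fr.f) q.1) (d.Lz i q) = 0 :=
  EL2_perp (d.Fr.f22_zh q.1 (d.EL2_O hq)) (d.Fr.f22_yh q.1 (d.EL2_O hq)) _ _

theorem F0_f2 (hq : q ∈ ST.U i) : inner ℝ (d.F0 i q) (pd e2 d.Fr.f q.1) =
    inner ℝ (pd e1 d.Fr.f q.1) (pd e2 d.Fr.f q.1) := by
  unfold F0
  rw [inner_add_left, real_inner_comm (pd e2 d.Fr.f q.1) (d.Lz i q), d.f2_Lz hq, add_zero]

theorem F0_ee (hq : q ∈ ST.U i) : inner ℝ (d.F0 i q) (d.ee i q) = d.RR i q.1 := by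
  unfold ee
  rw [real_inner_smul_right, d.EL2_plane hq, ← pow_two, ← pow_two, d.XX_YY hq, pow_two,
    ← mul_assoc, inv_mul_cancel₀ (d.RR_pos i q.1).ne', one_mul]

theorem F0_ep (hq : q ∈ ST.U i) : inner ℝ (d.F0 i q) (d.ep i q) = 0 := by
  unfold ep
  rw [real_inner_smul_right, d.EL2_plane hq]
  ring

theorem F0_T2 (hq : q ∈ ST.U i) : inner ℝ (d.F0 i q) (d.Fr.T2 q.1) = d.Fr.k2 q.1 := by
  have hx := d.EL2_O hq
  have h1 := d.Fr.f2_T2 q.1 hx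
  have h2 := d.Fr.f22_T2 q.1 hx
  have h3 : inner ℝ (d.Fr.zh q.1) (d.Fr.T2 q.1) = 0 := by
    rw [real_inner_comm]
    exact d.Fr.T2_zh q.1 hx
  have h4 : inner ℝ (d.Fr.yh q.1) (d.Fr.T2 q.1) = 0 := by
    rw [real_inner_comm]
    exact d.Fr.T2_yh q.1 hx
  rw [d.EL2_F0 hq]
  simp only [inner_add_left, real_inner_smul_left, h1, h2, h3, h4]
  ring

theorem F0_n1 (hq : q ∈ ST.U i) : inner ℝ (d.F0 i q) (d.Fr.n1 q.1) = d.Fr.k1 q.1 := by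
  have hx := d.EL2_O hq
  have h1 := d.Fr.f2_n1 q.1 hx
  have h2 := d.Fr.f22_n1 q.1 hx
  have h3 : inner ℝ (d.Fr.zh q.1) (d.Fr.n1 q.1) = 0 := by
    rw [real_inner_comm]
    exact d.Fr.n1_zh q.1 hx
  have h4 : inner ℝ (d.Fr.yh q.1) (d.Fr.n1 q.1) = 0 := by
    rw [real_inner_comm]
    exact d.Fr.n1_yh q.1 hx
  rw [d.EL2_F0 hq]
  simp only [inner_add_left, real_inner_smul_left, h1, h2, h3, h4]
  ring

theorem F0_rr (hq : q ∈ ST.U i) : inner ℝ (d.F0 i q) (d.rr i q) = d.A.ab i q.1 := by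
  unfold rr
  rw [d.EL2_plane hq]
  exact d.Lp.circA _ _ _ (d.Fr.ze_pos q.1 (d.EL2_O hq))

theorem F0_Lz (hq : q ∈ ST.U i) : inner ℝ (d.F0 i q) (d.Lz i q) =
    d.RR i q.1 ^ 2 - d.Fr.ze q.1 * d.XX i q := by
  unfold Lz
  rw [d.EL2_plane hq, ← d.XX_YY hq]
  have h1 : d.A.ab i q.1 ^ 2 * d.Lp.Xt (d.arg i q) = d.XX i q - d.Fr.ze q.1 := by
    unfold XX
    ring
  have h2 : d.A.ab i q.1 * d.Lp.Yt (d.arg i q) = d.YY i q := rfl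
  rw [h1, h2]
  ring

/-- the inner product with a primitive vanishes if the inner product with the function does -/
private theorem EL2_prim (c : ℝ × ℝ → F4) {p m : ℤ} {u : Eps → (ℝ × ℝ) × ℝ → F4}
    (hu : OT d.A p m u) (h : ∀ (i : Eps) (q : (ℝ × ℝ) × ℝ), q ∈ ST.U i → inner ℝ (c q.1) (u i q) = 0)
    (hq : q ∈ ST.U i) : inner ℝ (c q.1) (prim u i q) = 0 := by
  rw [prim_innerX (fun _ => c) hu hq]
  have h1 : ∀ s : ℝ, inner ℝ (c q.1) (u i (q.1, s)) = 0 := fun s =>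
    h i (q.1, s) ⟨hq.1, Set.mem_univ _⟩
  unfold prim
  simp only [h1, intervalIntegral.integral_zero, smul_zero, sub_zero]

theorem f2_u1 (hq : q ∈ ST.U i) : inner ℝ (pd e2 d.Fr.f q.1) (d.u1 i q) = 0 :=
  d.EL2_prim (pd e2 d.Fr.f) d.OT_Lz (fun _ _ h => d.f2_Lz h) hq

theorem f22_u1 (hq : q ∈ ST.U i) : inner ℝ (pd e2 (pd e2 d.Fr.f) q.1) (d.u1 i q) = 0 :=
  d.EL2_prim (pd e2 (pd e2 d.Fr.f)) d.OT_Lz (fun _ _ h => d.f22_Lz h) hq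

theorem f2_ee (hq : q ∈ ST.U i) : inner ℝ (pd e2 d.Fr.f q.1) (d.ee i q) = 0 := by
  unfold ee
  rw [real_inner_smul_right, EL2_perp (d.Fr.f2_zh q.1 (d.EL2_O hq))
    (d.Fr.f2_yh q.1 (d.EL2_O hq)), mul_zero]

theorem f22_ee (hq : q ∈ ST.U i) : inner ℝ (pd e2 (pd e2 d.Fr.f) q.1) (d.ee i q) = 0 := by
  unfold ee
  rw [real_inner_smul_right, EL2_perp (d.Fr.f22_zh q.1 (d.EL2_O hq))
    (d.Fr.f22_yh q.1 (d.EL2_O hq)), mul_zero]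

theorem f2_ep (hq : q ∈ ST.U i) : inner ℝ (pd e2 d.Fr.f q.1) (d.ep i q) = 0 := by
  unfold ep
  rw [real_inner_smul_right, EL2_perp (d.Fr.f2_zh q.1 (d.EL2_O hq))
    (d.Fr.f2_yh q.1 (d.EL2_O hq)), mul_zero]

theorem f2_rr (hq : q ∈ ST.U i) : inner ℝ (pd e2 d.Fr.f q.1) (d.rr i q) = 0 :=
  EL2_perp (d.Fr.f2_zh q.1 (d.EL2_O hq)) (d.Fr.f2_yh q.1 (d.EL2_O hq)) _ _

theorem f22_rr (hq : q ∈ ST.U i) : inner ℝ (pd e2 (pd e2 d.Fr.f) q.1) (d.rr i q) = 0 :=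
  EL2_perp (d.Fr.f22_zh q.1 (d.EL2_O hq)) (d.Fr.f22_yh q.1 (d.EL2_O hq)) _ _

theorem f2_vt (hq : q ∈ ST.U i) : inner ℝ (pd e2 d.Fr.f q.1) (d.vt i q) = 0 :=
  d.EL2_prim (pd e2 d.Fr.f) d.OT_rr (fun _ _ h => d.f2_rr h) hq

theorem f22_vt (hq : q ∈ ST.U i) : inner ℝ (pd e2 (pd e2 d.Fr.f) q.1) (d.vt i q) = 0 :=
  d.EL2_prim (pd e2 (pd e2 d.Fr.f)) d.OT_rr (fun _ _ h => d.f22_rr h) hq

theorem n1_Lz (hq : q ∈ ST.U i) : inner ℝ (d.Fr.n1 q.1) (d.Lz i q) = 0 :=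
  EL2_perp (d.Fr.n1_zh q.1 (d.EL2_O hq)) (d.Fr.n1_yh q.1 (d.EL2_O hq)) _ _

end ED

end P205F.EE
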