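import Mathlib
import Vale.Agent.Lib.P205E.EC5
import Vale.Agent.Lib.P205E.EL2

/-! # P205E module EL2b: derivatives in `θ` and parity of the loop objects -/

open scoped ContDiff
open Set

namespace P205F.EE

namespace ED

variable (d : ED) {i : Eps} {q : (ℝ × ℝ) × ℝ}

private theorem EL2b_mem (hq : q ∈ ST.U i) : q.1 ∈ d.Fr.O :=
  d.Fr.O_sup (Metric.ball_subset_closedBall hq.1)

private theorem EL2b_zh : OX d.A 0 0 (fun _ => d.Fr.zh) := d.OX_frame.2.2.2.1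

private theorem EL2b_yh : OX d.A 0 0 (fun _ => d.Fr.yh) := d.OX_frame.2.2.2.2.1

private theorem EL2b_ze : OX d.A 0 0 (fun _ => d.Fr.ze) := d.OX_frame.2.2.2.2.2.2.2

private theorem EL2b_sub (hq : q ∈ ST.U i) :
    dT (fun i q => d.XX i q - d.Fr.ze q.1) i q = dT d.XX i q := by
  have h1 : dT d.XX i q =
      dT (fun i q => (fun i q => d.XX i q - d.Fr.ze q.1) i q + (fun i q => (fun _ => d.Fr.ze) i q.1) i q)
        i q := by
    refine (DD_congr (fun i q _ => ?_) e1 (fun _ _ => 0) hq).2.2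
    show d.XX i q = d.XX i q - d.Fr.ze q.1 + d.Fr.ze q.1
    ring
  rw [h1, dT_add d.OT_XX_sub (EL2b_ze d).toOT hq,
    dT_ofX (u := fun _ => d.Fr.ze) (fun i => (EL2b_ze d).smooth i) hq, add_zero]

/-- `∂_θ F0 = ∂_θ XX zh + ∂_θ YY yh` -/
theorem EL2b_dF0 (hq : q ∈ ST.U i) :
    dT d.F0 i q = dT d.XX i q • d.Fr.zh q.1 + dT d.YY i q • d.Fr.yh q.1 := by
  have h1 : dT d.F0 i q = dT d.Lz i q := by
    have h2 : dT d.F0 i q = dT (fun i q => (fun i q => (fun _ => pd e1 d.Fr.f) i q.1) i q +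
        d.Lz i q) i q := rfl
    rw [h2, dT_add d.OX_f1.toOT d.OT_Lz hq,
      dT_ofX (u := fun _ => pd e1 d.Fr.f) (fun i => d.OX_f1.smooth i) hq, zero_add]
  have hzT : OT d.A 0 0 (fun i q => (fun _ => d.Fr.zh) i q.1) := (EL2b_zh d).toOT
  have hyT : OT d.A 0 0 (fun i q => (fun _ => d.Fr.yh) i q.1) := (EL2b_yh d).toOT
  have hz := d.OT_XX_sub.smul hzT
  have hy := d.OT_YY.smul hyT
  have h3 : dT d.Lz i q = dT (fun i q =>
      (fun i q => (d.XX i q - d.Fr.ze q.1) • d.Fr.zh q.1) i q +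
      (fun i q => d.YY i q • d.Fr.yh q.1) i q) i q := by
    refine (DD_congr (fun i q _ => ?_) e1 (fun _ _ => 0) hq).2.2
    show d.Lz i q = (d.XX i q - d.Fr.ze q.1) • d.Fr.zh q.1 + d.YY i q • d.Fr.yh q.1
    unfold Lz XX YY
    rw [add_sub_cancel_left]
  rw [h1, h3]
  refine (dT_add hz hy hq).trans ?_
  have h4 := dT_smul d.OT_XX_sub hzT hq
  have h5 := dT_smul d.OT_YY hyT hq
  rw [dT_ofX (u := fun _ => d.Fr.zh) (fun i => (EL2b_zh d).smooth i) hq, smul_zero, add_zero,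
    EL2b_sub d hq] at h4
  rw [dT_ofX (u := fun _ => d.Fr.yh) (fun i => (EL2b_yh d).smooth i) hq, smul_zero, add_zero] at h5
  rw [h4, h5]

/-- `XX ∂XX + YY ∂YY = 0` -/
theorem EL2b_circ (hq : q ∈ ST.U i) :
    d.XX i q * dT d.XX i q + d.YY i q * dT d.YY i q = 0 := by
  have h1 := dT_smul d.OT_XX d.OT_XX hq
  have h2 := dT_smul d.OT_YY d.OT_YY hq
  have h3 := dT_add (d.OT_XX.smul d.OT_XX) (d.OT_YY.smul d.OT_YY) hq
  have h4 : dT (fun i q => d.XX i q • d.XX i q + d.YY i q • d.YY i q) i q =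
      dT (fun i q => (fun i x => d.RR i x ^ 2) i q.1) i q := by
    refine (DD_congr (fun i q hq => ?_) e1 (fun _ _ => 0) hq).2.2
    have := d.XX_YY hq
    show d.XX i q • d.XX i q + d.YY i q • d.YY i q = d.RR i q.1 ^ 2
    rw [smul_eq_mul, smul_eq_mul, ← this]
    ring
  have h5 : dT (fun i q => (fun i x => d.RR i x ^ 2) i q.1) i q = 0 :=
    dT_ofX (u := fun i x => d.RR i x ^ 2) (fun i => (d.OX_RR.smooth i).pow 2) hq
  rw [h1, h2, h4, h5] at h3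
  simp only [smul_eq_mul] at h3
  linarith

/-- `e . ∂_θ F0 = 0` and `n1 . ∂_θ F0 = 0`: from `∂_θ F0 = ∂_θ Lz` and `XX ∂XX + YY ∂YY = 0` -/
theorem ee_dF0 (hq : q ∈ ST.U i) : inner ℝ (d.ee i q) (dT d.F0 i q) = 0 := by
  have hm := EL2b_mem d hq
  rw [EL2b_dF0 d hq, ee]
  simp only [inner_smul_left, inner_smul_right, inner_add_left, inner_add_right,
    d.Fr.zh_zh _ hm, d.Fr.yh_yh _ hm, d.Fr.zh_yh _ hm,
    (real_inner_comm (d.Fr.zh q.1) (d.Fr.yh q.1)).trans (d.Fr.zh_yh _ hm)]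
  have h := EL2b_circ d hq
  simp only [conj_trivial]
  linear_combination (d.RR i q.1)⁻¹ * h

theorem n1_dF0 (hq : q ∈ ST.U i) : inner ℝ (d.Fr.n1 q.1) (dT d.F0 i q) = 0 := by
  have hm := EL2b_mem d hq
  rw [EL2b_dF0 d hq, inner_add_right, inner_smul_right, inner_smul_right, d.Fr.n1_zh _ hm,
    d.Fr.n1_yh _ hm, mul_zero, mul_zero, add_zero]

/-- `∂_θ u1 = Lz` -/
theorem dT_u1 (hq : q ∈ ST.U i) : dT d.u1 i q = d.Lz i q := dT_prim d.OT_Lz hq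

/-- `∂_θ vt = rr` -/
theorem dT_vt (hq : q ∈ ST.U i) : dT d.vt i q = d.rr i q := dT_prim d.OT_rr hq

/-- parity: `Lz`, `F0`, `XX`, `YY` are even and `u1` is odd in `θ` -/
theorem Lz_even (i : Eps) (x : ℝ × ℝ) (θ : ℝ) : d.Lz i (x, -θ) = d.Lz i (x, θ) ∧
    d.F0 i (x, -θ) = d.F0 i (x, θ) ∧ d.XX i (x, -θ) = d.XX i (x, θ) ∧
    d.YY i (x, -θ) = d.YY i (x, θ) := by
  have ha : d.arg i (x, -θ) = d.arg i (x, θ) := by
    unfold arg
    rw [Real.cos_neg]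
  have hL : d.Lz i (x, -θ) = d.Lz i (x, θ) := by
    unfold Lz
    rw [ha]
  refine ⟨hL, ?_, ?_, ?_⟩
  · unfold F0
    rw [hL]
  · unfold XX
    rw [ha]
  · unfold YY
    rw [ha]

theorem u1_odd (i : Eps) {x : ℝ × ℝ} (hx : x ∈ Metric.ball (0 : ℝ × ℝ) 3) (θ : ℝ) :
    d.u1 i (x, -θ) = -d.u1 i (x, θ) :=
  prim_odd d.OT_Lz d.Mz_Lz (fun i x _ θ => (d.Lz_even i x θ).1) hx θ

end ED

end P205F.EE
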