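import Mathlib
import Vale.Agent.Lib.P205E.EC3

/-! # P205E module EV: evaluation at the phase

`ev ψ u (x) = u (x, (x₁ + ψ x) / ε)`.  The map `x ↦ (x, (x₁ + ψ x) / ε)` has derivatives of order `r ≥ 1` bounded by
`g ε^(-r)`; use the composition bound (`norm_iteratedFDerivWithin_comp_le` or `norm_iteratedFDeriv_comp_le` at interior
points, `C = g * wt`, `D = g / ε`), or induction with `Bd.of_fderiv`. -/

open scoped ContDiff
open Set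

namespace P205F.EE

/-- families of functions of `x` on the square, at scale `ε` -/
def SE : Setting Eps (ℝ × ℝ) where
  G := GE
  U := fun _ => Metric.ball 0 3
  s := fun i => i
  isOpen := fun _ => Metric.isOpen_ball
  s_pos := fun i => i.2.1
  s_le := fun i => i.2.2.le

variable {V : Type} [NormedAddCommGroup V] [NormedSpace ℝ V] {A : Amp} {p m : ℤ}

/-- evaluation at the phase `(x₁ + ψ) / ε` -/
noncomputable def ev (ψ : Eps → ℝ × ℝ → ℝ) (u : Eps → (ℝ × ℝ) × ℝ → V) (i : Eps) (x : ℝ × ℝ) : V :=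
  u i (x, (x.1 + ψ i x) / (i : ℝ))

variable {ψ : Eps → ℝ × ℝ → ℝ} (hψ : OX A 0 2 ψ) {u : Eps → (ℝ × ℝ) × ℝ → V} (hu : OT A p m u)

private theorem EV_fam {ψ : Eps → ℝ × ℝ → ℝ} (hψ : OX A 0 2 ψ) :
    Bd SX (fun _ _ => 1) (fun (i : Eps) (x : ℝ × ℝ) => ((i : ℝ) • x, x.1 + ψ i x)) := by
  have h1 : OX A 0 0 (fun (_ : Eps) (x : ℝ × ℝ) => x) :=
    OX.fixed isOpen_univ (subset_univ _) contDiffOn_id
  have h2 : OX A 0 0 (fun (_ : Eps) (x : ℝ × ℝ) => x.1) :=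
    OX.fixed isOpen_univ (subset_univ _) contDiffOn_fst
  have h3 : OX A 0 0 (fun (i : Eps) (x : ℝ × ℝ) => x.1 + ψ i x) :=
    h2.add (hψ.mono le_rfl (by norm_num))
  have h4 : Bd SX (A.wt 0 0) (fun (i : Eps) (x : ℝ × ℝ) => (i : ℝ) • x) :=
    Bd.constSmul (S := SX) (SX.G.const 1 le_rfl) (fun i : Eps => (i : ℝ))
      (fun i => by rw [abs_of_pos i.2.1]; exact i.2.2.le) h1
  refine (Bd.prodMk h4 h3).mono (SX.G.const 1 le_rfl) fun i x _ => ?_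
  rw [A.wt_zero, one_mul]

private theorem EV_upto {u : Eps → (ℝ × ℝ) × ℝ → V} (hu : OT A p m u) (r : ℕ) :
    ∃ G ∈ GE.mem, ∀ j, j ≤ r → ∀ i, ∀ q ∈ ST.U i,
      ‖iteratedFDeriv ℝ j (u i) q‖ ≤ G i * A.wt p m i q.1 := by
  have hs : ∀ (i : Eps) (j : ℕ), (ST.s i)⁻¹ ^ j = 1 := fun i j => by
    have : ST.s i = 1 := rfl
    rw [this, inv_one, one_pow]
  induction r with
  | zero =>
    obtain ⟨g, hg, h⟩ := hu.1.2 0
    refine ⟨g, hg, fun j hj i q hq => ?_⟩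
    obtain rfl : j = 0 := by omega
    have h1 := h i q hq
    rwa [hs, mul_one] at h1
  | succ r ih =>
    obtain ⟨G, hG, hGb⟩ := ih
    obtain ⟨g, hg, h⟩ := hu.1.2 (r + 1)
    refine ⟨fun i => G i * g i, GE.mul G hG g hg, fun j hj i q hq => ?_⟩
    have hG1 := GE.one_le G hG i
    have hg1 := GE.one_le g hg i
    have hw := A.wt_pos p m i q.1
    rcases Nat.lt_or_ge r j with hj' | hj'
    · obtain rfl : j = r + 1 := by omega
      have h1 := h i q hq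
      rw [hs, mul_one] at h1
      refine h1.trans (mul_le_mul_of_nonneg_right ?_ hw.le)
      nlinarith
    · refine (hGb j hj' i q hq).trans (mul_le_mul_of_nonneg_right ?_ hw.le)
      nlinarith

private theorem EV_eq (ψ : Eps → ℝ × ℝ → ℝ) (i : Eps) :
    (fun x : ℝ × ℝ => (x, (x.1 + ψ i x) / (i : ℝ))) =
      fun x => ((i : ℝ)⁻¹) • ((i : ℝ) • x, x.1 + ψ i x) := by
  have h0 : (i : ℝ) ≠ 0 := i.2.1.ne'
  funext x
  refine Prod.ext ?_ ?_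
  · show x = (i : ℝ)⁻¹ • (i : ℝ) • x
    rw [smul_smul, inv_mul_cancel₀ h0, one_smul]
  · show (x.1 + ψ i x) / (i : ℝ) = (i : ℝ)⁻¹ • (x.1 + ψ i x)
    rw [smul_eq_mul, div_eq_inv_mul]

include hψ hu

theorem Bd_ev : Bd SE (A.wt p m) (ev ψ u) := by
  have hF := EV_fam hψ
  have hsm : ∀ i : Eps, ContDiffOn ℝ ∞ (fun x : ℝ × ℝ => (x, (x.1 + ψ i x) / (i : ℝ)))
      (Metric.ball 0 3) := by
    intro i
    rw [EV_eq]
    exact (hF.1 i).const_smul _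
  have hmaps : ∀ i : Eps, MapsTo (fun x : ℝ × ℝ => (x, (x.1 + ψ i x) / (i : ℝ)))
      (Metric.ball 0 3) (ST.U i) := fun i x hx => ⟨hx, mem_univ _⟩
  refine ⟨fun i => (hu.1.1 i).comp (hsm i) (hmaps i), fun r => ?_⟩
  obtain ⟨G, hG, hGb⟩ := EV_upto hu r
  obtain ⟨g, hg, hgb⟩ := KD_bounds hF r
  have hfac : (1 : ℝ) ≤ (r.factorial : ℝ) := by
    exact_mod_cast Nat.succ_le_of_lt (Nat.factorial_pos r)
  refine ⟨fun i => (r.factorial : ℝ) * (G i * g i ^ r),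
    GE.mul _ (GE.const _ hfac) _ (GE.mul _ hG _ (Growth.pow hg r)), fun i x hx => ?_⟩
  have hx' : x ∈ Metric.ball (0 : ℝ × ℝ) 3 := hx
  have hi0 : (0 : ℝ) < (i : ℝ) := i.2.1
  have hi1 : (1 : ℝ) ≤ (i : ℝ)⁻¹ := (one_le_inv₀ hi0).2 i.2.2.le
  have hg1 : 1 ≤ g i := GE.one_le g hg i
  have hUo : IsOpen (Metric.ball (0 : ℝ × ℝ) 3) := Metric.isOpen_ball
  have hTo : IsOpen (ST.U i) := ST.isOpen i
  have key := norm_iteratedFDerivWithin_comp_le (𝕜 := ℝ) (n := r) (N := ∞) (hu.1.1 i) (hsm i)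
    (by exact_mod_cast le_top) hTo.uniqueDiffOn hUo.uniqueDiffOn (hmaps i) hx'
    (C := G i * A.wt p m i x) (D := g i * (i : ℝ)⁻¹) (by
      intro k hk
      rw [iteratedFDerivWithin_of_isOpen k hTo (hmaps i hx')]
      exact hGb k hk i _ (hmaps i hx')) (by
      intro k hk1 hk
      rw [iteratedFDerivWithin_of_isOpen k hUo hx', EV_eq]
      have hat : ContDiffAt ℝ k (fun x : ℝ × ℝ => ((i : ℝ) • x, x.1 + ψ i x)) x :=
        (((hF.1 i).contDiffAt (hUo.mem_nhds hx')).of_le (by exact_mod_cast le_top))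
      rw [iteratedFDeriv_const_smul_apply' hat, norm_smul, norm_inv, Real.norm_eq_abs,
        abs_of_pos hi0]
      have h1 : ‖iteratedFDeriv ℝ k (fun x : ℝ × ℝ => ((i : ℝ) • x, x.1 + ψ i x)) x‖ ≤ g i := by
        have h2 := hgb k hk i x hx'
        have h3 : SX.s i = 1 := rfl
        rwa [h3, inv_one, one_pow, mul_one] at h2
      calc (i : ℝ)⁻¹ * ‖iteratedFDeriv ℝ k (fun x : ℝ × ℝ => ((i : ℝ) • x, x.1 + ψ i x)) x‖
          ≤ (i : ℝ)⁻¹ * g i := mul_le_mul_of_nonneg_left h1 (by linarith)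
        _ = g i * (i : ℝ)⁻¹ := mul_comm _ _
        _ ≤ (g i * (i : ℝ)⁻¹) ^ k := le_self_pow₀ (by nlinarith) (by omega))
  rw [iteratedFDerivWithin_of_isOpen r hUo hx'] at key
  refine key.trans (le_of_eq ?_)
  show (r.factorial : ℝ) * (G i * A.wt p m i x) * (g i * (i : ℝ)⁻¹) ^ r =
    (r.factorial : ℝ) * (G i * g i ^ r) * A.wt p m i x * (i : ℝ)⁻¹ ^ r
  rw [mul_pow]
  ring

theorem pd_ev (v : ℝ × ℝ) (i : Eps) {x : ℝ × ℝ} (hx : x ∈ Metric.ball (0 : ℝ × ℝ) 3) :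
    pd v (ev ψ u i) x = ev ψ (DD v ψ u) i x := by
  have hψd : HasFDerivAt (ψ i) (fderiv ℝ (ψ i) x) x :=
    (((hψ.1 i).contDiffAt (Metric.isOpen_ball.mem_nhds hx)).differentiableAt (by simp)).hasFDerivAt
  have hq : (x, (x.1 + ψ i x) / (i : ℝ)) ∈ ST.U i := ⟨hx, mem_univ _⟩
  have hud : HasFDerivAt (u i) (fderiv ℝ (u i) (x, (x.1 + ψ i x) / (i : ℝ)))
      (x, (x.1 + ψ i x) / (i : ℝ)) :=
    (((hu.1.1 i).contDiffAt ((ST.isOpen i).mem_nhds hq)).differentiableAt (by simp)).hasFDerivAt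
  have h1 : HasFDerivAt (fun x : ℝ × ℝ => (x.1 + ψ i x) / (i : ℝ))
      ((i : ℝ)⁻¹ • (ContinuousLinearMap.fst ℝ ℝ ℝ + fderiv ℝ (ψ i) x)) x := by
    have h2 := (hasFDerivAt_fst.add hψd).const_smul ((i : ℝ)⁻¹)
    refine h2.congr_of_eventuallyEq (Filter.Eventually.of_forall fun y => ?_)
    show (y.1 + ψ i y) / (i : ℝ) = (i : ℝ)⁻¹ * (y.1 + ψ i y)
    rw [div_eq_inv_mul]
  have h3 : HasFDerivAt (fun x : ℝ × ℝ => (x, (x.1 + ψ i x) / (i : ℝ)))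
      ((ContinuousLinearMap.id ℝ (ℝ × ℝ)).prod
        ((i : ℝ)⁻¹ • (ContinuousLinearMap.fst ℝ ℝ ℝ + fderiv ℝ (ψ i) x))) x :=
    (hasFDerivAt_id x).prodMk h1
  have h4 : HasFDerivAt (ev ψ u i) ((fderiv ℝ (u i) (x, (x.1 + ψ i x) / (i : ℝ))).comp
      ((ContinuousLinearMap.id ℝ (ℝ × ℝ)).prod
        ((i : ℝ)⁻¹ • (ContinuousLinearMap.fst ℝ ℝ ℝ + fderiv ℝ (ψ i) x)))) x :=
    HasFDerivAt.comp x hud h3
  have h5 : ((v, (i : ℝ)⁻¹ * (v.1 + fderiv ℝ (ψ i) x v)) : (ℝ × ℝ) × ℝ) =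
      (v, 0) + ((i : ℝ)⁻¹ * (v.1 + fderiv ℝ (ψ i) x v)) • ((0, 1) : (ℝ × ℝ) × ℝ) := by
    refine Prod.ext ?_ ?_
    · simp
    · simp
  show fderiv ℝ (ev ψ u i) x v = fderiv ℝ (u i) (x, (x.1 + ψ i x) / (i : ℝ)) (v, 0) +
    ((i : ℝ)⁻¹ * (v.1 + fderiv ℝ (ψ i) x v)) •
      fderiv ℝ (u i) (x, (x.1 + ψ i x) / (i : ℝ)) (0, 1)
  rw [h4.fderiv]
  show fderiv ℝ (u i) (x, (x.1 + ψ i x) / (i : ℝ)) (v, (i : ℝ)⁻¹ * (v.1 + fderiv ℝ (ψ i) x v)) = _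
  rw [h5, map_add, map_smul]

omit hu hψ in
/-- functions of `x` of size one at scale one are of size one at scale `ε` -/
theorem Bd_SE_of_OX {w : Eps → ℝ × ℝ → V} (hw : OX A p m w) : Bd SE (A.wt p m) w := by
  refine ⟨hw.1, fun r => ?_⟩
  obtain ⟨g, hg, h⟩ := hw.2 r
  refine ⟨g, hg, fun i x hx => (h i x hx).trans ?_⟩
  have hg1 : 1 ≤ g i := GE.one_le g hg i
  have hw0 := A.wt_pos p m i x
  have h1 : (SX.s i)⁻¹ ≤ (SE.s i)⁻¹ := by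
    show (1 : ℝ)⁻¹ ≤ (i : ℝ)⁻¹
    rw [inv_one]
    exact (one_le_inv₀ i.2.1).2 i.2.2.le
  have h2 : (0 : ℝ) ≤ (SX.s i)⁻¹ := inv_nonneg.2 (SX.s_pos i).le
  exact mul_le_mul_of_nonneg_left (pow_le_pow_left₀ h2 h1 r)
    (mul_nonneg (by linarith) hw0.le)

end P205F.EE
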