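import Vale.Agent.Lib.P205E.SI
import Vale.Agent.Lib.P205E.EV

/-! # P205E module ER: the raw family

From `state_all` (`FF`, `ψ`), `Fr = ev ψ FF`, `th i x = (x₁ + ψ i x) / i`.
`Fr - f = ev ψ (FF - f)`, `FF - f = ε u1 + VV ∈ OT 1 1`; metric: `pd v Fr = ev ψ (DD v ψ FF)` and `Err`
(`abar² - a² = ε^(2M)`); `pd e2` of `ev` of `w ∈ OT 1 1` is `ev` of `DD e2 ψ w ∈ OT 1 1`;
`DD e2 ψ F0 = dX e2 F0 + ε⁻¹ ψ₂ dT F0` and `ε⁻¹ ψ₂ ∈ O(0,1)`. -/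

open scoped ContDiff
open Set

namespace P205F.EE

namespace ED

/-- the raw family of order `K` -/
structure Raw (d : ED) (K : ℕ) (Fr : Eps → ℝ × ℝ → F4) : Prop where
  size : Bd SE (d.A.wt 1 1) (fun i x => Fr i x - d.Fr.f x)
  metric : ∀ v w : ℝ × ℝ, (v = e1 ∨ v = e2) → (w = e1 ∨ w = e2) →
    Bd SE (fun i _ => (i : ℝ) ^ K) (fun i x => inner ℝ (pd v (Fr i) x) (pd w (Fr i) x) -
      inner ℝ (pd v d.Fr.f x) (pd w d.Fr.f x) - d.A.a x ^ 2 * (v.1 * w.1))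
  close : ∃ g ∈ GE.mem, ∀ i, ∀ x ∈ Metric.ball (0 : ℝ × ℝ) 3,
    ‖pd e2 (Fr i) x - pd e2 d.Fr.f x‖ ≤ g i * i ∧
    ‖pd e2 (pd e2 (Fr i)) x - pd e2 (pd e2 d.Fr.f) x‖ ≤ g i * i ∧
    ‖pd e2 (pd e2 (pd e2 (Fr i))) x - pd e2 (pd e2 (pd e2 d.Fr.f)) x‖ ≤ g i * i
  first : ∃ g ∈ GE.mem, ∃ th : Eps → ℝ × ℝ → ℝ, ∀ i, ∀ x ∈ Metric.ball (0 : ℝ × ℝ) 3,
    ‖pd e1 (Fr i) x - d.F0 i (x, th i x)‖ ≤ g i * i ∧
    ‖pd e2 (pd e1 (Fr i)) x - dX e2 d.F0 i (x, th i x)‖ ≤ g i * i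

variable (d : ED) {K : ℕ}

private theorem ER_wt {p : ℤ} (hp : 0 ≤ p) (m : ℤ) (hm : (K : ℤ) ≤ m) :
    ∃ C : ℝ, 1 ≤ C ∧ ∀ i x, d.A.wt p m i x ≤ C * (i : ℝ) ^ K := by
  obtain ⟨C, hC, h⟩ := d.A.wt_le (p := p) (p' := 0) (m := m) (m' := K) hp hm
  refine ⟨C, hC, fun i x => (h i x).trans (le_of_eq ?_)⟩
  rw [Amp.wt, zpow_zero, one_mul, zpow_natCast]

private theorem ER_y {ψ : Eps → ℝ × ℝ → ℝ} (hψ : OX d.A 0 2 ψ) {p m : ℤ} (hp : 0 ≤ p)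
    (hm : (K : ℤ) ≤ m) {y : Eps → (ℝ × ℝ) × ℝ → ℝ} (hy : OT d.A p m y) :
    Bd SE (fun i _ => (i : ℝ) ^ K) (ev ψ y) := by
  obtain ⟨C, hC, h⟩ := d.ER_wt (K := K) hp m hm
  exact Bd.mono (g := fun _ => C) (GE.const C hC) (Bd_ev hψ hy) fun i x _ => h i x

private theorem ER_m {p m : ℤ} (hp : 0 ≤ p) (hm : (K : ℤ) ≤ m) {y : Eps → ℝ × ℝ → ℝ}
    (hy : OX d.A p m y) : Bd SE (fun i _ => (i : ℝ) ^ K) y := by
  obtain ⟨C, hC, h⟩ := d.ER_wt (K := K) hp m hm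
  exact Bd.mono (g := fun _ => C) (GE.const C hC) (Bd_SE_of_OX hy) fun i x _ => h i x

private theorem ER_const (hM : K ≤ 2 * d.A.M) :
    Bd SE (fun i _ => (i : ℝ) ^ K) (fun (i : Eps) (_ : ℝ × ℝ) => (i : ℝ) ^ (2 * d.A.M)) := by
  refine Bd.const' (g := fun _ => 1) (GE.const 1 le_rfl) (fun i : Eps => (i : ℝ) ^ (2 * d.A.M))
    (fun i => (i : ℝ) ^ K) fun i => ?_
  rw [one_mul, Real.norm_of_nonneg (pow_nonneg i.2.1.le _)]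
  exact pow_le_pow_of_le_one i.2.1.le i.2.2.le hM

theorem ER_metric (hM : K ≤ 2 * d.A.M) {FF : Eps → (ℝ × ℝ) × ℝ → F4}
    {ψ : Eps → ℝ × ℝ → ℝ} (h : d.StE K K K K (K + 1) FF ψ) (v w : ℝ × ℝ) (hv : v = e1 ∨ v = e2)
    (hw : w = e1 ∨ w = e2) :
    Bd SE (fun i _ => (i : ℝ) ^ K) (fun i x => inner ℝ (pd v (ev ψ FF i) x) (pd w (ev ψ FF i) x) -
      inner ℝ (pd v d.Fr.f x) (pd w d.Fr.f x) - d.A.a x ^ 2 * (v.1 * w.1)) := by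
  obtain ⟨m11, m12, m22, y11, y12, y22, hS⟩ := h
  have hFF := d.OT_FF hS.hV
  have hpd : ∀ v i, ∀ x ∈ Metric.ball (0 : ℝ × ℝ) 3, pd v (ev ψ FF i) x =
      DD v ψ FF i (x, (x.1 + ψ i x) / (i : ℝ)) := fun v i x hx => pd_ev hS.hψ hFF v i hx
  have herr : ∀ (i : Eps), ∀ x ∈ Metric.ball (0 : ℝ × ℝ) 3, _ := fun i x hx =>
    hS.err i (x, (x.1 + ψ i x) / (i : ℝ)) ⟨hx, mem_univ _⟩
  have h1 : ((K : ℤ)) ≤ K := le_rfl
  have h2 : ((K : ℤ)) ≤ (K : ℤ) + 1 := by omega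
  have z1 : (e1 : ℝ × ℝ).1 = 1 := rfl
  have z2 : (e2 : ℝ × ℝ).1 = 0 := rfl
  rcases hv with rfl | rfl <;> rcases hw with rfl | rfl
  · refine (((d.ER_const hM).add (d.ER_m (by norm_num) h1 hS.hm11)).add
      (d.ER_y hS.hψ (by norm_num) h1 hS.hy11)).congr fun i x hx => ?_
    rw [hpd e1 i x hx, (herr i x hx).1, z1, d.A.ab_sq]
    simp only [ev]
    ring
  · refine ((d.ER_m (by norm_num) h1 hS.hm12).add
      (d.ER_y hS.hψ (by norm_num) h1 hS.hy12)).congr fun i x hx => ?_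
    rw [hpd e1 i x hx, hpd e2 i x hx, (herr i x hx).2.1, z1, z2]
    simp only [ev]
    ring
  · refine ((d.ER_m (by norm_num) h1 hS.hm12).add
      (d.ER_y hS.hψ (by norm_num) h1 hS.hy12)).congr fun i x hx => ?_
    rw [hpd e1 i x hx, hpd e2 i x hx, real_inner_comm, (herr i x hx).2.1, z1, z2,
      real_inner_comm (pd e1 d.Fr.f x) (pd e2 d.Fr.f x)]
    simp only [ev]
    ring
  · refine ((d.ER_m (by norm_num) h1 hS.hm22).add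
      (d.ER_y hS.hψ (by norm_num) h2 hS.hy22)).congr fun i x hx => ?_
    rw [hpd e2 i x hx, (herr i x hx).2.2, z2]
    simp only [ev]
    ring

private theorem ER_bd {ψ : Eps → ℝ × ℝ → ℝ} (hψ : OX d.A 0 2 ψ) {u : Eps → (ℝ × ℝ) × ℝ → F4}
    (hu : OT d.A 0 1 u) : ∃ g ∈ GE.mem, ∀ i, ∀ x ∈ Metric.ball (0 : ℝ × ℝ) 3,
      ‖ev ψ u i x‖ ≤ g i * i := by
  obtain ⟨g, hg, h⟩ := (Bd_ev hψ hu).bound
  refine ⟨g, hg, fun i x hx => (h i x hx).trans (le_of_eq ?_)⟩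
  rw [Amp.wt, zpow_zero, one_mul, zpow_one]

/-- derivative of a function equal to an evaluation on the square -/
private theorem ER_pd {ψ : Eps → ℝ × ℝ → ℝ} (hψ : OX d.A 0 2 ψ) {p m : ℤ}
    {u : Eps → (ℝ × ℝ) × ℝ → F4} (hu : OT d.A p m u) {G : Eps → ℝ × ℝ → F4}
    (hG : ∀ i, ∀ x ∈ Metric.ball (0 : ℝ × ℝ) 3, G i x = ev ψ u i x) (v : ℝ × ℝ) (i : Eps)
    {x : ℝ × ℝ} (hx : x ∈ Metric.ball (0 : ℝ × ℝ) 3) : pd v (G i) x = ev ψ (DD v ψ u) i x := by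
  have h1 : G i =ᶠ[nhds x] ev ψ u i := by
    filter_upwards [Metric.isOpen_ball.mem_nhds hx] with y hy
    exact hG i y hy
  rw [← pd_ev hψ hu v i hx]
  unfold pd
  rw [h1.fderiv_eq]

theorem exists_raw (hK : 2 ≤ K) (hM : K ≤ 2 * d.A.M) : ∃ Fr, d.Raw K Fr := by
  obtain ⟨FF, ψ, hE⟩ := d.state_all K hK
  have hE' := hE
  obtain ⟨m11, m12, m22, y11, y12, y22, hS⟩ := hE
  have hψ := hS.hψ
  have hV := hS.hV
  have hFF := d.OT_FF hV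
  have hW : OT d.A 1 1 (fun i q => FF i q - d.Fr.f q.1) := by
    have h1 := ((d.OT_u1).eps 1).add (hV.1.mono le_rfl (by norm_num : (0 : ℤ) + 1 ≤ 2))
    refine h1.congr fun i q _ => ?_
    rw [zpow_one]
    unfold VV
    abel
  have hD1 := d.D1_OT hV hψ
  have hD2 := d.D2_OT hV hψ
  have hD22 : OT d.A 0 0 (DD e2 ψ (DD e2 ψ FF)) := OT.DD2 hψ hD2
  -- first derivatives
  have p1 : ∀ v i, ∀ x ∈ Metric.ball (0 : ℝ × ℝ) 3, pd v (ev ψ FF i) x =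
      ev ψ (DD v ψ FF) i x := fun v i x hx => pd_ev hψ hFF v i hx
  have p2 : ∀ i, ∀ x ∈ Metric.ball (0 : ℝ × ℝ) 3, pd e2 (pd e2 (ev ψ FF i)) x =
      ev ψ (DD e2 ψ (DD e2 ψ FF)) i x := fun i x hx =>
    d.ER_pd hψ hD2 (G := fun i => pd e2 (ev ψ FF i)) (fun i x hx => p1 e2 i x hx) e2 i hx
  have p3 : ∀ i, ∀ x ∈ Metric.ball (0 : ℝ × ℝ) 3, pd e2 (pd e2 (pd e2 (ev ψ FF i))) x =
      ev ψ (DD e2 ψ (DD e2 ψ (DD e2 ψ FF))) i x := fun i x hx =>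
    d.ER_pd hψ hD22 (G := fun i => pd e2 (pd e2 (ev ψ FF i))) p2 e2 i hx
  have p21 : ∀ i, ∀ x ∈ Metric.ball (0 : ℝ × ℝ) 3, pd e2 (pd e1 (ev ψ FF i)) x =
      ev ψ (DD e2 ψ (DD e1 ψ FF)) i x := fun i x hx =>
    d.ER_pd hψ hD1 (G := fun i => pd e1 (ev ψ FF i)) (fun i x hx => p1 e1 i x hx) e2 i hx
  refine ⟨ev ψ FF, ?_, fun v w hv hw => d.ER_metric hM hE' v w hv hw, ?_, ?_⟩
  · exact (Bd_ev hψ hW).congr fun i x _ => rfl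
  · -- closeness
    have c1 : OT d.A 0 1 (fun i q => DD e2 ψ FF i q - pd e2 d.Fr.f q.1) :=
      (d.D2_sub hV hψ).mono (by norm_num) le_rfl
    have c2 : OT d.A 0 1 (fun i q => DD e2 ψ (DD e2 ψ FF) i q - pd e2 (pd e2 d.Fr.f) q.1) :=
      (d.D22_sub hV hψ).mono (by norm_num) le_rfl
    have c3 : OT d.A 0 1 (fun i q => DD e2 ψ (DD e2 ψ (DD e2 ψ FF)) i q -
        pd e2 (pd e2 (pd e2 d.Fr.f)) q.1) := by
      refine (OT.DD2 hψ c2).congr fun i q hq => ?_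
      have h1 : DD e2 ψ (fun i q => DD e2 ψ (DD e2 ψ FF) i q - pd e2 (pd e2 d.Fr.f) q.1) i q =
          DD e2 ψ (DD e2 ψ (DD e2 ψ FF)) i q -
            DD e2 ψ (fun _ q => pd e2 (pd e2 d.Fr.f) q.1) i q :=
        DD_sub hD22 d.OX_f22.toOT e2 ψ hq
      have h2 : DD e2 ψ (fun _ q => pd e2 (pd e2 d.Fr.f) q.1) i q =
          pd e2 (pd e2 (pd e2 d.Fr.f)) q.1 :=
        DD_ofX (u := fun _ => pd e2 (pd e2 d.Fr.f)) (fun i => d.OX_f22.smooth i) e2 ψ hq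
      rw [h1, h2]
    obtain ⟨g1, hg1, h1⟩ := d.ER_bd hψ c1
    obtain ⟨g2, hg2, h2⟩ := d.ER_bd hψ c2
    obtain ⟨g3, hg3, h3⟩ := d.ER_bd hψ c3
    refine ⟨fun i => g1 i * g2 i * g3 i, GE.mul _ (GE.mul _ hg1 _ hg2) _ hg3, fun i x hx => ?_⟩
    have k1 := GE.one_le g1 hg1 i
    have k2 := GE.one_le g2 hg2 i
    have k3 := GE.one_le g3 hg3 i
    have hi : (0 : ℝ) ≤ i := i.2.1.le
    have k12 : 1 ≤ g1 i * g2 i := one_le_mul_of_one_le_of_one_le k1 k2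
    refine ⟨?_, ?_, ?_⟩
    · rw [p1 e2 i x hx]
      refine (h1 i x hx).trans (mul_le_mul_of_nonneg_right ?_ hi)
      calc g1 i ≤ g1 i * g2 i := le_mul_of_one_le_right (by linarith) k2
        _ ≤ g1 i * g2 i * g3 i := le_mul_of_one_le_right (by linarith) k3
    · rw [p2 i x hx]
      refine (h2 i x hx).trans (mul_le_mul_of_nonneg_right ?_ hi)
      calc g2 i ≤ g1 i * g2 i := le_mul_of_one_le_left (by linarith) k1
        _ ≤ g1 i * g2 i * g3 i := le_mul_of_one_le_right (by linarith) k3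
    · rw [p3 i x hx]
      refine (h3 i x hx).trans (mul_le_mul_of_nonneg_right ?_ hi)
      exact le_mul_of_one_le_left (by linarith) k12
  · -- first derivative in the direction `e1`
    have c1 : OT d.A 0 1 (fun i q => DD e1 ψ FF i q - d.F0 i q) :=
      (d.D1_sub hV hψ).mono (by norm_num) le_rfl
    have hψ2 : OX d.A 0 1 (fun (i : Eps) x => (i : ℝ)⁻¹ * pd e2 (ψ i) x) := by
      have h1 := (hψ.pd e2).eps (-1)
      refine (h1.mono le_rfl (by norm_num : (1 : ℤ) ≤ 2 + -1)).congr fun i x _ => ?_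
      rw [zpow_neg_one, smul_eq_mul]
    have c2 : OT d.A 0 1 (fun i q => ((i : ℝ)⁻¹ * pd e2 (ψ i) q.1) • dT d.F0 i q) := by
      have h1 := (hψ2.toOT).smul (d.OT_F0.dT)
      exact h1.mono (by norm_num) (by norm_num)
    have c3 : OT d.A 0 1 (fun i q => DD e2 ψ (DD e1 ψ FF) i q - dX e2 d.F0 i q) := by
      refine ((OT.DD2 hψ c1).add c2).congr fun i q hq => ?_
      have h1 : DD e2 ψ (fun i q => DD e1 ψ FF i q - d.F0 i q) i q =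
          DD e2 ψ (DD e1 ψ FF) i q - DD e2 ψ d.F0 i q := DD_sub hD1 d.OT_F0 e2 ψ hq
      rw [h1]
      have h2 : DD e2 ψ d.F0 i q = dX e2 d.F0 i q +
          ((i : ℝ)⁻¹ * pd e2 (ψ i) q.1) • dT d.F0 i q := by
        simp only [DD, e2, zero_add]
      rw [h2]
      abel
    obtain ⟨g1, hg1, h1⟩ := d.ER_bd hψ c1
    obtain ⟨g3, hg3, h3⟩ := d.ER_bd hψ c3
    refine ⟨fun i => g1 i * g3 i, GE.mul _ hg1 _ hg3, fun i x => (x.1 + ψ i x) / (i : ℝ),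
      fun i x hx => ?_⟩
    have k1 := GE.one_le g1 hg1 i
    have k3 := GE.one_le g3 hg3 i
    have hi : (0 : ℝ) ≤ i := i.2.1.le
    refine ⟨?_, ?_⟩
    · rw [p1 e1 i x hx]
      refine (h1 i x hx).trans (mul_le_mul_of_nonneg_right ?_ hi)
      exact le_mul_of_one_le_right (by linarith) k3
    · rw [p21 i x hx]
      refine (h3 i x hx).trans (mul_le_mul_of_nonneg_right ?_ hi)
      exact le_mul_of_one_le_left (by linarith) k1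

end ED

end P205F.EE
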