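import Mathlib
import Vale.Agent.Lib.P205E.EC8
import Vale.Agent.Lib.P205E.EL2b

/-! # P205E module EU: consequences of the state, and the update principle -/

open scoped ContDiff
open Set

namespace P205F.EE

namespace ED

variable (d : ED)

/-- the state with existential errors -/
def StE (k11 k12 k22 j1 j2 : ℤ) (FF : Eps → (ℝ × ℝ) × ℝ → F4) (ψ : Eps → ℝ × ℝ → ℝ) : Prop :=
  ∃ m11 m12 m22 : Eps → ℝ × ℝ → ℝ, ∃ y11 y12 y22 : Eps → (ℝ × ℝ) × ℝ → ℝ,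
    d.St k11 k12 k22 j1 j2 FF ψ m11 m12 m22 y11 y12 y22

variable {FF : Eps → (ℝ × ℝ) × ℝ → F4} {ψ : Eps → ℝ × ℝ → ℝ} (hV : OP d.A 2 (d.VV FF))
  (hψ : OX d.A 0 2 ψ)

private theorem EU_mean_congr {V : Type} [NormedAddCommGroup V] [NormedSpace ℝ V]
    {u v : Eps → (ℝ × ℝ) × ℝ → V} (h : ∀ i, ∀ q ∈ ST.U i, v i q = u i q) (i : Eps) {x : ℝ × ℝ}
    (hx : x ∈ Metric.ball (0 : ℝ × ℝ) 3) : mean v i x = mean u i x := by
  unfold mean
  congr 1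
  refine intervalIntegral.integral_congr fun θ _ => ?_
  exact h i (x, θ) ⟨hx, mem_univ _⟩

private theorem EU_eq (i : Eps) (q : (ℝ × ℝ) × ℝ) :
    FF i q = (d.Fr.f q.1 + (i : ℝ) • d.u1 i q) + d.VV FF i q := by
  unfold VV
  abel

private theorem EU_eps : OT d.A 1 1 (fun i q => (i : ℝ) • d.u1 i q) := by
  refine ((d.OT_u1).eps 1).congr fun i q _ => ?_
  rw [zpow_one]

private theorem EU_base : OT d.A 0 0 (fun i q => d.Fr.f q.1 + (i : ℝ) • d.u1 i q) :=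
  (d.OX_f.toOT).add ((d.EU_eps).mono (by norm_num) (by norm_num))

include hV in
theorem OT_FF : OT d.A 0 0 FF :=
  ((d.EU_base).add (hV.1.mono (by norm_num) (by norm_num))).congr fun i q _ => d.EU_eq i q

include hV in
/-- the derivation `D_w` of the three terms of `FF` -/
private theorem EU_DD (w : ℝ × ℝ) (ψ : Eps → ℝ × ℝ → ℝ) {i : Eps} {q : (ℝ × ℝ) × ℝ}
    (hq : q ∈ ST.U i) : DD w ψ FF i q =
      pd w d.Fr.f q.1 + (i : ℝ) • dX w d.u1 i q + (w.1 + pd w (ψ i) q.1) • d.Lz i q +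
        DD w ψ (d.VV FF) i q := by
  have h1 : DD w ψ FF i q =
      DD w ψ (fun i q => (d.Fr.f q.1 + (i : ℝ) • d.u1 i q) + d.VV FF i q) i q :=
    (DD_congr (fun i q _ => d.EU_eq i q) w ψ hq).1
  have h2 : DD w ψ (fun i q => (d.Fr.f q.1 + (i : ℝ) • d.u1 i q) + d.VV FF i q) i q =
      DD w ψ (fun i q => d.Fr.f q.1 + (i : ℝ) • d.u1 i q) i q + DD w ψ (d.VV FF) i q :=
    DD_add (d.EU_base) hV.1 w ψ hq
  have h3 : DD w ψ (fun i q => d.Fr.f q.1 + (i : ℝ) • d.u1 i q) i q =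
      DD w ψ (fun _ q => d.Fr.f q.1) i q + DD w ψ (fun i q => (i : ℝ) • d.u1 i q) i q :=
    DD_add (d.OX_f.toOT) (d.EU_eps) w ψ hq
  have h4 : DD w ψ (fun _ q => d.Fr.f q.1) i q = pd w d.Fr.f q.1 :=
    DD_ofX (u := fun _ => d.Fr.f) (fun i => d.OX_f.smooth i) w ψ hq
  have h5 : DD w ψ (fun i q => (i : ℝ) • d.u1 i q) i q = (i : ℝ) • DD w ψ d.u1 i q :=
    DD_epsSmul (fun i => (i : ℝ)) (d.OT_u1) w ψ hq
  have h6 : DD w ψ d.u1 i q = dX w d.u1 i q + ((i : ℝ)⁻¹ * (w.1 + pd w (ψ i) q.1)) • d.Lz i q := by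
    unfold DD
    rw [d.dT_u1 hq]
  have hi : (i : ℝ) ≠ 0 := i.2.1.ne'
  rw [h1, h2, h3, h4, h5, h6, smul_add, smul_smul, mul_inv_cancel_left₀ hi]
  abel

include hV in
private theorem EU_dT {i : Eps} {q : (ℝ × ℝ) × ℝ}
    (hq : q ∈ ST.U i) : dT FF i q = (i : ℝ) • d.Lz i q + dT (d.VV FF) i q := by
  have h1 : dT FF i q =
      dT (fun i q => (d.Fr.f q.1 + (i : ℝ) • d.u1 i q) + d.VV FF i q) i q :=
    (DD_congr (fun i q _ => d.EU_eq i q) 0 (fun _ _ => 0) hq).2.2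
  have h2 : dT (fun i q => (d.Fr.f q.1 + (i : ℝ) • d.u1 i q) + d.VV FF i q) i q =
      dT (fun i q => d.Fr.f q.1 + (i : ℝ) • d.u1 i q) i q + dT (d.VV FF) i q :=
    dT_add (d.EU_base) hV.1 hq
  have h3 : dT (fun i q => d.Fr.f q.1 + (i : ℝ) • d.u1 i q) i q =
      dT (fun _ q => d.Fr.f q.1) i q + dT (fun i q => (i : ℝ) • d.u1 i q) i q :=
    dT_add (d.OX_f.toOT) (d.EU_eps) hq
  have h4 : dT (fun _ q => d.Fr.f q.1) i q = 0 :=
    dT_ofX (u := fun _ => d.Fr.f) (fun i => d.OX_f.smooth i) hq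
  have h5 : dT (fun i q => (i : ℝ) • d.u1 i q) i q = (i : ℝ) • dT d.u1 i q :=
    dT_epsSmul (fun i => (i : ℝ)) (d.OT_u1) hq
  rw [h1, h2, h3, h4, h5, d.dT_u1 hq, zero_add]

/-- the term `ε dX u1` -/
private theorem EU_dXu1 (w : ℝ × ℝ) : OT d.A 1 1 (fun i q => (i : ℝ) • dX w d.u1 i q) := by
  refine ((d.OT_u1.dX w).eps 1).congr fun i q _ => ?_
  rw [zpow_one]

include hψ in
private theorem EU_psiLz (w : ℝ × ℝ) : OT d.A 1 1 (fun i q => pd w (ψ i) q.1 • d.Lz i q) :=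
  (OT.smul (hψ.pd w).toOT d.OT_Lz).mono (by norm_num) (by norm_num)

include hV hψ

/-- `D_1 FF = F0 + O(1,1)` -/
theorem D1_sub : OT d.A 1 1 (fun i q => DD e1 ψ FF i q - d.F0 i q) := by
  have h1 := ((d.EU_dXu1 e1).add (d.EU_psiLz hψ e1)).add
    ((OT.DD1 hψ hV.1).mono le_rfl (by norm_num : (1 : ℤ) ≤ 2 - 1))
  refine h1.congr fun i q hq => ?_
  rw [d.EU_DD hV e1 ψ hq]
  have h2 : (e1 : ℝ × ℝ).1 = 1 := rfl
  unfold F0
  rw [h2]
  module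

theorem D1_OT : OT d.A 0 0 (DD e1 ψ FF) := by
  refine (((d.D1_sub hV hψ).mono (by norm_num) (by norm_num)).add d.OT_F0).congr
    fun i q _ => ?_
  abel

/-- `D_2 FF = f₂ + O(1,1)` -/
theorem D2_sub : OT d.A 1 1 (fun i q => DD e2 ψ FF i q - pd e2 d.Fr.f q.1) := by
  have h1 := ((d.EU_dXu1 e2).add (d.EU_psiLz hψ e2)).add
    ((OT.DD2 hψ hV.1).mono le_rfl (by norm_num : (1 : ℤ) ≤ 2))
  refine h1.congr fun i q hq => ?_
  rw [d.EU_DD hV e2 ψ hq]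
  have h2 : (e2 : ℝ × ℝ).1 = 0 := rfl
  rw [h2]
  module

theorem D2_OT : OT d.A 0 0 (DD e2 ψ FF) := by
  refine (((d.D2_sub hV hψ).mono (by norm_num) (by norm_num)).add d.OX_f2.toOT).congr
    fun i q _ => ?_
  abel

/-- `D_2 D_2 FF = f₂₂ + O(1,1)` -/
theorem D22_sub : OT d.A 1 1 (fun i q => DD e2 ψ (DD e2 ψ FF) i q - pd e2 (pd e2 d.Fr.f) q.1) := by
  refine (OT.DD2 hψ (d.D2_sub hV hψ)).congr fun i q hq => ?_
  have h1 : DD e2 ψ (fun i q => DD e2 ψ FF i q - pd e2 d.Fr.f q.1) i q =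
      DD e2 ψ (DD e2 ψ FF) i q - DD e2 ψ (fun _ q => pd e2 d.Fr.f q.1) i q :=
    DD_sub (d.D2_OT hV hψ) d.OX_f2.toOT e2 ψ hq
  have h2 : DD e2 ψ (fun _ q => pd e2 d.Fr.f q.1) i q = pd e2 (pd e2 d.Fr.f) q.1 :=
    DD_ofX (u := fun _ => pd e2 d.Fr.f) (fun i => d.OX_f2.smooth i) e2 ψ hq
  rw [h1, h2]

/-- `D_1 FF = f₁ + O(1,0)` -/
theorem D1_sub' : OT d.A 1 0 (fun i q => DD e1 ψ FF i q - pd e1 d.Fr.f q.1) := by
  refine (((d.D1_sub hV hψ).mono le_rfl (by norm_num)).add d.OT_Lz).congr fun i q _ => ?_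
  unfold F0
  abel

omit hψ in
/-- `∂_θ FF = ε Lz + (mean zero, O(1,2))` -/
theorem dT_sub : OT d.A 1 2 (fun i q => dT FF i q - (i : ℝ) • d.Lz i q) ∧
    Mz (fun i q => dT FF i q - (i : ℝ) • d.Lz i q) := by
  have h : ∀ i, ∀ q ∈ ST.U i, dT FF i q - (i : ℝ) • d.Lz i q = dT (d.VV FF) i q := by
    intro i q hq
    rw [d.EU_dT hV hq, add_sub_cancel_left]
  refine ⟨hV.1.dT.congr h, fun i x hx => ?_⟩
  rw [EU_mean_congr h i hx]
  exact mean_dT hV.1 i x hx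

omit hV hψ in
/-- subtracting the mean -/
private theorem EU_sub_mean {j : ℤ} {Y : Eps → (ℝ × ℝ) × ℝ → ℝ} (g : OT d.A 1 j Y) :
    OT d.A 1 j (fun i q => Y i q - mean Y i q.1) ∧ Mz (fun i q => Y i q - mean Y i q.1) := by
  refine ⟨g.sub g.mean.toOT, fun i x hx => ?_⟩
  have h1 : mean (fun i q => Y i q - mean Y i q.1) i x =
      mean Y i x - mean (fun i q => mean Y i q.1) i x := mean_sub g g.mean.toOT hx
  rw [h1, mean_ofX, sub_self]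

omit hV hψ in
/-- the update principle: errors `M + Y` with `Y` not necessarily of mean zero -/
theorem StE.mk' {k11 k12 k22 j1 j2 : ℤ} (hV : OP d.A 2 (d.VV FF)) (hψ : OX d.A 0 2 ψ)
    {M11 M12 M22 : Eps → ℝ × ℝ → ℝ} {Y11 Y12 Y22 : Eps → (ℝ × ℝ) × ℝ → ℝ}
    (herr : d.Err FF ψ M11 M12 M22 Y11 Y12 Y22)
    (h11 : OX d.A 2 k11 M11) (h12 : OX d.A 2 k12 M12) (h22 : OX d.A 2 k22 M22)
    (g11 : OT d.A 1 j1 Y11) (g12 : OT d.A 1 j1 Y12) (g22 : OT d.A 1 j2 Y22)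
    (n11 : OX d.A 2 k11 (mean Y11)) (n12 : OX d.A 2 k12 (mean Y12))
    (n22 : OX d.A 2 k22 (mean Y22)) :
    d.StE k11 k12 k22 j1 j2 FF ψ := by
  refine ⟨fun i x => M11 i x + mean Y11 i x, fun i x => M12 i x + mean Y12 i x,
    fun i x => M22 i x + mean Y22 i x, fun i q => Y11 i q - mean Y11 i q.1,
    fun i q => Y12 i q - mean Y12 i q.1, fun i q => Y22 i q - mean Y22 i q.1, ?_⟩
  refine ⟨hV, hψ, ?_, h11.add n11, h12.add n12, h22.add n22, (d.EU_sub_mean g11).1,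
    (d.EU_sub_mean g12).1, (d.EU_sub_mean g22).1, (d.EU_sub_mean g11).2, (d.EU_sub_mean g12).2,
    (d.EU_sub_mean g22).2⟩
  intro i q hq
  obtain ⟨a1, a2, a3⟩ := herr i q hq
  refine ⟨?_, ?_, ?_⟩
  · rw [a1]
    ring
  · rw [a2]
    ring
  · rw [a3]
    ring

omit hV hψ in
/-- adding `U ∈ O'(2)` keeps condition (A) -/
theorem VV_add {FF U : Eps → (ℝ × ℝ) × ℝ → F4} (hV : OP d.A 2 (d.VV FF)) (hU : OP d.A 2 U) :
    OP d.A 2 (d.VV (fun i q => FF i q + U i q)) := by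
  refine (hV.add hU).congr fun i q _ => ?_
  simp only [VV]
  abel

/-- the change of the metric when `U` is added -/
theorem metric_add {p m : ℤ} {U : Eps → (ℝ × ℝ) × ℝ → F4} (hU : OT d.A p m U) (v w : ℝ × ℝ)
    {i : Eps} {q : (ℝ × ℝ) × ℝ} (hq : q ∈ ST.U i) :
    inner ℝ (DD v ψ (fun i q => FF i q + U i q) i q) (DD w ψ (fun i q => FF i q + U i q) i q) =
      inner ℝ (DD v ψ FF i q) (DD w ψ FF i q) + inner ℝ (DD v ψ FF i q) (DD w ψ U i q) +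
      inner ℝ (DD w ψ FF i q) (DD v ψ U i q) + inner ℝ (DD v ψ U i q) (DD w ψ U i q) := by
  rw [DD_add (d.OT_FF hV) hU v ψ hq, DD_add (d.OT_FF hV) hU w ψ hq, inner_add_left,
    inner_add_right, inner_add_right, real_inner_comm (DD v ψ U i q) (DD w ψ FF i q)]
  ring

/-- `D_2 FF . D_2 U = D_2 (D_2 FF . U) - (D_2 D_2 FF) . U` -/
theorem D2_leib {p m : ℤ} {U : Eps → (ℝ × ℝ) × ℝ → F4} (hU : OT d.A p m U)
    {i : Eps} {q : (ℝ × ℝ) × ℝ} (hq : q ∈ ST.U i) :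
    inner ℝ (DD e2 ψ FF i q) (DD e2 ψ U i q) =
      DD e2 ψ (fun i q => inner ℝ (DD e2 ψ FF i q) (U i q)) i q -
        inner ℝ (DD e2 ψ (DD e2 ψ FF) i q) (U i q) := by
  rw [DD_inner (d.D2_OT hV hψ) hU e2 ψ hq, add_sub_cancel_left]

end ED

end P205F.EE
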