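import Vale.Agent.Lib.P205E.ER

/-! # P205E module EX2: the cut-off

`cutF i x = f x + χ x • (Fr i x - f x)`.  On `ball 0 (5/4)` it is `Fr`; where `1 < |x|` the amplitude `a` vanishes, so
`abar = ε^M` and `Fr - f` is of size `ε^(M+1)` with derivatives (setting `SO`: domain `ball 0 3 \ closedBall 0 1`). -/

open scoped ContDiff
open Set

namespace P205F.EE

/-- a cut-off function -/
theorem exists_cut : ∃ χ : ℝ × ℝ → ℝ, ContDiff ℝ ∞ χ ∧
    (∀ x ∈ Metric.closedBall (0 : ℝ × ℝ) (5 / 4), χ x = 1) ∧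
    (∀ x, x ∉ Metric.closedBall (0 : ℝ × ℝ) (7 / 4) → χ x = 0) ∧ ∀ x, 0 ≤ χ x ∧ χ x ≤ 1 := by
  let f : ContDiffBump (0 : ℝ × ℝ) := ⟨5 / 4, 7 / 4, by norm_num, by norm_num⟩
  refine ⟨f, f.contDiff, fun x hx => f.one_of_mem_closedBall hx, fun x hx => ?_,
    fun x => ⟨f.nonneg, f.le_one⟩⟩
  by_contra hne
  have h1 : x ∈ Function.support (f : ℝ × ℝ → ℝ) := hne
  rw [f.support_eq] at h1
  exact hx (Metric.ball_subset_closedBall h1)

/-- the outer domain -/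
def SO : Setting Eps (ℝ × ℝ) where
  G := GE
  U := fun _ => Metric.ball 0 3 \ Metric.closedBall 0 1
  s := fun i => i
  isOpen := fun _ => Metric.isOpen_ball.sdiff Metric.isClosed_closedBall
  s_pos := fun i => i.2.1
  s_le := fun i => i.2.2.le

/-- the cut off family -/
noncomputable def cutF (χ : ℝ × ℝ → ℝ) (f : ℝ × ℝ → F4) (Fr : Eps → ℝ × ℝ → F4) (i : Eps)
    (x : ℝ × ℝ) : F4 := f x + χ x • (Fr i x - f x)

/-- gluing of bounds -/
theorem Bd_glue {V : Type} [NormedAddCommGroup V] [NormedSpace ℝ V] {W : Eps → ℝ × ℝ → ℝ}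
    {u v w : Eps → ℝ × ℝ → V} (hu : Bd SE W u) (hv : Bd SO W v)
    (h1 : ∀ i, ∀ x ∈ Metric.ball (0 : ℝ × ℝ) (5 / 4), w i x = u i x)
    (h2 : ∀ i, ∀ x ∈ Metric.ball (0 : ℝ × ℝ) 3 \ Metric.closedBall 0 1, w i x = v i x) :
    Bd SE W w := by
  have hO : IsOpen (Metric.ball (0 : ℝ × ℝ) 3 \ Metric.closedBall 0 1) :=
    Metric.isOpen_ball.sdiff Metric.isClosed_closedBall
  have hcase : ∀ x ∈ Metric.ball (0 : ℝ × ℝ) 3, x ∈ Metric.ball (0 : ℝ × ℝ) (5 / 4) ∨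
      x ∈ Metric.ball (0 : ℝ × ℝ) 3 \ Metric.closedBall 0 1 := by
    intro x hx
    by_cases h : x ∈ Metric.closedBall (0 : ℝ × ℝ) 1
    · left
      exact Metric.closedBall_subset_ball (by norm_num) h
    · exact Or.inr ⟨hx, h⟩
  have hE1 : ∀ i, ∀ x ∈ Metric.ball (0 : ℝ × ℝ) (5 / 4), w i =ᶠ[nhds x] u i := by
    intro i x hx
    filter_upwards [Metric.isOpen_ball.mem_nhds hx] with y hy using h1 i y hy
  have hE2 : ∀ i, ∀ x ∈ Metric.ball (0 : ℝ × ℝ) 3 \ Metric.closedBall 0 1,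
      w i =ᶠ[nhds x] v i := by
    intro i x hx
    filter_upwards [hO.mem_nhds hx] with y hy using h2 i y hy
  refine ⟨fun i x hx => ?_, fun r => ?_⟩
  · rcases hcase x hx with h | h
    · exact (((hu.1 i).contDiffAt (Metric.isOpen_ball.mem_nhds hx)).congr_of_eventuallyEq
        (hE1 i x h)).contDiffWithinAt
    · exact (((hv.1 i).contDiffAt (hO.mem_nhds h)).congr_of_eventuallyEq
        (hE2 i x h)).contDiffWithinAt
  · obtain ⟨g, hg, hgb⟩ := hu.2 r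
    obtain ⟨g', hg', hgb'⟩ := hv.2 r
    refine ⟨fun i => g i + g' i, Growth.add hg hg', fun i x hx => ?_⟩
    have hW : 0 ≤ W i x := hu.nonneg i hx
    have hs : 0 ≤ (SE.s i)⁻¹ ^ r := pow_nonneg (inv_nonneg.2 (SE.s_pos i).le) r
    have h0 : 0 ≤ g i := zero_le_one.trans (GE.one_le g hg i)
    have h0' : 0 ≤ g' i := zero_le_one.trans (GE.one_le g' hg' i)
    rcases hcase x hx with h | h
    · rw [((hE1 i x h).iteratedFDeriv ℝ r).eq_of_nhds]
      refine (hgb i x hx).trans ?_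
      exact mul_le_mul_of_nonneg_right (mul_le_mul_of_nonneg_right (by linarith) hW) hs
    · rw [((hE2 i x h).iteratedFDeriv ℝ r).eq_of_nhds]
      refine (hgb' i x h).trans ?_
      exact mul_le_mul_of_nonneg_right (mul_le_mul_of_nonneg_right (by linarith) hW) hs

/-- restriction to the outer domain -/
theorem EX2_restr {V : Type} [NormedAddCommGroup V] [NormedSpace ℝ V] {W : Eps → ℝ × ℝ → ℝ}
    {u : Eps → ℝ × ℝ → V} (hu : Bd SE W u) : Bd SO W u := by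
  refine ⟨fun i => (hu.1 i).mono (fun x hx => hx.1), fun r => ?_⟩
  obtain ⟨g, hg, hgb⟩ := hu.2 r
  exact ⟨g, hg, fun i x hx => hgb i x hx.1⟩

/-- a fixed smooth function is of size one -/
theorem EX2_fixed {χ : ℝ × ℝ → ℝ} (hχ : ContDiff ℝ ∞ χ) :
    Bd SE (fun _ _ => 1) (fun _ x => χ x) := by
  refine ⟨fun i => hχ.contDiffOn, fun r => ?_⟩
  have hc : Continuous (iteratedFDeriv ℝ r χ) :=
    hχ.continuous_iteratedFDeriv (by exact_mod_cast le_top)
  obtain ⟨C, hC⟩ := (isCompact_closedBall (0 : ℝ × ℝ) 3).exists_bound_of_continuousOn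
    hc.continuousOn
  refine ⟨fun _ => max 1 C, SE.G.const _ (le_max_left _ _), fun i x hx => ?_⟩
  have h1 := hC x (Metric.ball_subset_closedBall hx)
  have h2 : 1 ≤ (SE.s i)⁻¹ ^ r :=
    one_le_pow₀ (one_le_inv_iff₀.2 ⟨SE.s_pos i, SE.s_le i⟩)
  have h3 : (0 : ℝ) ≤ max 1 C := zero_le_one.trans (le_max_left _ _)
  calc ‖iteratedFDeriv ℝ r χ x‖ ≤ max 1 C := h1.trans (le_max_right _ _)
    _ = max 1 C * 1 * 1 := by ring
    _ ≤ max 1 C * 1 * (SE.s i)⁻¹ ^ r := mul_le_mul_of_nonneg_left h2 (by linarith)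

namespace ED

variable (d : ED) {K : ℕ} (hM : K ≤ d.A.M) (ha : ∀ x, d.A.a x ≠ 0 → x ∈ Metric.closedBall (0 : ℝ × ℝ) 1)
  {Fr : Eps → ℝ × ℝ → F4} (h : d.Raw K Fr) {χ : ℝ × ℝ → ℝ} (hχ : ContDiff ℝ ∞ χ)
  (h1 : ∀ x ∈ Metric.closedBall (0 : ℝ × ℝ) (5 / 4), χ x = 1)

include ha in
theorem EX2_ab (i : Eps) {x : ℝ × ℝ} (hx : x ∉ Metric.closedBall (0 : ℝ × ℝ) 1) :
    d.A.ab i x = (i : ℝ) ^ d.A.M := by
  have h0 : d.A.a x = 0 := by
    by_contra hne
    exact hx (ha x hne)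
  unfold Amp.ab
  rw [h0]
  have h2 : (0 : ℝ) ^ 2 + (i : ℝ) ^ (2 * d.A.M) = ((i : ℝ) ^ d.A.M) ^ 2 := by
    rw [← pow_mul, mul_comm 2]
    ring
  rw [h2, Real.sqrt_sq (pow_nonneg i.2.1.le _)]

include ha h hχ in
/-- on the outer domain the correction is of size `ε^(M+1)` -/
theorem EX2_outer : Bd SO (fun i _ => (i : ℝ) ^ (d.A.M + 1)) (fun i x => χ x • (Fr i x - d.Fr.f x)) := by
  have h2 := Bd.smul (EX2_restr (EX2_fixed hχ)) (EX2_restr h.size)
  refine h2.mono (SO.G.const 1 le_rfl) fun i x hx => ?_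
  have h3 := EX2_ab d ha i hx.2
  rw [one_mul, one_mul]
  unfold Amp.wt
  rw [h3, zpow_one, zpow_one, pow_succ]

include h hχ in
theorem EX2_size : Bd SE (fun i _ => (i : ℝ)) (fun i x => cutF χ d.Fr.f Fr i x - d.Fr.f x) := by
  obtain ⟨C, hC1, hC⟩ := d.A.ab_le
  have h2 := Bd.smul (EX2_fixed hχ) h.size
  have h3 : Bd SE (fun i _ => (i : ℝ)) (fun i x => χ x • (Fr i x - d.Fr.f x)) := by
    refine h2.mono (SE.G.const C hC1) fun i x hx => ?_
    rw [one_mul]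
    unfold Amp.wt
    rw [zpow_one, zpow_one]
    exact mul_le_mul_of_nonneg_right (hC i x) i.2.1.le
  refine h3.congr fun i x _ => ?_
  unfold cutF
  rw [add_sub_cancel_left]

/-- derivatives of `f` -/
theorem EX2_f (v : ℝ × ℝ) (hv : v = e1 ∨ v = e2) :
    Bd SE (fun _ _ => (1 : ℝ)) (fun _ x => pd v d.Fr.f x) := by
  have key : ∀ w : ℝ × ℝ, OX d.A 0 0 (fun _ => pd w d.Fr.f) →
      Bd SE (fun _ _ => (1 : ℝ)) (fun _ x => pd w d.Fr.f x) := by
    intro w hw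
    refine (Bd_SE_of_OX hw).mono (SE.G.const 1 le_rfl) fun i x _ => ?_
    rw [d.A.wt_zero, one_mul]
  rcases hv with rfl | rfl
  · exact key _ d.OX_f1
  · exact key _ d.OX_f2

theorem EX2_diff_f {x : ℝ × ℝ} (hx : x ∈ Metric.ball (0 : ℝ × ℝ) 3) :
    DifferentiableAt ℝ d.Fr.f x :=
  ((d.Fr.f_sm.contDiffAt (d.Fr.O_open.mem_nhds
    (d.Fr.O_sup (Metric.ball_subset_closedBall hx)))).differentiableAt (by simp))

theorem EX2_norm_e (v : ℝ × ℝ) (hv : v = e1 ∨ v = e2) : ‖v‖ ≤ 1 := by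
  rcases hv with rfl | rfl <;> simp [e1, e2, Prod.norm_def]

include hM ha h hχ h1

/-- the metric of the cut off family -/
theorem EX2_metric (v w : ℝ × ℝ) (hv : v = e1 ∨ v = e2) (hw : w = e1 ∨ w = e2) :
    Bd SE (fun i _ => (i : ℝ) ^ K)
      (fun i x => inner ℝ (pd v (cutF χ d.Fr.f Fr i) x) (pd w (cutF χ d.Fr.f Fr i) x) -
        inner ℝ (pd v d.Fr.f x) (pd w d.Fr.f x) - d.A.a x ^ 2 * (v.1 * w.1)) := by
  have hout := EX2_outer d ha h hχ
  set Wc : Eps → ℝ × ℝ → F4 := fun i x => χ x • (Fr i x - d.Fr.f x) with hWc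
  have hpd : ∀ u : ℝ × ℝ, (u = e1 ∨ u = e2) →
      Bd SO (fun i _ => (i : ℝ) ^ d.A.M) (fun i x => pd u (Wc i) x) := by
    intro u hu
    have h2 := Bd.dir (SO.G.const 1 le_rfl) (fun _ : Eps => u) (fun _ => EX2_norm_e u hu) hout
    refine h2.mono (SO.G.const 1 le_rfl) fun i x _ => ?_
    have hi : (SO.s i) = (i : ℝ) := rfl
    rw [hi, one_mul, pow_succ, mul_assoc, mul_inv_cancel₀ i.2.1.ne', mul_one]
  have hf : ∀ u : ℝ × ℝ, (u = e1 ∨ u = e2) →
      Bd SO (fun _ _ => (1 : ℝ)) (fun _ x => pd u d.Fr.f x) := fun u hu =>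
    EX2_restr (EX2_f d u hu)
  have hout2 : Bd SO (fun i _ => (i : ℝ) ^ K) (fun i x =>
      (inner ℝ (pd v d.Fr.f x) (pd w (Wc i) x) + inner ℝ (pd v (Wc i) x) (pd w d.Fr.f x)) +
        inner ℝ (pd v (Wc i) x) (pd w (Wc i) x)) := by
    have hle : ∀ i : Eps, (i : ℝ) ^ d.A.M ≤ (i : ℝ) ^ K := fun i =>
      pow_le_pow_of_le_one i.2.1.le i.2.2.le hM
    have hle1 : ∀ i : Eps, (i : ℝ) ^ d.A.M ≤ 1 := fun i => pow_le_one₀ i.2.1.le i.2.2.le
    have t1 := (Bd.inner (hf v hv) (hpd w hw)).mono (W' := fun (i : Eps) (_ : ℝ × ℝ) => (i : ℝ) ^ K)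
      (SO.G.const 1 le_rfl) (fun i x _ => by rw [one_mul, one_mul]; exact hle i)
    have t2 := (Bd.inner (hpd v hv) (hf w hw)).mono (W' := fun (i : Eps) (_ : ℝ × ℝ) => (i : ℝ) ^ K)
      (SO.G.const 1 le_rfl) (fun i x _ => by rw [one_mul, mul_one]; exact hle i)
    have t3 := (Bd.inner (hpd v hv) (hpd w hw)).mono (W' := fun (i : Eps) (_ : ℝ × ℝ) => (i : ℝ) ^ K)
      (SO.G.const 1 le_rfl) (fun i x _ => by
        rw [one_mul]
        have h0 : 0 ≤ (i : ℝ) ^ d.A.M := pow_nonneg i.2.1.le _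
        nlinarith [hle i, hle1 i])
    exact (t1.add t2).add t3
  refine Bd_glue (h.metric v w hv hw) hout2 ?_ ?_
  · intro i x hx
    have he : cutF χ d.Fr.f Fr i =ᶠ[nhds x] Fr i := by
      filter_upwards [Metric.isOpen_ball.mem_nhds hx] with y hy
      unfold cutF
      rw [h1 y (Metric.ball_subset_closedBall hy), one_smul, add_sub_cancel]
    have hp : ∀ u : ℝ × ℝ, pd u (cutF χ d.Fr.f Fr i) x = pd u (Fr i) x := by
      intro u
      unfold pd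
      rw [he.fderiv_eq]
    rw [hp, hp]
  · intro i x hx
    have ha0 : d.A.a x = 0 := by
      by_contra hne
      exact hx.2 (ha x hne)
    have hO : IsOpen (Metric.ball (0 : ℝ × ℝ) 3 \ Metric.closedBall 0 1) :=
      Metric.isOpen_ball.sdiff Metric.isClosed_closedBall
    have hWd : DifferentiableAt ℝ (Wc i) x :=
      ((hout.1 i).contDiffAt (hO.mem_nhds hx)).differentiableAt (by simp)
    have hp : ∀ u : ℝ × ℝ, pd u (cutF χ d.Fr.f Fr i) x = pd u d.Fr.f x + pd u (Wc i) x := by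
      intro u
      have h2 : cutF χ d.Fr.f Fr i = fun y => d.Fr.f y + Wc i y := rfl
      unfold pd
      rw [h2, fderiv_fun_add (EX2_diff_f d hx.1) hWd]
      rfl
    rw [hp, hp, ha0, inner_add_left, inner_add_right, inner_add_right]
    ring

end ED

end P205F.EE
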