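import Vale.Agent.Lib.P205E.EX2
import Vale.Agent.Lib.P205E.EX1

/-! # P205E module EX3: closeness of the cut off family

On `ball 0 (5/4)` the family is `Fr` (fields `close`, `first` of `Raw`, and `EX1_close`); where `1 < |x|` use
`EX2_outer` (with `3 ≤ M`, at most three derivatives: size `ε^(M+1-3)`), `a = 0` near `x`,
`G0 ... 0 c = f₁` (`EX1_G0`). -/

open scoped ContDiff
open Set

namespace P205F.EE

theorem EX3_GE {g : Eps → ℝ} (hg : g ∈ GE.mem) :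
    ∃ C : ℝ, 0 ≤ C ∧ ∀ i : Eps, g i * i ≤ C * Real.sqrt i := by
  obtain ⟨C, hC⟩ := hg.2 (1 / 2) (by norm_num)
  refine ⟨|C|, abs_nonneg _, fun i => ?_⟩
  have hi : (0 : ℝ) < i := i.2.1
  have h1 : (i : ℝ) ^ (-(1 / 2 : ℝ)) * i = Real.sqrt i := by
    rw [Real.sqrt_eq_rpow]
    conv_lhs => rw [← Real.rpow_one (i : ℝ), ← Real.rpow_mul hi.le, ← Real.rpow_add hi]
    norm_num
  have h2 : g i ≤ |C| * (i : ℝ) ^ (-(1 / 2 : ℝ)) :=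
    (hC i).trans (by gcongr; exact le_abs_self C)
  calc g i * i ≤ |C| * (i : ℝ) ^ (-(1 / 2 : ℝ)) * i := by gcongr
    _ = |C| * Real.sqrt i := by rw [mul_assoc, h1]

section pd

variable {V : Type} [NormedAddCommGroup V] [NormedSpace ℝ V]

theorem EX3_pd_sm {f : ℝ × ℝ → V} {U : Set (ℝ × ℝ)} (hU : IsOpen U) (hf : ContDiffOn ℝ ∞ f U)
    (v : ℝ × ℝ) : ContDiffOn ℝ ∞ (pd v f) U :=
  (hf.fderiv_of_isOpen hU (by norm_cast)).clm_apply contDiffOn_const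

theorem EX3_pd_congr {f g : ℝ × ℝ → V} {U : Set (ℝ × ℝ)} (hU : IsOpen U)
    (h : ∀ y ∈ U, f y = g y) (v : ℝ × ℝ) : ∀ y ∈ U, pd v f y = pd v g y := by
  intro y hy
  unfold pd
  have h1 : f =ᶠ[nhds y] g := by
    filter_upwards [hU.mem_nhds hy] with z hz
    exact h z hz
  rw [h1.fderiv_eq]

theorem EX3_pd_add {f r F : ℝ × ℝ → V} {U : Set (ℝ × ℝ)} (hU : IsOpen U)
    (hf : ContDiffOn ℝ ∞ f U) (hr : ContDiffOn ℝ ∞ r U) (h : ∀ y ∈ U, F y = f y + r y)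
    (v : ℝ × ℝ) : ∀ y ∈ U, pd v F y = pd v f y + pd v r y := by
  intro y hy
  rw [EX3_pd_congr hU h v y hy]
  unfold pd
  have hfd : DifferentiableAt ℝ f y :=
    (hf.contDiffAt (hU.mem_nhds hy)).differentiableAt (by simp)
  have hrd : DifferentiableAt ℝ r y :=
    (hr.contDiffAt (hU.mem_nhds hy)).differentiableAt (by simp)
  have h1 : fderiv ℝ (fun y => f y + r y) y = fderiv ℝ f y + fderiv ℝ r y :=
    fderiv_fun_add hfd hrd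
  rw [h1]
  rfl

theorem EX3_pd_Bd {W : Eps → ℝ × ℝ → ℝ} {u : Eps → ℝ × ℝ → V} (hu : Bd SO W u) (v : ℝ × ℝ)
    (hv : ‖v‖ ≤ 1) : Bd SO (fun i x => W i x * (i : ℝ)⁻¹) (fun i x => pd v (u i) x) :=
  Bd.dir (S := SO) (SO.G.const 1 le_rfl) (fun _ => v) (fun _ => hv) hu

theorem EX3_val {W : Eps → ℝ × ℝ → ℝ} {u : Eps → ℝ × ℝ → V} (hu : Bd SO W u) :
    ∃ g ∈ GE.mem, ∀ i : Eps, ∀ x ∈ Metric.ball (0 : ℝ × ℝ) 3 \ Metric.closedBall 0 1,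
      ‖u i x‖ ≤ g i * W i x := by
  obtain ⟨g, hg, h⟩ := hu.2 0
  refine ⟨g, hg, fun i x hx => ?_⟩
  have h1 := h i x hx
  rw [norm_iteratedFDeriv_zero, pow_zero, mul_one] at h1
  exact h1

end pd

theorem EX3_e1 : ‖e1‖ ≤ 1 := by simp [e1, Prod.norm_def]

theorem EX3_e2 : ‖e2‖ ≤ 1 := by simp [e2, Prod.norm_def]

namespace ED

variable (d : ED) {K : ℕ} (hM : 4 ≤ d.A.M) (ha : ∀ x, d.A.a x ≠ 0 → x ∈ Metric.closedBall (0 : ℝ × ℝ) 1)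
  {Fr : Eps → ℝ × ℝ → F4} (h : d.Raw K Fr) {χ : ℝ × ℝ → ℝ} (hχ : ContDiff ℝ ∞ χ)
  (h1 : ∀ x ∈ Metric.closedBall (0 : ℝ × ℝ) (5 / 4), χ x = 1)

include hM ha h hχ

theorem EX3_outer : ∃ C : ℝ, 0 ≤ C ∧ ∀ i : Eps, ∀ x ∈ Metric.ball (0 : ℝ × ℝ) 3 \ Metric.closedBall 0 1,
    ‖pd e2 (cutF χ d.Fr.f Fr i) x - pd e2 d.Fr.f x‖ ≤ C * Real.sqrt i ∧
    ‖pd e2 (pd e2 (cutF χ d.Fr.f Fr i)) x - pd e2 (pd e2 d.Fr.f) x‖ ≤ C * Real.sqrt i ∧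
    ‖pd e2 (pd e2 (pd e2 (cutF χ d.Fr.f Fr i))) x - pd e2 (pd e2 (pd e2 d.Fr.f)) x‖ ≤
      C * Real.sqrt i ∧
    ‖pd e1 (cutF χ d.Fr.f Fr i) x - pd e1 d.Fr.f x‖ ≤ C * Real.sqrt i ∧
    ‖pd e2 (pd e1 (cutF χ d.Fr.f Fr i)) x - pd e2 (pd e1 d.Fr.f) x‖ ≤ C * Real.sqrt i := by
  set R : Eps → ℝ × ℝ → F4 := fun i x => χ x • (Fr i x - d.Fr.f x) with hR
  have b0 : Bd SO (fun i _ => (i : ℝ) ^ (d.A.M + 1)) R := d.EX2_outer ha h hχ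
  have b2 := EX3_pd_Bd b0 e2 EX3_e2
  have b22 := EX3_pd_Bd b2 e2 EX3_e2
  have b222 := EX3_pd_Bd b22 e2 EX3_e2
  have b1 := EX3_pd_Bd b0 e1 EX3_e1
  have b12 := EX3_pd_Bd b1 e2 EX3_e2
  obtain ⟨g2, hg2, k2⟩ := EX3_val b2
  obtain ⟨g22, hg22, k22⟩ := EX3_val b22
  obtain ⟨g222, hg222, k222⟩ := EX3_val b222
  obtain ⟨g1, hg1, k1⟩ := EX3_val b1
  obtain ⟨g12, hg12, k12⟩ := EX3_val b12
  obtain ⟨C2, p2, c2⟩ := EX3_GE hg2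
  obtain ⟨C22, p22, c22⟩ := EX3_GE hg22
  obtain ⟨C222, p222, c222⟩ := EX3_GE hg222
  obtain ⟨C1, p1, c1⟩ := EX3_GE hg1
  obtain ⟨C12, p12, c12⟩ := EX3_GE hg12
  set U : Set (ℝ × ℝ) := Metric.ball 0 3 \ Metric.closedBall 0 1 with hU
  have hUo : IsOpen U := Metric.isOpen_ball.sdiff Metric.isClosed_closedBall
  have hUO : U ⊆ d.Fr.O := fun x hx => d.Fr.O_sup (Metric.ball_subset_closedBall hx.1)
  have hf : ContDiffOn ℝ ∞ d.Fr.f U := d.Fr.f_sm.mono hUO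
  have hRs : ∀ i, ContDiffOn ℝ ∞ (R i) U := fun i => b0.1 i
  have hF : ∀ i, ∀ y ∈ U, cutF χ d.Fr.f Fr i y = d.Fr.f y + R i y := fun i y _ => rfl
  have q2 : ∀ i, ∀ y ∈ U, pd e2 (cutF χ d.Fr.f Fr i) y = pd e2 d.Fr.f y + pd e2 (R i) y :=
    fun i => EX3_pd_add hUo hf (hRs i) (hF i) e2
  have q22 : ∀ i, ∀ y ∈ U, pd e2 (pd e2 (cutF χ d.Fr.f Fr i)) y
      = pd e2 (pd e2 d.Fr.f) y + pd e2 (pd e2 (R i)) y :=
    fun i => EX3_pd_add hUo (EX3_pd_sm hUo hf e2) (EX3_pd_sm hUo (hRs i) e2) (q2 i) e2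
  have q222 : ∀ i, ∀ y ∈ U, pd e2 (pd e2 (pd e2 (cutF χ d.Fr.f Fr i))) y
      = pd e2 (pd e2 (pd e2 d.Fr.f)) y + pd e2 (pd e2 (pd e2 (R i))) y :=
    fun i => EX3_pd_add hUo (EX3_pd_sm hUo (EX3_pd_sm hUo hf e2) e2)
      (EX3_pd_sm hUo (EX3_pd_sm hUo (hRs i) e2) e2) (q22 i) e2
  have q1 : ∀ i, ∀ y ∈ U, pd e1 (cutF χ d.Fr.f Fr i) y = pd e1 d.Fr.f y + pd e1 (R i) y :=
    fun i => EX3_pd_add hUo hf (hRs i) (hF i) e1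
  have q12 : ∀ i, ∀ y ∈ U, pd e2 (pd e1 (cutF χ d.Fr.f Fr i)) y
      = pd e2 (pd e1 d.Fr.f) y + pd e2 (pd e1 (R i)) y :=
    fun i => EX3_pd_add hUo (EX3_pd_sm hUo hf e1) (EX3_pd_sm hUo (hRs i) e1) (q1 i) e2
  have wt : ∀ i : Eps, (i : ℝ) ^ (d.A.M + 1) * (i : ℝ)⁻¹ * (i : ℝ)⁻¹ * (i : ℝ)⁻¹ ≤ i ∧
      (i : ℝ) ^ (d.A.M + 1) * (i : ℝ)⁻¹ * (i : ℝ)⁻¹ ≤ i ∧
      (i : ℝ) ^ (d.A.M + 1) * (i : ℝ)⁻¹ ≤ i := by
    intro i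
    have hi : (0 : ℝ) < i := i.2.1
    have hi1 : (i : ℝ) ≤ 1 := i.2.2.le
    obtain ⟨m, hm⟩ : ∃ m, d.A.M = m + 4 := ⟨d.A.M - 4, by omega⟩
    have hp : (i : ℝ) ^ m ≤ 1 := pow_le_one₀ hi.le hi1
    have e5 : (i : ℝ) ^ (d.A.M + 1) = (i : ℝ) ^ m * ((i : ℝ) ^ 5) := by
      rw [hm, ← pow_add]
    have t1 : (i : ℝ) ^ (d.A.M + 1) * (i : ℝ)⁻¹ = (i : ℝ) ^ m * ((i : ℝ) ^ 4) := by
      rw [e5]; field_simp
    have t2 : (i : ℝ) ^ (d.A.M + 1) * (i : ℝ)⁻¹ * (i : ℝ)⁻¹ = (i : ℝ) ^ m * ((i : ℝ) ^ 3) := by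
      rw [t1]; field_simp
    have t3 : (i : ℝ) ^ (d.A.M + 1) * (i : ℝ)⁻¹ * (i : ℝ)⁻¹ * (i : ℝ)⁻¹
        = (i : ℝ) ^ m * ((i : ℝ) ^ 2) := by
      rw [t2]; field_simp
    rw [t3, t2, t1]
    have s : ∀ r : ℕ, 1 ≤ r → (i : ℝ) ^ m * (i : ℝ) ^ r ≤ i := by
      intro r hr
      have h3 : (i : ℝ) ^ r ≤ (i : ℝ) ^ 1 := pow_le_pow_of_le_one hi.le hi1 hr
      rw [pow_one] at h3
      have h4 : 0 ≤ (i : ℝ) ^ r := by positivity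
      nlinarith
    exact ⟨s 2 (by norm_num), s 3 (by norm_num), s 4 (by norm_num)⟩
  have fin : ∀ (g : Eps → ℝ) (C : ℝ) (i : Eps) (w : ℝ) (z : F4), g ∈ GE.mem →
      (∀ i : Eps, g i * i ≤ C * Real.sqrt i) → ‖z‖ ≤ g i * w → w ≤ i →
      C ≤ C2 + C22 + C222 + C1 + C12 →
      ‖z‖ ≤ (C2 + C22 + C222 + C1 + C12) * Real.sqrt i := by
    intro g C i w z hg hc hz hw hC
    have h3 : 0 ≤ g i := zero_le_one.trans (hg.1 i)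
    calc ‖z‖ ≤ g i * w := hz
      _ ≤ g i * i := by gcongr
      _ ≤ C * Real.sqrt i := hc i
      _ ≤ _ := by gcongr
  refine ⟨C2 + C22 + C222 + C1 + C12, by positivity, fun i x hx => ⟨?_, ?_, ?_, ?_, ?_⟩⟩
  · rw [q2 i x hx, add_sub_cancel_left]
    exact fin g2 C2 i _ _ hg2 c2 (k2 i x hx) (wt i).2.2 (by linarith)
  · rw [q22 i x hx, add_sub_cancel_left]
    exact fin g22 C22 i _ _ hg22 c22 (k22 i x hx) (wt i).2.1 (by linarith)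
  · rw [q222 i x hx, add_sub_cancel_left]
    exact fin g222 C222 i _ _ hg222 c222 (k222 i x hx) (wt i).1 (by linarith)
  · rw [q1 i x hx, add_sub_cancel_left]
    exact fin g1 C1 i _ _ hg1 c1 (k1 i x hx) (wt i).2.2 (by linarith)
  · rw [q12 i x hx, add_sub_cancel_left]
    exact fin g12 C12 i _ _ hg12 c12 (k12 i x hx) (wt i).2.1 (by linarith)

include h1

omit hM ha hχ h in
theorem EX3_inner (i : Eps) : ∀ y ∈ Metric.ball (0 : ℝ × ℝ) (5 / 4),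
    cutF χ d.Fr.f Fr i y = Fr i y := by
  intro y hy
  unfold cutF
  rw [h1 y (Metric.ball_subset_closedBall hy), one_smul]
  abel

omit hM ha hχ h h1 in
theorem EX3_cases {x : ℝ × ℝ} (hx : x ∈ Metric.ball (0 : ℝ × ℝ) 3) :
    x ∈ Metric.ball (0 : ℝ × ℝ) (5 / 4) ∨
      x ∈ Metric.ball (0 : ℝ × ℝ) 3 \ Metric.closedBall 0 1 := by
  by_cases h2 : x ∈ Metric.ball (0 : ℝ × ℝ) (5 / 4)
  · exact Or.inl h2
  · refine Or.inr ⟨hx, fun h3 => h2 ?_⟩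
    rw [Metric.mem_closedBall] at h3
    rw [Metric.mem_ball]
    linarith

theorem EX3_close : ∃ C : ℝ, ∀ i : Eps, ∀ x ∈ Metric.ball (0 : ℝ × ℝ) 3,
    ‖pd e2 (cutF χ d.Fr.f Fr i) x - pd e2 d.Fr.f x‖ ≤ C * Real.sqrt i ∧
    ‖pd e2 (pd e2 (cutF χ d.Fr.f Fr i)) x - pd e2 (pd e2 d.Fr.f) x‖ ≤ C * Real.sqrt i ∧
    ‖pd e2 (pd e2 (pd e2 (cutF χ d.Fr.f Fr i))) x - pd e2 (pd e2 (pd e2 d.Fr.f)) x‖ ≤
      C * Real.sqrt i := by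
  obtain ⟨C, hC0, hC⟩ := d.EX3_outer hM ha h hχ
  obtain ⟨g, hg, hgb⟩ := h.close
  obtain ⟨C', hC'0, hC'⟩ := EX3_GE hg
  have hB : IsOpen (Metric.ball (0 : ℝ × ℝ) (5 / 4)) := Metric.isOpen_ball
  refine ⟨C + C', fun i x hx => ?_⟩
  have hs : 0 ≤ Real.sqrt i := Real.sqrt_nonneg _
  rcases EX3_cases hx with h2 | h2
  · have r0 := d.EX3_inner (Fr := Fr) h1 i
    have r1 := EX3_pd_congr hB r0 e2
    have r2 := EX3_pd_congr hB r1 e2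
    have r3 := EX3_pd_congr hB r2 e2
    obtain ⟨a1, a2, a3⟩ := hgb i x hx
    have h3 := hC' i
    rw [r1 x h2, r2 x h2, r3 x h2]
    refine ⟨?_, ?_, ?_⟩ <;> nlinarith
  · obtain ⟨a1, a2, a3, -, -⟩ := hC i x h2
    refine ⟨?_, ?_, ?_⟩ <;> nlinarith

theorem EX3_first {tf : ℝ → ℝ} (hL : LoopTf d.Lp tf) :
    ∃ C : ℝ, ∀ i : Eps, ∀ x ∈ Metric.ball (0 : ℝ × ℝ) 3, ∃ c ∈ Icc (-1 : ℝ) 1,
    ‖pd e1 (cutF χ d.Fr.f Fr i) x - ES.G0 tf (d.Fr.yh x) (pd e1 d.Fr.f x) (pd e2 d.Fr.f x)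
      (pd e2 (pd e2 d.Fr.f) x) (d.A.a x) c‖ ≤ C * Real.sqrt i ∧
    ‖pd e2 (pd e1 (cutF χ d.Fr.f Fr i)) x - pd e2 (fun z => ES.G0 tf (d.Fr.yh z) (pd e1 d.Fr.f z)
      (pd e2 d.Fr.f z) (pd e2 (pd e2 d.Fr.f) z) (d.A.a z) c) x‖ ≤ C * Real.sqrt i := by
  obtain ⟨C, hC0, hC⟩ := d.EX3_outer hM ha h hχ
  obtain ⟨g, hg, th, hgb⟩ := h.first
  obtain ⟨C', hC'0, hC'⟩ := EX3_GE hg
  obtain ⟨C'', hC''⟩ := d.EX1_close hL (by omega)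
  have hB : IsOpen (Metric.ball (0 : ℝ × ℝ) (5 / 4)) := Metric.isOpen_ball
  refine ⟨C + C' + |C''|, fun i x hx => ?_⟩
  have hs : 0 ≤ Real.sqrt i := Real.sqrt_nonneg _
  have hab := abs_nonneg C''
  have hle := le_abs_self C''
  rcases EX3_cases hx with h2 | h2
  · refine ⟨Real.cos (th i x), ⟨Real.neg_one_le_cos _, Real.cos_le_one _⟩, ?_⟩
    have r0 := d.EX3_inner (Fr := Fr) h1 i
    have r1 := EX3_pd_congr hB r0 e1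
    have r2 := EX3_pd_congr hB r1 e2
    obtain ⟨a1, a2⟩ := hgb i x hx
    obtain ⟨b1, b2⟩ := hC'' i x hx (th i x)
    have h3 := hC' i
    rw [r1 x h2, r2 x h2]
    constructor
    · refine (norm_sub_le_norm_sub_add_norm_sub _ (d.F0 i (x, th i x)) _).trans ?_
      nlinarith
    · refine (norm_sub_le_norm_sub_add_norm_sub _ (dX e2 d.F0 i (x, th i x)) _).trans ?_
      nlinarith
  · refine ⟨0, ⟨by norm_num, by norm_num⟩, ?_⟩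
    obtain ⟨-, -, -, a1, a2⟩ := hC i x h2
    have hUo : IsOpen (Metric.ball (0 : ℝ × ℝ) 3 \ Metric.closedBall 0 1) :=
      Metric.isOpen_ball.sdiff Metric.isClosed_closedBall
    have hG : ∀ z ∈ Metric.ball (0 : ℝ × ℝ) 3 \ Metric.closedBall 0 1,
        ES.G0 tf (d.Fr.yh z) (pd e1 d.Fr.f z) (pd e2 d.Fr.f z) (pd e2 (pd e2 d.Fr.f) z) (d.A.a z) 0
          = pd e1 d.Fr.f z := by
      intro z hz
      have hz0 : d.A.a z = 0 := by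
        by_contra h3
        exact hz.2 (ha z h3)
      rw [hz0, d.EX1_G0 hL (d.Fr.O_sup (Metric.ball_subset_closedBall hz.1)) 0 0]
      simp
    rw [EX3_pd_congr hUo hG e2 x h2, hG x h2]
    constructor <;> nlinarith

end ED

end P205F.EE
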