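import Mathlib

/-! # P205E module LoopA: the mean value function and its inverse

`mm λ = (1/2π) ∫₀^{2π} (1 + λ cos²θ)^{-1/2} dθ` is smooth and strictly decreasing on `(-1/2, ∞)`,
`mm 0 = 1`, `mm' 0 = -1/4`, `mm → 0` at infinity.  Let `Λ b = mm⁻¹ ((1 + b)^{-1/2})` near `[0, ∞)`:
smooth (inverse function theorem), `Λ 0 = 0`, `Λ' 0 = 2`, `Λ > 0` on `(0, ∞)`; `h b = Λ b / b` is smooth
(`h b = ∫₀¹ Λ' (t b) dt`) and positive. -/

open scoped ContDiff
open Set

namespace P205F.EE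

private theorem LoopA_inv {φ Λ : ℝ → ℝ} {s : Set ℝ} (hs : IsOpen s) (hφ : ContDiffOn ℝ ∞ φ s)
    (hd : ∀ x ∈ s, ∃ d : ℝ, d ≠ 0 ∧ HasDerivAt φ d x) (hΛ : ∀ x ∈ s, Λ (φ x) = x) {a : ℝ}
    (ha : a ∈ s) : ContDiffAt ℝ ∞ Λ (φ a) := by
  obtain ⟨d, hd0, hda⟩ := hd a ha
  have h1 : ContDiffAt ℝ ∞ φ a := hφ.contDiffAt (hs.mem_nhds ha)
  have h2 := hda.hasFDerivAt_equiv hd0
  have hn : (∞ : WithTop ℕ∞) ≠ 0 := by simp
  have h3 := h1.to_localInverse h2 hn
  have h4 := (h1.hasStrictFDerivAt' h2 hn).localInverse_unique (g := Λ) (by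
    filter_upwards [hs.mem_nhds ha] with x hx
    exact hΛ x hx)
  exact h3.congr_of_eventuallyEq h4

/-- smoothness of parametric integrals -/
private theorem LoopA_param {F : ℝ → ℝ → ℝ} {s : Set ℝ} (hs : IsOpen s)
    (hF : ContDiffOn ℝ ∞ (fun p : ℝ × ℝ => F p.1 p.2) (s ×ˢ univ)) {a b : ℝ} (hab : a ≤ b) :
    ContDiffOn ℝ ∞ (fun x => ∫ θ in a..b, F x θ) s := by
  have hR0 : 0 < |a| + |b| + 1 := by positivity
  let χ : ContDiffBump (0 : ℝ) := ⟨|a| + |b| + 1, |a| + |b| + 2, hR0, by linarith⟩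
  have h1 := MeasureTheory.contDiffOn_convolution_right_with_param_comp (𝕜 := ℝ) (n := ⊤)
    (μ := MeasureTheory.volume) (ContinuousLinearMap.mul ℝ ℝ) (s := s) (v := fun _ : ℝ => (0 : ℝ))
    contDiffOn_const (f := (Ioc a b).indicator fun _ => (1 : ℝ))
    (g := fun x t => χ t * F x (-t)) (k := Metric.closedBall 0 (|a| + |b| + 2)) hs
    (isCompact_closedBall _ _) (fun p x _ hx => by
      have h2 : χ x = 0 := by
        refine χ.zero_of_le_dist ?_
        rw [Metric.mem_closedBall, not_le] at hx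
        exact hx.le
      rw [h2, zero_mul]) (by
      have h3 : MeasureTheory.Integrable ((Ioc a b).indicator fun _ => (1 : ℝ))
          MeasureTheory.volume := by
        rw [MeasureTheory.integrable_indicator_iff measurableSet_Ioc]
        exact (continuous_const).integrableOn_Ioc
      exact h3.locallyIntegrable) (by
      have h4 : ContDiffOn ℝ ∞ (fun p : ℝ × ℝ => χ p.2) (s ×ˢ univ) :=
        (χ.contDiff.comp contDiff_snd).contDiffOn
      have h5 : ContDiffOn ℝ ∞ (fun p : ℝ × ℝ => F p.1 (-p.2)) (s ×ˢ univ) := by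
        have h6 : ContDiffOn ℝ ∞ (fun p : ℝ × ℝ => (p.1, -p.2)) (s ×ˢ univ) :=
          (contDiff_fst.prodMk contDiff_snd.neg).contDiffOn
        exact hF.comp h6 fun p hp => ⟨hp.1, mem_univ _⟩
      exact h4.mul h5)
  refine h1.congr fun x _ => ?_
  unfold MeasureTheory.convolution
  rw [intervalIntegral.integral_of_le hab, ← MeasureTheory.integral_indicator measurableSet_Ioc]
  refine MeasureTheory.integral_congr_ae (Filter.Eventually.of_forall fun t => ?_)
  by_cases ht : t ∈ Ioc a b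
  · simp only [indicator_of_mem ht, ContinuousLinearMap.mul_apply', one_mul, zero_sub, neg_neg]
    have h7 : χ (-t) = 1 := by
      refine χ.one_of_mem_closedBall ?_
      rw [Metric.mem_closedBall, Real.dist_eq, sub_zero, abs_neg]
      show |t| ≤ |a| + |b| + 1
      rw [abs_le]
      have h8 := neg_abs_le a
      have h9 := le_abs_self b
      have h10 := abs_nonneg a
      have h11 := abs_nonneg b
      constructor
      · linarith [ht.1]
      · linarith [ht.2]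
    rw [h7, one_mul]
  · simp only [indicator_of_notMem ht, map_zero, zero_apply]

private theorem LoopA_pos {l : ℝ} (hl : -1 < l) (θ : ℝ) : 0 < 1 + l * Real.cos θ ^ 2 := by
  have h1 : Real.cos θ ^ 2 ≤ 1 := Real.cos_sq_le_one θ
  have h2 : 0 ≤ Real.cos θ ^ 2 := sq_nonneg _
  rcases h2.eq_or_lt with h3 | h3
  · rw [← h3]
    norm_num
  · nlinarith

private noncomputable def LoopA_f (l m θ : ℝ) : ℝ :=
  Real.cos θ ^ 2 / (Real.sqrt (1 + l * Real.cos θ ^ 2) * Real.sqrt (1 + m * Real.cos θ ^ 2)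
    * (Real.sqrt (1 + l * Real.cos θ ^ 2) + Real.sqrt (1 + m * Real.cos θ ^ 2)))

private noncomputable def LoopA_L (l m : ℝ) : ℝ := ∫ θ in (0 : ℝ)..(2 * Real.pi), LoopA_f l m θ

private noncomputable def LoopA_I (l : ℝ) : ℝ := ∫ θ in (0 : ℝ)..(2 * Real.pi),
  (Real.sqrt (1 + l * Real.cos θ ^ 2))⁻¹

private theorem LoopA_f_smooth {l : ℝ} (hl : -1 < l) :
    ContDiffOn ℝ ∞ (fun p : ℝ × ℝ => LoopA_f l p.1 p.2) (Ioi (-1) ×ˢ univ) := by
  have hc : ContDiff ℝ ∞ (fun p : ℝ × ℝ => Real.cos p.2 ^ 2) :=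
    (Real.contDiff_cos.comp contDiff_snd).pow 2
  have hu : ContDiffOn ℝ ∞ (fun p : ℝ × ℝ => Real.sqrt (1 + l * Real.cos p.2 ^ 2))
      (Ioi (-1) ×ˢ univ) :=
    (contDiff_const.add (contDiff_const.mul hc)).contDiffOn.sqrt
      fun p _ => (LoopA_pos hl p.2).ne'
  have hv : ContDiffOn ℝ ∞ (fun p : ℝ × ℝ => Real.sqrt (1 + p.1 * Real.cos p.2 ^ 2))
      (Ioi (-1) ×ˢ univ) :=
    (contDiff_const.add (contDiff_fst.mul hc)).contDiffOn.sqrt
      fun p hp => (LoopA_pos hp.1 p.2).ne'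
  refine hc.contDiffOn.div ((hu.mul hv).mul (hu.add hv)) fun p hp => ?_
  have h1 := Real.sqrt_pos.2 (LoopA_pos hl p.2)
  have h2 := Real.sqrt_pos.2 (LoopA_pos hp.1 p.2)
  positivity

private theorem LoopA_L_smooth {l : ℝ} (hl : -1 < l) :
    ContDiffOn ℝ ∞ (fun m => LoopA_L l m) (Ioi (-1)) :=
  LoopA_param isOpen_Ioi (LoopA_f_smooth hl) Real.two_pi_pos.le

private theorem LoopA_f_cont {l m : ℝ} (hl : -1 < l) (hm : -1 < m) :
    Continuous (fun θ => LoopA_f l m θ) := by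
  have h1 : Continuous (fun θ : ℝ => Real.cos θ ^ 2) := Real.continuous_cos.pow 2
  have hu : Continuous (fun θ : ℝ => Real.sqrt (1 + l * Real.cos θ ^ 2)) :=
    (continuous_const.add (continuous_const.mul h1)).sqrt
  have hv : Continuous (fun θ : ℝ => Real.sqrt (1 + m * Real.cos θ ^ 2)) :=
    (continuous_const.add (continuous_const.mul h1)).sqrt
  refine h1.div ((hu.mul hv).mul (hu.add hv)) fun θ => ?_
  have h1 := Real.sqrt_pos.2 (LoopA_pos hl θ)
  have h2 := Real.sqrt_pos.2 (LoopA_pos hm θ)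
  positivity

private theorem LoopA_i_cont {l : ℝ} (hl : -1 < l) :
    Continuous (fun θ : ℝ => (Real.sqrt (1 + l * Real.cos θ ^ 2))⁻¹) := by
  refine Continuous.inv₀ (continuous_const.add (continuous_const.mul
    (Real.continuous_cos.pow 2))).sqrt fun θ => ?_
  exact (Real.sqrt_pos.2 (LoopA_pos hl θ)).ne'

private theorem LoopA_L_pos {l m : ℝ} (hl : -1 < l) (hm : -1 < m) : 0 < LoopA_L l m := by
  refine intervalIntegral.integral_pos Real.two_pi_pos (LoopA_f_cont hl hm).continuousOn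
    (fun θ _ => ?_) ⟨0, ⟨le_rfl, Real.two_pi_pos.le⟩, ?_⟩
  · have h1 := Real.sqrt_pos.2 (LoopA_pos hl θ)
    have h2 := Real.sqrt_pos.2 (LoopA_pos hm θ)
    unfold LoopA_f
    positivity
  · have h1 := Real.sqrt_pos.2 (LoopA_pos hl 0)
    have h2 := Real.sqrt_pos.2 (LoopA_pos hm 0)
    unfold LoopA_f
    rw [Real.cos_zero] at *
    positivity

private theorem LoopA_I_pos {l : ℝ} (hl : -1 < l) : 0 < LoopA_I l := by
  refine intervalIntegral.integral_pos Real.two_pi_pos (LoopA_i_cont hl).continuousOn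
    (fun θ _ => ?_) ⟨0, ⟨le_rfl, Real.two_pi_pos.le⟩, ?_⟩
  · exact inv_nonneg.2 (Real.sqrt_nonneg _)
  · exact inv_pos.2 (Real.sqrt_pos.2 (LoopA_pos hl 0))

private theorem LoopA_I_sub {l m : ℝ} (hl : -1 < l) (hm : -1 < m) :
    LoopA_I l - LoopA_I m = (m - l) * LoopA_L l m := by
  unfold LoopA_I LoopA_L
  rw [← intervalIntegral.integral_const_mul, ← intervalIntegral.integral_sub
    ((LoopA_i_cont hl).intervalIntegrable _ _) ((LoopA_i_cont hm).intervalIntegrable _ _)]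
  refine intervalIntegral.integral_congr fun θ _ => ?_
  unfold LoopA_f
  have h1 := LoopA_pos hl θ
  have h2 := LoopA_pos hm θ
  have h3 := Real.sqrt_pos.2 h1
  have h4 := Real.sqrt_pos.2 h2
  have h5 := Real.sq_sqrt h1.le
  have h6 := Real.sq_sqrt h2.le
  set u := Real.sqrt (1 + l * Real.cos θ ^ 2) with hu
  set v := Real.sqrt (1 + m * Real.cos θ ^ 2) with hv
  have h7 : (m - l) * Real.cos θ ^ 2 = v ^ 2 - u ^ 2 := by rw [h5, h6]; ring
  rw [← mul_div_assoc, h7]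
  field_simp
  ring

private theorem LoopA_I_zero : LoopA_I 0 = 2 * Real.pi := by
  unfold LoopA_I
  simp

private theorem LoopA_L_zero : LoopA_L 0 0 = Real.pi / 2 := by
  unfold LoopA_L LoopA_f
  simp only [zero_mul, add_zero, Real.sqrt_one, mul_one, one_mul]
  rw [intervalIntegral.integral_div, integral_cos_sq]
  simp
  ring

private theorem LoopA_I_eq {l : ℝ} (hl : -1 < l) : LoopA_I l = 2 * Real.pi - l * LoopA_L 0 l := by
  have h1 := LoopA_I_sub (l := 0) (m := l) (by norm_num) hl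
  rw [LoopA_I_zero] at h1
  linarith

private theorem LoopA_I_smooth : ContDiffOn ℝ ∞ LoopA_I (Ioi (-1)) :=
  (contDiffOn_const.sub (contDiffOn_id.mul (LoopA_L_smooth (l := 0) (by norm_num)))).congr
    fun _ hl => LoopA_I_eq hl

private theorem LoopA_I_deriv {l : ℝ} (hl : -1 < l) : HasDerivAt LoopA_I (-LoopA_L l l) l := by
  rw [hasDerivAt_iff_tendsto_slope]
  have h1 : ContinuousAt (fun m => LoopA_L l m) l :=
    ((LoopA_L_smooth hl).continuousOn).continuousAt (isOpen_Ioi.mem_nhds hl)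
  have h2 : Filter.Tendsto (fun m => -LoopA_L l m) (nhdsWithin l {l}ᶜ) (nhds (-LoopA_L l l)) :=
    (h1.neg.tendsto).mono_left nhdsWithin_le_nhds
  refine h2.congr' ?_
  filter_upwards [nhdsWithin_le_nhds (isOpen_Ioi.mem_nhds hl), self_mem_nhdsWithin] with m hm hne
  have h3 := LoopA_I_sub hl hm
  have hne' : m - l ≠ 0 := sub_ne_zero.2 hne
  rw [slope_def_field, eq_div_iff hne']
  linarith

private theorem LoopA_I_tendsto : Filter.Tendsto LoopA_I Filter.atTop (nhds 0) := by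
  have h0 : (0 : ℝ) = ∫ _ in (0 : ℝ)..(2 * Real.pi), (0 : ℝ) := by simp
  rw [h0]
  unfold LoopA_I
  refine intervalIntegral.tendsto_integral_filter_of_dominated_convergence (fun _ => 1) ?_ ?_ ?_ ?_
  · filter_upwards [Filter.eventually_gt_atTop (-1 : ℝ)] with l hl
    exact (LoopA_i_cont hl).aestronglyMeasurable
  · filter_upwards [Filter.eventually_ge_atTop (0 : ℝ)] with l hl
    refine Filter.Eventually.of_forall fun θ _ => ?_
    rw [Real.norm_of_nonneg (inv_nonneg.2 (Real.sqrt_nonneg _))]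
    refine inv_le_one_of_one_le₀ ?_
    rw [Real.one_le_sqrt]
    have : 0 ≤ l * Real.cos θ ^ 2 := by positivity
    linarith
  · exact intervalIntegrable_const
  · have hnull : MeasureTheory.volume {θ : ℝ | Real.cos θ = 0} = 0 := by
      refine Set.Countable.measure_zero ?_ _
      have : {θ : ℝ | Real.cos θ = 0} = range (fun k : ℤ => (2 * (k : ℝ) + 1) * Real.pi / 2) := by
        ext θ
        rw [mem_ofPred_eq, Real.cos_eq_zero_iff, mem_range]
        constructor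
        · rintro ⟨k, hk⟩
          exact ⟨k, hk.symm⟩
        · rintro ⟨k, hk⟩
          exact ⟨k, hk.symm⟩
      rw [this]
      exact countable_range _
    have hae : ∀ᵐ θ : ℝ, Real.cos θ ≠ 0 := by
      rw [MeasureTheory.ae_iff]
      simpa using hnull
    filter_upwards [hae] with θ hθ _
    have h1 : 0 < Real.cos θ ^ 2 := by positivity
    have h2 : Filter.Tendsto (fun l : ℝ => 1 + l * Real.cos θ ^ 2) Filter.atTop Filter.atTop :=
      Filter.tendsto_atTop_add_const_left _ _ (Filter.Tendsto.atTop_mul_const h1 Filter.tendsto_id)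
    exact (Real.tendsto_sqrt_atTop.comp h2).inv_tendsto_atTop

private theorem LoopA_anti {l m : ℝ} (hl : -1 < l) (hm : -1 < m) (h : l < m) :
    LoopA_I m < LoopA_I l := by
  have h1 := LoopA_I_sub hl hm
  have h2 := LoopA_L_pos hl hm
  nlinarith

private theorem LoopA_inj {l m : ℝ} (hl : -1 < l) (hm : -1 < m) (h : LoopA_I l = LoopA_I m) :
    l = m := by
  rcases lt_trichotomy l m with h1 | h1 | h1
  · exact absurd h (LoopA_anti hl hm h1).ne'
  · exact h1
  · exact absurd h (LoopA_anti hm hl h1).ne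

theorem exists_loop_h : ∃ (δ : ℝ) (h : ℝ → ℝ), 0 < δ ∧ ContDiffOn ℝ ∞ h (Ioi (-δ)) ∧ h 0 = 2 ∧
    (∀ b : ℝ, 0 ≤ b → 0 < h b) ∧
    ∀ b : ℝ, 0 ≤ b → ∫ θ in (0 : ℝ)..(2 * Real.pi),
      (Real.sqrt (1 + b * h b * Real.cos θ ^ 2))⁻¹ = 2 * Real.pi * (Real.sqrt (1 + b))⁻¹ := by
  have hpi := Real.pi_pos
  -- the function `φ`
  obtain ⟨φ, hφ⟩ : ∃ φ : ℝ → ℝ, φ = fun l => (2 * Real.pi / LoopA_I l) ^ 2 - 1 := ⟨_, rfl⟩
  have hφs : ContDiffOn ℝ ∞ φ (Ioi (-1)) := by
    rw [hφ]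
    exact ((contDiffOn_const.div LoopA_I_smooth fun l hl => (LoopA_I_pos hl).ne').pow 2).sub
      contDiffOn_const
  have hφd : ∀ x ∈ Ioi (-1 : ℝ), ∃ d : ℝ, d ≠ 0 ∧ HasDerivAt φ d x := by
    intro x hx
    have h1 := LoopA_I_deriv hx
    have h2 := LoopA_I_pos hx
    have h3 := LoopA_L_pos hx hx
    have h4 : HasDerivAt (fun l => 2 * Real.pi / LoopA_I l)
        ((0 * LoopA_I x - 2 * Real.pi * (-LoopA_L x x)) / LoopA_I x ^ 2) x :=
      (hasDerivAt_const x (2 * Real.pi)).fun_div h1 h2.ne'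
    have h5 := (h4.fun_pow 2).sub_const 1
    rw [hφ]
    refine ⟨_, ?_, h5⟩
    have h6 : 0 < (0 * LoopA_I x - 2 * Real.pi * (-LoopA_L x x)) / LoopA_I x ^ 2 := by
      have : 0 * LoopA_I x - 2 * Real.pi * (-LoopA_L x x) = 2 * Real.pi * LoopA_L x x := by ring
      rw [this]
      positivity
    positivity
  have hφI : ∀ l ∈ Ioi (-1 : ℝ), ∀ m ∈ Ioi (-1 : ℝ), φ l = φ m → l = m := by
    intro l hl m hm h
    have h1 := LoopA_I_pos hl
    have h2 := LoopA_I_pos hm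
    rw [hφ] at h
    have h3 : (2 * Real.pi / LoopA_I l) ^ 2 = (2 * Real.pi / LoopA_I m) ^ 2 := by
      simpa using h
    have h4 : 2 * Real.pi / LoopA_I l = 2 * Real.pi / LoopA_I m :=
      (pow_left_inj₀ (by positivity) (by positivity) two_ne_zero).1 h3
    refine LoopA_inj hl hm ?_
    field_simp at h4
    linarith
  -- the inverse
  obtain ⟨Λ, hΛ⟩ : ∃ Λ : ℝ → ℝ, Λ = Function.invFunOn φ (Ioi (-1)) := ⟨_, rfl⟩
  have hΛφ : ∀ x ∈ Ioi (-1 : ℝ), Λ (φ x) = x := by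
    intro x hx
    have h1 : φ x ∈ φ '' Ioi (-1) := mem_image_of_mem φ hx
    have h2 : Λ (φ x) ∈ Ioi (-1 : ℝ) := by rw [hΛ]; exact Function.invFunOn_mem h1
    have h3 : φ (Λ (φ x)) = φ x := by rw [hΛ]; exact Function.invFunOn_eq h1
    exact hφI _ h2 _ hx h3
  have hφ0 : φ 0 = 0 := by
    rw [hφ]
    simp only [LoopA_I_zero]
    rw [div_self (by positivity)]
    norm_num
  have hφm : φ (-1 / 2) < 0 := by
    have h1 := LoopA_anti (l := -1 / 2) (m := 0) (by norm_num) (by norm_num) (by norm_num)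
    have h2 := LoopA_I_pos (l := -1 / 2) (by norm_num)
    rw [LoopA_I_zero] at h1
    have h3 : 2 * Real.pi / LoopA_I (-1 / 2) < 1 := by
      rw [div_lt_one h2]
      exact h1
    have h4 : 0 ≤ 2 * Real.pi / LoopA_I (-1 / 2) := by positivity
    rw [hφ]
    have h5 : (2 * Real.pi / LoopA_I (-1 / 2)) ^ 2 < 1 := pow_lt_one₀ h4 h3 two_ne_zero
    linarith
  have hsurj : ∀ b, φ (-1 / 2) < b → ∃ l ∈ Ioi (-1 : ℝ), φ l = b := by
    intro b hb
    have h1 : Filter.Tendsto φ Filter.atTop Filter.atTop := by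
      rw [hφ]
      refine Filter.tendsto_atTop_add_const_right _ _ ?_
      refine (Filter.tendsto_pow_atTop two_ne_zero).comp ?_
      have h2 : Filter.Tendsto LoopA_I Filter.atTop (nhdsWithin 0 (Ioi 0)) := by
        rw [tendsto_nhdsWithin_iff]
        refine ⟨LoopA_I_tendsto, ?_⟩
        filter_upwards [Filter.eventually_gt_atTop (-1 : ℝ)] with l hl
        exact LoopA_I_pos hl
      have h3 : Filter.Tendsto (fun l => (LoopA_I l)⁻¹) Filter.atTop Filter.atTop :=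
        h2.inv_tendsto_nhdsGT_zero
      exact h3.const_mul_atTop Real.two_pi_pos
    obtain ⟨R, hR⟩ := (h1.eventually_ge_atTop b).and (Filter.eventually_ge_atTop (0 : ℝ)) |>.exists
    have h2 : ContinuousOn φ (Icc (-1 / 2) R) := hφs.continuousOn.mono fun x hx => by
      have := hx.1
      simp only [mem_Ioi]
      linarith
    have h3 := intermediate_value_Icc (by linarith [hR.2] : (-1 / 2 : ℝ) ≤ R) h2
    obtain ⟨l, hl, hlb⟩ := h3 ⟨hb.le, hR.1⟩
    refine ⟨l, ?_, hlb⟩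
    have := hl.1
    simp only [mem_Ioi]
    linarith
  have hΛmem : ∀ b, φ (-1 / 2) < b → Λ b ∈ Ioi (-1 : ℝ) ∧ φ (Λ b) = b := by
    intro b hb
    obtain ⟨l, hl, hlb⟩ := hsurj b hb
    rw [← hlb, hΛφ l hl]
    exact ⟨hl, rfl⟩
  have hΛs : ContDiffOn ℝ ∞ Λ (Ioi (φ (-1 / 2))) := by
    intro b hb
    obtain ⟨h1, h2⟩ := hΛmem b hb
    have h3 := LoopA_inv isOpen_Ioi hφs hφd hΛφ h1
    rw [h2] at h3
    exact h3.contDiffWithinAt
  -- the quotient
  obtain ⟨ψ, hψ⟩ : ∃ ψ : ℝ → ℝ, ψ = fun l =>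
      LoopA_L 0 l * (2 * Real.pi + LoopA_I l) / LoopA_I l ^ 2 := ⟨_, rfl⟩
  have hψs : ContDiffOn ℝ ∞ ψ (Ioi (-1)) := by
    rw [hψ]
    exact ((LoopA_L_smooth (l := 0) (by norm_num)).mul (contDiffOn_const.add LoopA_I_smooth)).div
      (LoopA_I_smooth.pow 2) fun l hl => (pow_pos (LoopA_I_pos hl) 2).ne'
  have hψpos : ∀ l ∈ Ioi (-1 : ℝ), 0 < ψ l := by
    intro l hl
    have h1 := LoopA_I_pos hl
    have h2 := LoopA_L_pos (l := 0) (by norm_num) hl
    rw [hψ]
    positivity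
  have hφψ : ∀ l ∈ Ioi (-1 : ℝ), φ l = l * ψ l := by
    intro l hl
    have h1 := LoopA_I_pos hl
    have h2 : l * LoopA_L 0 l = 2 * Real.pi - LoopA_I l := by
      rw [LoopA_I_eq hl]; ring
    rw [hφ, hψ]
    have h3 : l * (LoopA_L 0 l * (2 * Real.pi + LoopA_I l) / LoopA_I l ^ 2)
        = (l * LoopA_L 0 l) * (2 * Real.pi + LoopA_I l) / LoopA_I l ^ 2 := by ring
    rw [h3, h2]
    field_simp
    ring
  have hbh : ∀ b, φ (-1 / 2) < b → b * (ψ (Λ b))⁻¹ = Λ b := by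
    intro b hb
    obtain ⟨h1, h2⟩ := hΛmem b hb
    have h3 := hψpos _ h1
    have h4 := hφψ _ h1
    rw [h2] at h4
    rw [← div_eq_mul_inv, div_eq_iff h3.ne']
    exact h4
  have hΛ0 : Λ 0 = 0 := by
    have h1 := hΛφ 0 (by norm_num)
    rwa [hφ0] at h1
  refine ⟨-φ (-1 / 2), fun b => (ψ (Λ b))⁻¹, by linarith, ?_, ?_, ?_, ?_⟩
  · rw [neg_neg]
    exact (hψs.comp hΛs fun b hb => (hΛmem b hb).1).inv fun b hb => (hψpos _ (hΛmem b hb).1).ne'
  · beta_reduce
    rw [hΛ0, hψ]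
    simp only [LoopA_I_zero, LoopA_L_zero]
    field_simp
    ring
  · intro b hb
    exact inv_pos.2 (hψpos _ (hΛmem b (by linarith)).1)
  · intro b hb
    obtain ⟨h1, h2⟩ := hΛmem b (by linarith)
    beta_reduce
    rw [hbh b (by linarith)]
    show LoopA_I (Λ b) = _
    have h3 := LoopA_I_pos h1
    rw [hφ] at h2
    have h4 : (2 * Real.pi / LoopA_I (Λ b)) ^ 2 = 1 + b := by
      have h5 : (2 * Real.pi / LoopA_I (Λ b)) ^ 2 - 1 = b := h2
      linarith
    have h6 : Real.sqrt (1 + b) = 2 * Real.pi / LoopA_I (Λ b) := by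
      rw [← h4]
      exact Real.sqrt_sq (by positivity)
    rw [h6]
    field_simp

end P205F.EE
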