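import Mathlib
import Vale.Agent.Lib.P205E.EDefs
import Vale.Agent.Lib.P205E.LoopA

/-! # P205E module LoopB: the loops

With `b = α²/ζ²`, `S₁ = √(1+b)`, `S₂ = √(1 + b h(b) c²)`:
`Xt = (1/ζ) (1 - h(b) c²) / (S₂ (S₁ + S₂))`, `Yt = S₁ √(h b) c / S₂`, so `ζ + α² Xt = ζ S₁ / S₂`,
`α Yt = α S₁ √h c / S₂`.  `XA = ∂_α (ζ + α² Xt)`, `YA = ∂_α (α Yt)`; `circA` is the derivative of `circ` in `α`
(times 1/2); the means of `XA`, `YA` are the `α`-derivatives of the constant means of `ζ + α² Xt`, `α Yt`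
(`mXt` holds for `α ≠ 0` by `exists_loop_h`, for `α = 0` because `h 0 = 2`; `mYt` by the symmetry
`θ ↦ π - θ` and periodicity). -/

open scoped ContDiff
open Set

namespace P205F.EE

private noncomputable def loopB_b (p : ℝ × ℝ × ℝ) : ℝ := p.1 ^ 2 / p.2.1 ^ 2

private noncomputable def loopB_S1 (p : ℝ × ℝ × ℝ) : ℝ := Real.sqrt (1 + loopB_b p)

private noncomputable def loopB_S2 (h : ℝ → ℝ) (p : ℝ × ℝ × ℝ) : ℝ :=
  Real.sqrt (1 + loopB_b p * h (loopB_b p) * p.2.2 ^ 2)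

private noncomputable def loopB_Xt (h : ℝ → ℝ) (p : ℝ × ℝ × ℝ) : ℝ :=
  (p.2.1)⁻¹ * ((1 - h (loopB_b p) * p.2.2 ^ 2) /
    (loopB_S2 h p * (loopB_S1 p + loopB_S2 h p)))

private noncomputable def loopB_Yt (h : ℝ → ℝ) (p : ℝ × ℝ × ℝ) : ℝ :=
  loopB_S1 p * Real.sqrt (h (loopB_b p)) * p.2.2 / loopB_S2 h p

private noncomputable def loopB_X (h : ℝ → ℝ) (p : ℝ × ℝ × ℝ) : ℝ :=
  p.2.1 + p.1 ^ 2 * loopB_Xt h p

private noncomputable def loopB_Y (h : ℝ → ℝ) (p : ℝ × ℝ × ℝ) : ℝ :=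
  p.1 * loopB_Yt h p

private theorem loopB_open : IsOpen {p : ℝ × ℝ × ℝ | 0 < p.2.1} :=
  isOpen_lt continuous_const (continuous_fst.comp continuous_snd)

private theorem loopB_b_nonneg (p : ℝ × ℝ × ℝ) : 0 ≤ loopB_b p := by
  unfold loopB_b; positivity

private theorem loopB_b_sm : ContDiffOn ℝ ∞ loopB_b {p | 0 < p.2.1} := by
  unfold loopB_b
  refine ContDiffOn.div (by fun_prop) (by fun_prop) ?_
  intro p hp
  exact pow_ne_zero 2 (ne_of_gt hp)

private theorem loopB_S1_sm : ContDiffOn ℝ ∞ loopB_S1 {p | 0 < p.2.1} := by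
  unfold loopB_S1
  refine ContDiffOn.sqrt (contDiffOn_const.add loopB_b_sm) ?_
  intro p hp
  have := loopB_b_nonneg p
  positivity

private theorem loopB_S1_pos (p : ℝ × ℝ × ℝ) : 0 < loopB_S1 p := by
  have := loopB_b_nonneg p
  exact Real.sqrt_pos.2 (by linarith)

private theorem loopB_S1_sq (p : ℝ × ℝ × ℝ) : loopB_S1 p ^ 2 = 1 + loopB_b p := by
  have := loopB_b_nonneg p
  exact Real.sq_sqrt (by linarith)

section

variable (h : ℝ → ℝ) (δ : ℝ) (hδ : 0 < δ) (hs : ContDiffOn ℝ ∞ h (Ioi (-δ)))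
  (hp : ∀ b : ℝ, 0 ≤ b → 0 < h b)

include hp in
private theorem loopB_arg_pos (p : ℝ × ℝ × ℝ) :
    0 < 1 + loopB_b p * h (loopB_b p) * p.2.2 ^ 2 := by
  have h1 := loopB_b_nonneg p
  have h2 := hp _ h1
  positivity

include hp in
private theorem loopB_S2_pos (p : ℝ × ℝ × ℝ) : 0 < loopB_S2 h p :=
  Real.sqrt_pos.2 (loopB_arg_pos h hp p)

include hp in
private theorem loopB_S2_sq (p : ℝ × ℝ × ℝ) :
    loopB_S2 h p ^ 2 = 1 + loopB_b p * h (loopB_b p) * p.2.2 ^ 2 :=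
  Real.sq_sqrt (loopB_arg_pos h hp p).le

include hδ hs in
private theorem loopB_h_sm : ContDiffOn ℝ ∞ (fun p => h (loopB_b p)) {p | 0 < p.2.1} := by
  refine hs.comp loopB_b_sm ?_
  intro p _
  have := loopB_b_nonneg p
  exact mem_Ioi.2 (by linarith)

include hδ hs hp in
private theorem loopB_S2_sm : ContDiffOn ℝ ∞ (loopB_S2 h) {p | 0 < p.2.1} := by
  unfold loopB_S2
  refine ContDiffOn.sqrt (contDiffOn_const.add ((loopB_b_sm.mul (loopB_h_sm h δ hδ hs)).mul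
    (by fun_prop))) ?_
  intro p _
  exact (loopB_arg_pos h hp p).ne'

include hδ hs hp in
private theorem loopB_Xt_sm : ContDiffOn ℝ ∞ (loopB_Xt h) {p | 0 < p.2.1} := by
  unfold loopB_Xt
  refine ContDiffOn.mul (ContDiffOn.inv (by fun_prop) ?_) (ContDiffOn.div ?_ ?_ ?_)
  · intro p hp
    exact ne_of_gt hp
  · exact contDiffOn_const.sub ((loopB_h_sm h δ hδ hs).mul (by fun_prop))
  · exact (loopB_S2_sm h δ hδ hs hp).mul (loopB_S1_sm.add (loopB_S2_sm h δ hδ hs hp))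
  · intro p _
    have h1 := loopB_S2_pos h hp p
    have h2 := loopB_S1_pos p
    positivity

include hδ hs hp in
private theorem loopB_Yt_sm : ContDiffOn ℝ ∞ (loopB_Yt h) {p | 0 < p.2.1} := by
  unfold loopB_Yt
  refine ContDiffOn.div ((loopB_S1_sm.mul ((loopB_h_sm h δ hδ hs).sqrt ?_)).mul (by fun_prop))
    (loopB_S2_sm h δ hδ hs hp) ?_
  · intro p _
    exact (hp _ (loopB_b_nonneg p)).ne'
  · intro p _
    exact (loopB_S2_pos h hp p).ne'

include hδ hs hp in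
private theorem loopB_X_sm : ContDiffOn ℝ ∞ (loopB_X h) {p | 0 < p.2.1} := by
  unfold loopB_X
  exact ContDiffOn.add (by fun_prop) (ContDiffOn.mul (by fun_prop) (loopB_Xt_sm h δ hδ hs hp))

include hδ hs hp in
private theorem loopB_Y_sm : ContDiffOn ℝ ∞ (loopB_Y h) {p | 0 < p.2.1} := by
  unfold loopB_Y
  exact ContDiffOn.mul (by fun_prop) (loopB_Yt_sm h δ hδ hs hp)

include hp in
private theorem loopB_X_eq (p : ℝ × ℝ × ℝ) (hz : 0 < p.2.1) :
    loopB_X h p = p.2.1 * loopB_S1 p / loopB_S2 h p := by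
  have h1 := loopB_S1_pos p
  have h2 := loopB_S2_pos h hp p
  have h3 := loopB_S1_sq p
  have h4 := loopB_S2_sq h hp p
  have h5 : p.1 ^ 2 = p.2.1 ^ 2 * loopB_b p := by
    unfold loopB_b
    field_simp
  unfold loopB_X loopB_Xt
  rw [h5]
  have h6 : loopB_b p * (1 - h (loopB_b p) * p.2.2 ^ 2) = loopB_S1 p ^ 2 - loopB_S2 h p ^ 2 := by
    rw [h3, h4]; ring
  have h7 : loopB_S1 p + loopB_S2 h p ≠ 0 := by positivity
  have h8 : p.2.1 ^ 2 * loopB_b p * ((p.2.1)⁻¹ * ((1 - h (loopB_b p) * p.2.2 ^ 2) /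
      (loopB_S2 h p * (loopB_S1 p + loopB_S2 h p)))) =
      p.2.1 * ((loopB_b p * (1 - h (loopB_b p) * p.2.2 ^ 2)) /
      (loopB_S2 h p * (loopB_S1 p + loopB_S2 h p))) := by
    field_simp
  rw [h8, h6]
  field_simp
  ring

include hp in
private theorem loopB_circ (p : ℝ × ℝ × ℝ) (hz : 0 < p.2.1) :
    loopB_X h p ^ 2 + loopB_Y h p ^ 2 = p.2.1 ^ 2 + p.1 ^ 2 := by
  have h1 := loopB_S1_pos p
  have h2 := loopB_S2_pos h hp p
  have h3 := loopB_S1_sq p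
  have h4 := loopB_S2_sq h hp p
  have h5 : p.1 ^ 2 = p.2.1 ^ 2 * loopB_b p := by
    unfold loopB_b
    field_simp
  have h6 : Real.sqrt (h (loopB_b p)) ^ 2 = h (loopB_b p) :=
    Real.sq_sqrt (hp _ (loopB_b_nonneg p)).le
  rw [loopB_X_eq h hp p hz]
  have h7 : loopB_Y h p ^ 2 = p.1 ^ 2 * (loopB_S1 p ^ 2 * Real.sqrt (h (loopB_b p)) ^ 2 *
      p.2.2 ^ 2) / loopB_S2 h p ^ 2 := by
    unfold loopB_Y loopB_Yt
    field_simp
  rw [h7, h6, h5, div_pow, mul_pow, h3, ← add_div, div_eq_iff (pow_ne_zero 2 h2.ne'), h4]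
  ring

end

/-- derivative in the first variable -/
private theorem loopB_hasDeriv {G : ℝ × ℝ × ℝ → ℝ} (hG : ContDiffOn ℝ ∞ G {p | 0 < p.2.1})
    (α ζ c : ℝ) (hz : 0 < ζ) :
    HasDerivAt (fun t => G (t, ζ, c)) (fderiv ℝ G (α, ζ, c) (1, 0, 0)) α := by
  have h1 : ContDiffAt ℝ ∞ G (α, ζ, c) :=
    hG.contDiffAt (loopB_open.mem_nhds hz)
  have h2 : HasFDerivAt G (fderiv ℝ G (α, ζ, c)) (α, ζ, c) :=
    (h1.differentiableAt (by norm_num)).hasFDerivAt
  have h3 : HasDerivAt (fun t : ℝ => ((t, ζ, c) : ℝ × ℝ × ℝ)) (1, 0, 0) α :=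
    (hasDerivAt_id α).prodMk (hasDerivAt_const α (ζ, c))
  exact h2.comp_hasDerivAt α h3

private theorem loopB_deriv_sm {G : ℝ × ℝ × ℝ → ℝ} (hG : ContDiffOn ℝ ∞ G {p | 0 < p.2.1}) :
    ContDiffOn ℝ ∞ (fun p => fderiv ℝ G p (1, 0, 0)) {p | 0 < p.2.1} :=
  (hG.fderiv_of_isOpen loopB_open (by norm_num)).clm_apply contDiffOn_const

/-- odd functions of `cos θ` have mean zero -/
private theorem loopB_odd (f : ℝ → ℝ) (hf : ∀ c, f (-c) = -f c) :
    ∫ θ in (0 : ℝ)..(2 * Real.pi), f (Real.cos θ) = 0 := by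
  have h1 : Function.Periodic (fun θ => f (Real.cos θ)) (2 * Real.pi) := by
    intro θ
    simp only [Real.cos_add_two_pi]
  have h2 : ∫ θ in (0 : ℝ)..(2 * Real.pi), f (Real.cos (θ + Real.pi)) =
      ∫ θ in (0 + Real.pi)..(2 * Real.pi + Real.pi), f (Real.cos θ) :=
    intervalIntegral.integral_comp_add_right (fun θ => f (Real.cos θ)) Real.pi
  have h3 : ∫ θ in (0 + Real.pi)..(2 * Real.pi + Real.pi), f (Real.cos θ) =
      ∫ θ in (0 : ℝ)..(2 * Real.pi), f (Real.cos θ) := by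
    have := h1.intervalIntegral_add_eq Real.pi 0
    rw [zero_add] at this
    rw [zero_add, ← this, add_comm Real.pi]
  have h4 : ∫ θ in (0 : ℝ)..(2 * Real.pi), f (Real.cos (θ + Real.pi)) =
      -∫ θ in (0 : ℝ)..(2 * Real.pi), f (Real.cos θ) := by
    simp only [Real.cos_add_pi, hf, intervalIntegral.integral_neg]
  linarith

private theorem loopB_neg_arg (h : ℝ → ℝ) (α ζ c : ℝ) :
    loopB_Yt h (α, ζ, -c) = -loopB_Yt h (α, ζ, c) := by
  simp only [loopB_Yt, loopB_S1, loopB_S2, loopB_b, neg_sq]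
  ring

/-- the loop with its formula: `tf t = t √(h (t²))` -/
theorem exists_loop_tf' : ∃ (tf : ℝ → ℝ) (L : Loop), ContDiff ℝ ∞ tf ∧ tf 0 = 0 ∧
    ∀ α ζ c : ℝ, 0 < ζ → ζ + α ^ 2 * L.Xt (α, ζ, c) =
      Real.sqrt (ζ ^ 2 + α ^ 2) * (Real.sqrt (1 + tf (α / ζ) ^ 2 * c ^ 2))⁻¹ ∧
    α * L.Yt (α, ζ, c) =
      Real.sqrt (ζ ^ 2 + α ^ 2) * (Real.sqrt (1 + tf (α / ζ) ^ 2 * c ^ 2))⁻¹ * (tf (α / ζ) * c) := by
  obtain ⟨δ, h, hδ, hs, h0, hp, hm⟩ := exists_loop_h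
  have hXs := loopB_X_sm h δ hδ hs hp
  have hYs := loopB_Y_sm h δ hδ hs hp
  -- the mean of `X`
  have hmX : ∀ α ζ : ℝ, 0 < ζ →
      ∫ θ in (0 : ℝ)..(2 * Real.pi), loopB_X h (α, ζ, Real.cos θ) = 2 * Real.pi * ζ := by
    intro α ζ hz
    have e1 : ∀ θ, loopB_X h (α, ζ, Real.cos θ) = (ζ * Real.sqrt (1 + α ^ 2 / ζ ^ 2)) *
        (Real.sqrt (1 + α ^ 2 / ζ ^ 2 * h (α ^ 2 / ζ ^ 2) * Real.cos θ ^ 2))⁻¹ := by
      intro θ
      rw [loopB_X_eq h hp _ hz, div_eq_mul_inv]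
      rfl
    simp only [e1]
    rw [intervalIntegral.integral_const_mul, hm _ (by positivity)]
    have e2 : Real.sqrt (1 + α ^ 2 / ζ ^ 2) ≠ 0 := by positivity
    field_simp
  have hcont : ∀ (G : ℝ × ℝ × ℝ → ℝ), ContDiffOn ℝ ∞ G {p | 0 < p.2.1} → ∀ α ζ : ℝ, 0 < ζ →
      Continuous (fun θ => G (α, ζ, Real.cos θ)) := by
    intro G hG α ζ hz
    have e1 : ContinuousOn G {p | 0 < p.2.1} := hG.continuousOn
    exact e1.comp_continuous (by fun_prop) (fun θ => hz)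
  refine ⟨fun t => t * Real.sqrt (h (t ^ 2)), ⟨loopB_Xt h, loopB_Yt h, fun p => fderiv ℝ (loopB_X h) p (1, 0, 0),
    fun p => fderiv ℝ (loopB_Y h) p (1, 0, 0), loopB_Xt_sm h δ hδ hs hp,
    loopB_Yt_sm h δ hδ hs hp, loopB_deriv_sm hXs, loopB_deriv_sm hYs, ?_, ?_, ?_, ?_, ?_, ?_⟩, ?_, by simp, ?_⟩
  · intro α ζ c hz
    exact loopB_circ h hp (α, ζ, c) hz
  · intro α ζ c hz
    have e1 := loopB_hasDeriv hXs α ζ c hz
    have e2 := loopB_hasDeriv hYs α ζ c hz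
    have e3 : HasDerivAt (fun t => loopB_X h (t, ζ, c) ^ 2 + loopB_Y h (t, ζ, c) ^ 2)
        (2 * loopB_X h (α, ζ, c) * fderiv ℝ (loopB_X h) (α, ζ, c) (1, 0, 0) +
          2 * loopB_Y h (α, ζ, c) * fderiv ℝ (loopB_Y h) (α, ζ, c) (1, 0, 0)) α := by
      have := (e1.pow 2).add (e2.pow 2)
      simp only [Nat.cast_ofNat, Nat.add_one_sub_one, pow_one] at this
      exact this
    have e4 : HasDerivAt (fun t => loopB_X h (t, ζ, c) ^ 2 + loopB_Y h (t, ζ, c) ^ 2)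
        (2 * α) α := by
      have e5 : (fun t => loopB_X h (t, ζ, c) ^ 2 + loopB_Y h (t, ζ, c) ^ 2) =
          fun t => ζ ^ 2 + t ^ 2 := by
        funext t
        exact loopB_circ h hp (t, ζ, c) hz
      rw [e5]
      have := (hasDerivAt_id α).pow 2
      simpa using this.const_add (ζ ^ 2)
    have e6 := e3.unique e4
    have e7 : loopB_X h (α, ζ, c) * fderiv ℝ (loopB_X h) (α, ζ, c) (1, 0, 0) +
        loopB_Y h (α, ζ, c) * fderiv ℝ (loopB_Y h) (α, ζ, c) (1, 0, 0) = α := by linarith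
    exact e7
  · intro α ζ hz
    rcases eq_or_ne α 0 with rfl | hα
    · have e1 : ∀ θ, loopB_Xt h (0, ζ, Real.cos θ) = -(ζ⁻¹ * 2⁻¹) * Real.cos (2 * θ) := by
        intro θ
        have e2 : loopB_b ((0 : ℝ), ζ, Real.cos θ) = 0 := by simp [loopB_b]
        have e3 : loopB_S1 ((0 : ℝ), ζ, Real.cos θ) = 1 := by
          rw [loopB_S1, e2]; simp
        have e4 : loopB_S2 h ((0 : ℝ), ζ, Real.cos θ) = 1 := by
          rw [loopB_S2, e2]; simp
        rw [loopB_Xt, e2, e3, e4, h0, Real.cos_two_mul]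
        ring
      simp only [e1]
      rw [intervalIntegral.integral_const_mul,
        intervalIntegral.integral_comp_mul_left (fun x => Real.cos x) (two_ne_zero)]
      rw [integral_cos]
      have e5 : Real.sin (2 * (2 * Real.pi)) = 0 := by
        have := Real.sin_nat_mul_pi 4
        rw [← this]
        congr 1
        push_cast
        ring
      rw [e5]
      simp
    · have e1 := hmX α ζ hz
      have e2 : ∀ θ, loopB_Xt h (α, ζ, Real.cos θ) =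
          (α ^ 2)⁻¹ * (loopB_X h (α, ζ, Real.cos θ) - ζ) := by
        intro θ
        have e3 : α ^ 2 ≠ 0 := pow_ne_zero 2 hα
        have e4 : loopB_X h (α, ζ, Real.cos θ) = ζ + α ^ 2 * loopB_Xt h (α, ζ, Real.cos θ) := rfl
        rw [e4]
        field_simp
        ring
      have e3 : IntervalIntegrable (fun θ => loopB_X h (α, ζ, Real.cos θ)) MeasureTheory.volume
          0 (2 * Real.pi) := (hcont _ hXs α ζ hz).intervalIntegrable _ _
      simp only [e2]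
      rw [intervalIntegral.integral_const_mul, intervalIntegral.integral_sub e3 (by simp), e1]
      simp
  · intro α ζ _
    exact loopB_odd (fun c => loopB_Yt h (α, ζ, c)) (fun c => loopB_neg_arg h α ζ c)
  · intro α ζ hz
    have hK : IsCompact (Icc (α - 1) (α + 1) ×ˢ (({ζ} : Set ℝ) ×ˢ Icc (-1 : ℝ) 1)) :=
      isCompact_Icc.prod (isCompact_singleton.prod isCompact_Icc)
    have hKs : Icc (α - 1) (α + 1) ×ˢ (({ζ} : Set ℝ) ×ˢ Icc (-1 : ℝ) 1) ⊆
        {p : ℝ × ℝ × ℝ | 0 < p.2.1} := by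
      rintro ⟨a, z, c⟩ ⟨_, hz', _⟩
      have : z = ζ := hz'
      simpa [this] using hz
    obtain ⟨M, hM⟩ := hK.exists_bound_of_continuousOn
      ((loopB_deriv_sm hXs).continuousOn.mono hKs)
    have key := intervalIntegral.hasDerivAt_integral_of_dominated_loc_of_deriv_le
      (μ := MeasureTheory.volume) (a := 0) (b := 2 * Real.pi) (bound := fun _ => M)
      (F := fun t θ => loopB_X h (t, ζ, Real.cos θ))
      (F' := fun t θ => fderiv ℝ (loopB_X h) (t, ζ, Real.cos θ) (1, 0, 0)) (x₀ := α)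
      (s := Icc (α - 1) (α + 1)) (Icc_mem_nhds (by linarith) (by linarith))
      (Filter.Eventually.of_forall fun t =>
        (hcont _ hXs t ζ hz).aestronglyMeasurable)
      ((hcont _ hXs α ζ hz).intervalIntegrable _ _)
      ((hcont _ (loopB_deriv_sm hXs) α ζ hz).aestronglyMeasurable)
      (Filter.Eventually.of_forall fun θ _ t ht =>
        hM (t, ζ, Real.cos θ) ⟨ht, rfl, Real.neg_one_le_cos θ, Real.cos_le_one θ⟩)
      (by simp)
      (Filter.Eventually.of_forall fun θ _ t _ => loopB_hasDeriv hXs t ζ _ hz)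
    have e1 : (fun t => ∫ θ in (0 : ℝ)..(2 * Real.pi), loopB_X h (t, ζ, Real.cos θ)) =
        fun _ => 2 * Real.pi * ζ := by
      funext t
      exact hmX t ζ hz
    have e2 := key.2
    rw [e1] at e2
    exact e2.unique (hasDerivAt_const α _)
  · intro α ζ hz
    refine loopB_odd (fun c => fderiv ℝ (loopB_Y h) (α, ζ, c) (1, 0, 0)) fun c => ?_
    have e1 := loopB_hasDeriv hYs α ζ (-c) hz
    have e2 := (loopB_hasDeriv hYs α ζ c hz).neg
    have e3 : (fun t => loopB_Y h (t, ζ, -c)) = -(fun t => loopB_Y h (t, ζ, c)) := by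
      funext t
      have := loopB_neg_arg h t ζ c
      simp only [loopB_Y, Pi.neg_apply, this]
      ring
    rw [e3] at e1
    exact e1.unique e2
  · have e1 : ContDiff ℝ ∞ fun t : ℝ => h (t ^ 2) := by
      rw [← contDiffOn_univ]
      refine hs.comp (by fun_prop) ?_
      intro t _
      exact mem_Ioi.2 (by nlinarith [sq_nonneg t])
    exact contDiff_id.mul (e1.sqrt fun t => (hp _ (sq_nonneg t)).ne')
  · intro α ζ c hz
    have hz0 : ζ ≠ 0 := hz.ne'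
    have e1 : α ^ 2 / ζ ^ 2 = (α / ζ) ^ 2 := by rw [div_pow]
    have e2 : Real.sqrt (h ((α / ζ) ^ 2)) ^ 2 = h ((α / ζ) ^ 2) :=
      Real.sq_sqrt (hp _ (sq_nonneg _)).le
    have e3 : loopB_S2 h (α, ζ, c) =
        Real.sqrt (1 + (α / ζ * Real.sqrt (h ((α / ζ) ^ 2))) ^ 2 * c ^ 2) := by
      simp only [loopB_S2, loopB_b, e1, mul_pow, e2]
    have e4 : Real.sqrt (ζ ^ 2 + α ^ 2) = ζ * loopB_S1 (α, ζ, c) := by
      have e5 : ζ ^ 2 + α ^ 2 = ζ ^ 2 * (1 + α ^ 2 / ζ ^ 2) := by field_simp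
      simp only [loopB_S1, loopB_b]
      rw [e5, Real.sqrt_mul (sq_nonneg ζ), Real.sqrt_sq hz.le]
    have e6 := loopB_X_eq h hp (α, ζ, c) hz
    refine ⟨?_, ?_⟩
    · show loopB_X h (α, ζ, c) = _
      rw [e6, ← e3, e4]
      rfl
    · show α * loopB_Yt h (α, ζ, c) = _
      rw [← e3, e4]
      simp only [loopB_Yt]
      have e7 : loopB_b (α, ζ, c) = (α / ζ) ^ 2 := by simp only [loopB_b, e1]
      rw [e7]
      field_simp

theorem exists_loop : Nonempty Loop := by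
  obtain ⟨_, L, _⟩ := exists_loop_tf'
  exact ⟨L⟩

end P205F.EE
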