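import Vale.Agent.Lib.P205E.EU

/-! # P205E module SA: update (a), the mean

`ub = (1/2) m22 nh`; `Δ22 = 2 f₂.∂₂ub + O(2,k+1) = -m22 + O(2,k+1)` (since `f₂.ub = 0`, `f₂₂.ub = m22/2`),
`Δ11, Δ12 ∈ O(2,k)`. -/

open scoped ContDiff
open Set

namespace P205F.EE

private theorem SA_mean {A : Amp} {p m m' : ℤ} {y D : Eps → (ℝ × ℝ) × ℝ → ℝ} (hy : OT A p m y)
    (hz : Mz y) (hD : OT A 2 m' D) : OX A 2 m' (mean (fun i q => y i q + D i q)) :=
  hD.mean.congr fun i x hx => by rw [mean_add hy hD hx, hz i x hx, zero_add]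

namespace ED

private theorem SA_f2 (d : ED) {g : ℝ × ℝ → ℝ} {x : ℝ × ℝ} (hx : x ∈ Metric.ball (0 : ℝ × ℝ) 3)
    (hs : ContDiffOn ℝ ∞ (fun x => (1 / 2 * g x) • d.Fr.nh x) (Metric.ball 0 3)) :
    inner ℝ (pd e2 d.Fr.f x) (pd e2 (fun x => (1 / 2 * g x) • d.Fr.nh x) x) = -(1 / 2 * g x) := by
  have hO : x ∈ d.Fr.O := d.Fr.O_sup (Metric.ball_subset_closedBall hx)
  have hOn : d.Fr.O ∈ nhds x := d.Fr.O_open.mem_nhds hO
  have hBn : Metric.ball (0 : ℝ × ℝ) 3 ∈ nhds x := Metric.isOpen_ball.mem_nhds hx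
  have hf : ContDiffOn ℝ ∞ (pd e2 d.Fr.f) d.Fr.O :=
    (d.Fr.f_sm.fderiv_of_isOpen d.Fr.O_open (by norm_cast)).clm_apply contDiffOn_const
  have h1 : DifferentiableAt ℝ (pd e2 d.Fr.f) x := (hf.contDiffAt hOn).differentiableAt (by simp)
  have h2 : DifferentiableAt ℝ (fun x => (1 / 2 * g x) • d.Fr.nh x) x :=
    (hs.contDiffAt hBn).differentiableAt (by simp)
  have h3 := fderiv_inner_apply (𝕜 := ℝ) h1 h2 e2
  have h4 : (fun y => inner ℝ (pd e2 d.Fr.f y) ((1 / 2 * g y) • d.Fr.nh y)) =ᶠ[nhds x]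
      fun _ => (0 : ℝ) := by
    filter_upwards [hOn] with y hy
    rw [inner_smul_right, d.Fr.f2_nh y hy, mul_zero]
  have h5 : fderiv ℝ (fun y => inner ℝ (pd e2 d.Fr.f y) ((1 / 2 * g y) • d.Fr.nh y)) x e2 = 0 := by
    rw [h4.fderiv_eq]
    simp
  rw [h5] at h3
  have h6 : inner ℝ (fderiv ℝ (pd e2 d.Fr.f) x e2) ((1 / 2 * g x) • d.Fr.nh x) = 1 / 2 * g x := by
    have h7 := d.Fr.f22_nh x hO
    rw [inner_smul_right]
    change 1 / 2 * g x * inner ℝ (pd e2 (pd e2 d.Fr.f) x) (d.Fr.nh x) = _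
    rw [h7, mul_one]
  rw [h6] at h3
  change inner ℝ (pd e2 d.Fr.f x) (fderiv ℝ (fun x => (1 / 2 * g x) • d.Fr.nh x) x e2) = _
  linarith

theorem stepA (d : ED) {k : ℤ} (hk : 2 ≤ k) {FF : Eps → (ℝ × ℝ) × ℝ → F4} {ψ : Eps → ℝ × ℝ → ℝ}
    (h : d.StE k k k k (k + 1) FF ψ) : ∃ FF', d.StE k k (k + 1) k (k + 1) FF' ψ := by
  obtain ⟨m11, m12, m22, y11, y12, y22, h⟩ := h
  obtain ⟨-, -, hnh, -⟩ := d.OX_frame
  set ub : Eps → ℝ × ℝ → F4 := fun i x => (1 / 2 * m22 i x) • d.Fr.nh x with hubdef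
  have hub : OX d.A 2 k ub := by
    have h1 := (OX.constSmul (1 / 2 : ℝ) h.hm22).smul hnh
    rw [add_zero, add_zero] at h1
    exact h1
  set U : Eps → (ℝ × ℝ) × ℝ → F4 := fun i q => ub i q.1 with hUdef
  have hU : OT d.A 2 k U := hub.toOT
  have hV' : OP d.A 2 (d.VV (fun i q => FF i q + U i q)) :=
    d.VV_add h.hV ((OP.ofX2 hub).mono hk)
  have hDU : ∀ w : ℝ × ℝ, ∀ i, ∀ q ∈ ST.U i, DD w ψ U i q = pd w (ub i) q.1 :=
    fun w i q hq => DD_ofX hub.smooth w ψ hq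
  have hpd : ∀ w : ℝ × ℝ, OT d.A 2 k (fun i q => pd w (ub i) q.1) := fun w => (hub.pd w).toOT
  have hD1 := d.D1_OT h.hV h.hψ
  have hD2 := d.D2_OT h.hV h.hψ
  have hD2s := d.D2_sub h.hV h.hψ
  have hmono : ∀ {f : Eps → (ℝ × ℝ) × ℝ → ℝ} {p m : ℤ}, OT d.A p m f → 2 ≤ p → k ≤ m →
      OT d.A 2 k f := fun hf hp hm => hf.mono hp hm
  have c11 : OT d.A 2 k (fun i q => 2 * inner ℝ (DD e1 ψ FF i q) (pd e1 (ub i) q.1) +
      inner ℝ (pd e1 (ub i) q.1) (pd e1 (ub i) q.1)) :=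
    (hmono ((OT.constSmul (2 : ℝ) (hD1.inner (hpd e1)))) (by omega) (by omega)).add
      (hmono ((hpd e1).inner (hpd e1)) (by omega) (by omega))
  have c12 : OT d.A 2 k (fun i q => (inner ℝ (DD e1 ψ FF i q) (pd e2 (ub i) q.1) +
      inner ℝ (DD e2 ψ FF i q) (pd e1 (ub i) q.1)) +
      inner ℝ (pd e1 (ub i) q.1) (pd e2 (ub i) q.1)) :=
    ((hmono (hD1.inner (hpd e2)) (by omega) (by omega)).add
      (hmono (hD2.inner (hpd e1)) (by omega) (by omega))).add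
      (hmono ((hpd e1).inner (hpd e2)) (by omega) (by omega))
  have c22 : OT d.A 2 (k + 1) (fun i q =>
      2 * inner ℝ (DD e2 ψ FF i q - pd e2 d.Fr.f q.1) (pd e2 (ub i) q.1) +
      inner ℝ (pd e2 (ub i) q.1) (pd e2 (ub i) q.1)) :=
    (((OT.constSmul (2 : ℝ) (hD2s.inner (hpd e2)))).mono (by omega) (by omega)).add
      (((hpd e2).inner (hpd e2)).mono (by omega) (by omega))
  refine ⟨fun i q => FF i q + U i q, ?_⟩
  refine StE.mk' d hV' h.hψ (M11 := m11) (M12 := m12) (M22 := fun _ _ => 0)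
    (Y11 := fun i q => y11 i q + _) (Y12 := fun i q => y12 i q + _) (Y22 := fun i q => y22 i q + _)
    ?_ h.hm11 h.hm12 OX.zero (h.hy11.add (c11.mono (by omega) le_rfl))
    (h.hy12.add (c12.mono (by omega) le_rfl)) (h.hy22.add (c22.mono (by omega) le_rfl))
    (SA_mean h.hy11 h.zy11 c11) (SA_mean h.hy12 h.zy12 c12) (SA_mean h.hy22 h.zy22 c22)
  intro i q hq
  obtain ⟨a11, a12, a22⟩ := h.err i q hq
  have b11 := d.metric_add h.hV h.hψ hU e1 e1 hq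
  have b12 := d.metric_add h.hV h.hψ hU e1 e2 hq
  have b22 := d.metric_add h.hV h.hψ hU e2 e2 hq
  rw [hDU e1 i q hq] at b11
  rw [hDU e1 i q hq, hDU e2 i q hq] at b12
  rw [hDU e2 i q hq] at b22
  rw [a11] at b11
  rw [a12] at b12
  rw [a22] at b22
  have hx : q.1 ∈ Metric.ball (0 : ℝ × ℝ) 3 := hq.1
  have key := d.SA_f2 (g := m22 i) hx (hub.smooth i)
  change inner ℝ (pd e2 d.Fr.f q.1) (pd e2 (ub i) q.1) = _ at key
  refine ⟨?_, ?_, ?_⟩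
  · rw [b11]
    ring
  · rw [b12]
    ring
  · rw [b22]
    beta_reduce
    rw [inner_sub_left, key]
    ring

end ED

end P205F.EE
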