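import Vale.Agent.Lib.P205E.EU

/-! # P205E module SB: update (b), the phase

`φ = - xprim (m12 / abar²)`, `ψ' = ψ + φ`, `FF` unchanged:
`DD v ψ' FF = DD v ψ FF + ε⁻¹ φ_v ∂_θFF`, so
`Δ_vw = ε⁻¹ φ_v ∂_θFF.D_wFF + ε⁻¹ φ_w D_vFF.∂_θFF + ε⁻² φ_v φ_w |∂_θFF|²`,
`∂_θFF . D_1FF = ε (R² - ζ XX) + O'(2)`, `∂_θFF . D_2FF ∈ O'(2)`. -/

open scoped ContDiff
open Set

namespace P205F.EE

namespace ED

variable (d : ED)

private theorem SB_id1 (e : ℝ) (t L D f F : F4) (hF : F = f + L) :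
    inner ℝ t D - e * inner ℝ F L =
      inner ℝ (e • L) (D - F) + inner ℝ f (t - e • L) +
        (inner ℝ (t - e • L) L + inner ℝ (t - e • L) (D - F)) := by
  subst hF
  have h1 := real_inner_comm f t
  have h2 := real_inner_comm f L
  simp only [inner_add_left, inner_add_right, inner_sub_left, inner_sub_right,
    real_inner_smul_left, real_inner_smul_right]
  rw [h1, h2]
  ring

private theorem SB_id2 (a b : ℝ) (x y t : F4) :
    inner ℝ (x + a • t) (y + b • t) =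
      inner ℝ x y + a * inner ℝ t y + b * inner ℝ t x + a * b * inner ℝ t t := by
  have h1 := real_inner_comm x t
  simp only [inner_add_left, inner_add_right, real_inner_smul_left, real_inner_smul_right]
  rw [h1]
  ring

private theorem SB_id3 (e : ℝ) (t L D f : F4) (hf : inner ℝ f L = 0) :
    inner ℝ t D =
      inner ℝ (e • L) (D - f) + inner ℝ f (t - e • L) + inner ℝ (t - e • L) (D - f) := by
  have h1 := real_inner_comm f t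
  have h2 := real_inner_comm f L
  simp only [inner_sub_left, inner_sub_right,
    real_inner_smul_left, real_inner_smul_right]
  rw [h1, h2, hf]
  ring

/-- the two products -/
theorem SB_prod {FF : Eps → (ℝ × ℝ) × ℝ → F4} {ψ : Eps → ℝ × ℝ → ℝ} (hV : OP d.A 2 (d.VV FF))
    (hψ : OX d.A 0 2 ψ) :
    OP d.A 2 (fun i q => inner ℝ (dT FF i q) (DD e1 ψ FF i q) -
      (i : ℝ) * (d.RR i q.1 ^ 2 - d.Fr.ze q.1 * d.XX i q)) ∧
    OP d.A 2 (fun i q => inner ℝ (dT FF i q) (DD e2 ψ FF i q)) ∧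
    OT d.A 2 2 (fun i q => inner ℝ (dT FF i q) (dT FF i q)) := by
  obtain ⟨hT, zT⟩ := d.dT_sub hV
  have hE1 := d.D1_sub hV hψ
  have hE2 := d.D2_sub hV hψ
  have hL : OT d.A 1 0 d.Lz := d.OT_Lz
  have hLe : OT d.A 1 1 (fun (i : Eps) q => (i : ℝ) • d.Lz i q) := by
    have h := hL.eps 1
    simpa using h
  have hTP : OP d.A 2 (fun i q => dT FF i q - (i : ℝ) • d.Lz i q) := OP.ofMz hT zT
  refine ⟨?_, ?_, ?_⟩
  · have a1 := OP.of2 ((hLe.inner hE1).mono (by norm_num : (2 : ℤ) ≤ 1 + 1)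
      (by norm_num : (2 : ℤ) ≤ 1 + 1))
    have a2 := (OP.innerX d.OX_f1 hTP).mono (by norm_num : (2 : ℤ) ≤ 0 + 2)
    have a3 := OP.of2 ((hT.inner hL).mono (by norm_num : (2 : ℤ) ≤ 1 + 1)
      (by norm_num : (2 : ℤ) ≤ 2 + 0))
    have a4 := OP.of2 ((hT.inner hE1).mono (by norm_num : (2 : ℤ) ≤ 1 + 1)
      (by norm_num : (2 : ℤ) ≤ 2 + 1))
    refine ((a1.add a2).add (a3.add a4)).congr fun i q hq => ?_
    rw [← d.F0_Lz hq]
    exact SB_id1 _ _ _ _ _ _ rfl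
  · have a1 := OP.of2 ((hLe.inner hE2).mono (by norm_num : (2 : ℤ) ≤ 1 + 1)
      (by norm_num : (2 : ℤ) ≤ 1 + 1))
    have a2 := (OP.innerX d.OX_f2 hTP).mono (by norm_num : (2 : ℤ) ≤ 0 + 2)
    have a4 := OP.of2 ((hT.inner hE2).mono (by norm_num : (2 : ℤ) ≤ 1 + 1)
      (by norm_num : (2 : ℤ) ≤ 2 + 1))
    refine ((a1.add a2).add a4).congr fun i q hq => ?_
    exact SB_id3 _ _ _ _ _ (d.f2_Lz hq)
  · have h1 : OT d.A 1 1 (fun i q => dT FF i q) := by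
      refine (hLe.add (hT.mono le_rfl (by norm_num : (1 : ℤ) ≤ 2))).congr fun i q _ => ?_
      simp
    exact (h1.inner h1).mono (by norm_num : (2 : ℤ) ≤ 1 + 1) (by norm_num : (2 : ℤ) ≤ 1 + 1)

theorem stepB {k : ℤ} (hk : 2 ≤ k) {FF : Eps → (ℝ × ℝ) × ℝ → F4} {ψ : Eps → ℝ × ℝ → ℝ}
    (h : d.StE k k (k + 1) k (k + 1) FF ψ) : ∃ ψ', d.StE k (k + 1) (k + 1) k (k + 1) FF ψ' := by
  obtain ⟨m11, m12, m22, y11, y12, y22, hS⟩ := h
  obtain ⟨hB1, hB2, hN⟩ := d.SB_prod hS.hV hS.hψ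
  have hgX : OX d.A 0 k (fun i x => m12 i x * ((d.A.ab i x)⁻¹ * (d.A.ab i x)⁻¹)) :=
    (hS.hm12.mul ((OX_ab_inv d.A).mul (OX_ab_inv d.A))).mono
      (by norm_num : (0 : ℤ) ≤ 2 + (-1 + -1)) (by norm_num : k ≤ k + (0 + 0))
  have hφX := (OX.xprim hgX).neg
  generalize hgdef : (fun (i : Eps) (x : ℝ × ℝ) =>
    m12 i x * ((d.A.ab i x)⁻¹ * (d.A.ab i x)⁻¹)) = g at hgX hφX
  have hpd2 : ∀ i, ∀ x ∈ Metric.ball (0 : ℝ × ℝ) 3,
      pd e2 (fun x => -xprim g i x) x = -g i x := by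
    intro i x hx
    have h1 := pd_xprim hgX (i := i) hx
    unfold pd at h1 ⊢
    rw [show (fun x => -xprim g i x) = -(xprim g i) from rfl, fderiv_neg, ← h1]
    rfl
  have hφ2 : ∀ i, ∀ x ∈ Metric.ball (0 : ℝ × ℝ) 3,
      m12 i x = -(pd e2 (fun x => -xprim g i x) x * d.A.ab i x ^ 2) := by
    intro i x hx
    rw [hpd2 i x hx, ← hgdef]
    have h1 := (d.A.ab_pos i x).ne'
    field_simp
  generalize hφdef : (fun (i : Eps) (x : ℝ × ℝ) => -xprim g i x) = φ at hφX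
  have hφi : ∀ i, (fun x => -xprim g i x) = φ i := fun i => by rw [← hφdef]
  have hφ2' : ∀ i, ∀ x ∈ Metric.ball (0 : ℝ × ℝ) 3,
      m12 i x = -(pd e2 (φ i) x * d.A.ab i x ^ 2) := by
    intro i x hx
    rw [← hφi i]
    exact hφ2 i x hx
  have hφ1 := hφX.pd e1
  have hφ2X := hφX.pd e2
  have hψ' : OX d.A 0 2 (fun i x => ψ i x + φ i x) := hS.hψ.add (hφX.mono le_rfl hk)
  have hpd : ∀ (v : ℝ × ℝ) (i : Eps), ∀ x ∈ Metric.ball (0 : ℝ × ℝ) 3,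
      pd v (fun x => ψ i x + φ i x) x = pd v (ψ i) x + pd v (φ i) x := by
    intro v i x hx
    have d1 : DifferentiableAt ℝ (ψ i) x :=
      ((hS.hψ.smooth i).contDiffAt (Metric.isOpen_ball.mem_nhds hx)).differentiableAt (by simp)
    have d2 : DifferentiableAt ℝ (φ i) x :=
      ((hφX.smooth i).contDiffAt (Metric.isOpen_ball.mem_nhds hx)).differentiableAt (by simp)
    unfold pd
    rw [show (fun x => ψ i x + φ i x) = ψ i + φ i from rfl, fderiv_add d1 d2]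
    rfl
  have hDD : ∀ (v : ℝ × ℝ) (i : Eps), ∀ q ∈ ST.U i,
      DD v (fun i x => ψ i x + φ i x) FF i q =
        DD v ψ FF i q + ((i : ℝ)⁻¹ * pd v (φ i) q.1) • dT FF i q := by
    intro v i q hq
    unfold DD
    rw [hpd v i q.1 hq.1]
    module
  -- the building blocks
  have hk1 : k + 1 ≤ k + 2 + -1 := by omega
  have hk2 : k + 1 ≤ k + (k + 2) + -2 := by omega
  have c11 := ((OP.mulX hφ1 hB1).eps (-1)).mono hk1
  have c12 := ((OP.mulX hφ1 hB2).eps (-1)).mono hk1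
  have c21 := ((OP.mulX hφ2X hB1).eps (-1)).mono hk1
  have c22 := ((OP.mulX hφ2X hB2).eps (-1)).mono hk1
  have n11 := OP.of2 (((hφ1.toOT.mul (hφ1.toOT.mul hN)).eps (-2)).mono
    (by norm_num : (2 : ℤ) ≤ 0 + (0 + 2)) hk2)
  have n12 := OP.of2 (((hφ1.toOT.mul (hφ2X.toOT.mul hN)).eps (-2)).mono
    (by norm_num : (2 : ℤ) ≤ 0 + (0 + 2)) hk2)
  have n22 := OP.of2 (((hφ2X.toOT.mul (hφ2X.toOT.mul hN)).eps (-2)).mono
    (by norm_num : (2 : ℤ) ≤ 0 + (0 + 2)) hk2)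
  have r1 : OP d.A k (fun i q => pd e1 (φ i) q.1 *
      (d.RR i q.1 ^ 2 - d.Fr.ze q.1 * d.XX i q)) :=
    OP.of2 ((hφ1.toOT.mul d.OT_RX).mono (by norm_num : (2 : ℤ) ≤ 0 + 2)
      (by norm_num : k ≤ k + 0))
  have hab2 : OX d.A 2 0 (fun i x => d.A.ab i x ^ 2) := by
    refine (((OX_ab d.A).mul (OX_ab d.A)).mono (by norm_num : (2 : ℤ) ≤ 1 + 1)
      (by norm_num : (0 : ℤ) ≤ 0 + 0)).congr fun i x _ => ?_
    exact pow_two _
  have hRa : OT d.A 2 0 (fun i q => (d.RR i q.1 ^ 2 - d.Fr.ze q.1 * d.XX i q) -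
      d.A.ab i q.1 ^ 2) := d.OT_RX.sub hab2.toOT
  have r2 : OT d.A 1 k (fun i q => pd e2 (φ i) q.1 •
      ((d.RR i q.1 ^ 2 - d.Fr.ze q.1 * d.XX i q) - d.A.ab i q.1 ^ 2)) :=
    (hφ2X.toOT.smul hRa).mono (by norm_num : (1 : ℤ) ≤ 0 + 2) (by norm_num : k ≤ k + 0)
  have zr2 : ∀ i, ∀ x ∈ Metric.ball (0 : ℝ × ℝ) 3, mean (fun i q => pd e2 (φ i) q.1 •
      ((d.RR i q.1 ^ 2 - d.Fr.ze q.1 * d.XX i q) - d.A.ab i q.1 ^ 2)) i x = 0 := by
    intro i x hx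
    rw [mean_smulX (fun i x => pd e2 (φ i) x), mean_sub d.OT_RX hab2.toOT hx, d.mean_RX hx,
      mean_ofX (fun i x => d.A.ab i x ^ 2) i x, sub_self, smul_zero]
  have hy11 : OP d.A k y11 := OP.ofMz hS.hy11 hS.zy11
  have hy22 : OP d.A (k + 1) y22 := OP.ofMz hS.hy22 hS.zy22
  have hkk : k ≤ k + 1 := by omega
  have HY11 := hy11.add (((c11.mono hkk).add (c11.mono hkk)).add ((r1.add r1).add (n11.mono hkk)))
  have HY22 := hy22.add ((c22.add c22).add n22)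
  have HZ12 := hS.hy12.add r2
  have HR12 := (c12.add c21).add n12
  have HY12 := HZ12.add (HR12.1.mono le_rfl hkk)
  have HM12 : OX d.A 2 (k + 1) (mean (fun i q => (y12 i q + pd e2 (φ i) q.1 •
      ((d.RR i q.1 ^ 2 - d.Fr.ze q.1 * d.XX i q) - d.A.ab i q.1 ^ 2)) +
      (((i : ℝ) ^ (-1 : ℤ) • (pd e1 (φ i) q.1 * inner ℝ (dT FF i q) (DD e2 ψ FF i q)) +
        (i : ℝ) ^ (-1 : ℤ) • (pd e2 (φ i) q.1 * (inner ℝ (dT FF i q) (DD e1 ψ FF i q) -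
          (i : ℝ) * (d.RR i q.1 ^ 2 - d.Fr.ze q.1 * d.XX i q)))) +
        (i : ℝ) ^ (-2 : ℤ) • (pd e1 (φ i) q.1 * (pd e2 (φ i) q.1 *
          inner ℝ (dT FF i q) (dT FF i q)))))) := by
    refine HR12.2.congr fun i x hx => ?_
    rw [mean_add HZ12 HR12.1 hx, mean_add hS.hy12 r2 hx, hS.zy12 i x hx, zr2 i x hx]
    simp
  refine ⟨fun i x => ψ i x + φ i x, ?_⟩
  refine StE.mk' d hS.hV hψ' (M11 := m11) (M12 := fun _ _ => 0) (M22 := m22) ?_ hS.hm11 OX.zero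
    hS.hm22 HY11.1 HY12 HY22.1 HY11.2 HM12 HY22.2
  intro i q hq
  have hε : (i : ℝ) ≠ 0 := i.2.1.ne'
  obtain ⟨e11, e12, e22⟩ := hS.err i q hq
  have hx : q.1 ∈ Metric.ball (0 : ℝ × ℝ) 3 := hq.1
  have hm := hφ2' i q.1 hx
  have z1 : (i : ℝ) ^ (-1 : ℤ) = (i : ℝ)⁻¹ := zpow_neg_one _
  have z2 : (i : ℝ) ^ (-2 : ℤ) = (i : ℝ)⁻¹ * (i : ℝ)⁻¹ := by
    rw [show (-2 : ℤ) = -1 + -1 from by norm_num, zpow_add₀ hε, zpow_neg_one]
  have hεi : (i : ℝ)⁻¹ * (i : ℝ) = 1 := inv_mul_cancel₀ hε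
  refine ⟨?_, ?_, ?_⟩
  · rw [hDD e1 i q hq, SB_id2, e11]
    simp only [z1, z2, smul_eq_mul]
    linear_combination (2 * pd e1 (φ i) q.1 *
      (d.RR i q.1 ^ 2 - d.Fr.ze q.1 * d.XX i q)) * hεi
  · rw [hDD e1 i q hq, hDD e2 i q hq, SB_id2, e12]
    simp only [z1, z2, smul_eq_mul]
    linear_combination (pd e2 (φ i) q.1 *
      (d.RR i q.1 ^ 2 - d.Fr.ze q.1 * d.XX i q)) * hεi + hm
  · rw [hDD e2 i q hq, SB_id2, e22]
    simp only [z1, z2, smul_eq_mul]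
    ring

end ED

end P205F.EE
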