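import Vale.Agent.Lib.P205E.EU

/-! # P205E module SC: update (c), the amplitude

`al = - m11 / (2 abar) ∈ O(1,k)`, `U = ε al vt` (mean zero, `O(1,k+1)`):
`Δ11 = 2 al abar + O'(k+1) = -m11 + O'(k+1)` because `F0 . rr = abar`; `Δ12 ∈ O'(k+1)`; `Δ22 ∈ O(2,k+2)`. -/

open scoped ContDiff
open Set

namespace P205F.EE

namespace ED

/-- the update -/
private noncomputable def SC_al (A : Amp) (m11 : Eps → ℝ × ℝ → ℝ) (i : Eps) (x : ℝ × ℝ) : ℝ :=
  (-(1 / 2 : ℝ)) • (m11 i x * (A.ab i x)⁻¹)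

private theorem SC_al_OX {A : Amp} {k : ℤ} {m11 : Eps → ℝ × ℝ → ℝ} (h : OX A 2 k m11) :
    OX A 1 k (SC_al A m11) := by
  have h1 := (h.mul (OX_ab_inv A)).constSmul (-(1 / 2 : ℝ))
  have e1 : (2 : ℤ) + -1 = 1 := by norm_num
  rw [e1, add_zero] at h1
  exact h1

private theorem SC_al_eq (A : Amp) (m11 : Eps → ℝ × ℝ → ℝ) (i : Eps) (x : ℝ × ℝ) :
    2 * (SC_al A m11 i x * A.ab i x) = -m11 i x := by
  have h := (A.ab_pos i x).ne'
  unfold SC_al
  rw [smul_eq_mul]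
  field_simp

private noncomputable def SC_U (d : ED) (al : Eps → ℝ × ℝ → ℝ) (i : Eps) (q : (ℝ × ℝ) × ℝ) : F4 :=
  ((i : ℝ) ^ (1 : ℤ) • al i q.1) • d.vt i q

private theorem SC_U_OT (d : ED) {k : ℤ} {al : Eps → ℝ × ℝ → ℝ} (h : OX d.A 1 k al) :
    OT d.A 1 (k + 1) (SC_U d al) := by
  have h1 := (h.eps 1).toOT.smul d.OT_vt
  rw [add_zero, add_zero] at h1
  exact h1

private theorem SC_U_Mz (d : ED) (al : Eps → ℝ × ℝ → ℝ) : Mz (SC_U d al) := by
  intro i x hx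
  have h1 := mean_smulX (fun (i : Eps) x => (i : ℝ) ^ (1 : ℤ) • al i x) d.vt i x
  have h2 := d.Mz_vt i x hx
  rw [h2, smul_zero] at h1
  exact h1

private theorem SC_dT (d : ED) {k : ℤ} {al : Eps → ℝ × ℝ → ℝ} (h : OX d.A 1 k al) {i : Eps}
    {q : (ℝ × ℝ) × ℝ} (hq : q ∈ ST.U i) :
    dT (SC_U d al) i q = ((i : ℝ) * al i q.1) • d.rr i q := by
  have h1 := dT_smul (h.eps 1).toOT d.OT_vt hq
  have h2 := dT_ofX (u := fun (i : Eps) x => (i : ℝ) ^ (1 : ℤ) • al i x)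
    (fun i => (h.eps 1).smooth i) hq
  have h3 : dT (SC_U d al) i q =
      dT (fun (i : Eps) (q : (ℝ × ℝ) × ℝ) => (i : ℝ) ^ (1 : ℤ) • al i q.1) i q • d.vt i q +
        ((i : ℝ) ^ (1 : ℤ) • al i q.1) • dT d.vt i q := h1
  rw [h3, h2, zero_smul, zero_add, d.dT_vt hq, zpow_one, smul_eq_mul]

/-- the remainder `D_1 U - al rr` -/
private noncomputable def SC_W (d : ED) (ψ : Eps → ℝ × ℝ → ℝ) (al : Eps → ℝ × ℝ → ℝ) (i : Eps)
    (q : (ℝ × ℝ) × ℝ) : F4 :=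
  dX e1 (SC_U d al) i q + (pd e1 (ψ i) q.1 * al i q.1) • d.rr i q

private theorem SC_D1 (d : ED) {k : ℤ} {ψ al : Eps → ℝ × ℝ → ℝ} (h : OX d.A 1 k al) {i : Eps}
    {q : (ℝ × ℝ) × ℝ} (hq : q ∈ ST.U i) :
    DD e1 ψ (SC_U d al) i q = al i q.1 • d.rr i q + SC_W d ψ al i q := by
  have h0 : (i : ℝ) ≠ 0 := i.2.1.ne'
  unfold DD SC_W
  rw [SC_dT d h hq, smul_smul]
  have h1 : (i : ℝ)⁻¹ * (e1.1 + pd e1 (ψ i) q.1) * ((i : ℝ) * al i q.1) =
      al i q.1 + pd e1 (ψ i) q.1 * al i q.1 := by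
    have : e1.1 = (1 : ℝ) := rfl
    rw [this]
    field_simp
  rw [h1, add_smul]
  abel

private theorem SC_W_OP (d : ED) {k : ℤ} {ψ al : Eps → ℝ × ℝ → ℝ} (hψ : OX d.A 0 2 ψ)
    (h : OX d.A 1 k al) : OP d.A (k + 1) (SC_W d ψ al) := by
  have h1 : OP d.A (k + 1) (dX e1 (SC_U d al)) := (OP.ofMz (SC_U_OT d h) (SC_U_Mz d al)).dX e1
  have h2 : OX d.A (0 + 1) (2 + k) (fun i x => pd e1 (ψ i) x * al i x) := (hψ.pd e1).mul h
  have h3 : OT d.A (0 + 1 + 0) (2 + k + 0)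
      (fun i q => (pd e1 (ψ i) q.1 * al i q.1) • d.rr i q) := h2.toOT.smul d.OT_rr
  have h4 : Mz (fun i q => (pd e1 (ψ i) q.1 * al i q.1) • d.rr i q) := by
    intro i x hx
    have h5 := mean_smulX (fun (i : Eps) x => pd e1 (ψ i) x * al i x) d.rr i x
    rw [d.Mz_rr i x hx, smul_zero] at h5
    exact h5
  have h5 : OT d.A 1 (k + 1) (fun i q => (pd e1 (ψ i) q.1 * al i q.1) • d.rr i q) :=
    h3.mono (by norm_num) (by omega)
  exact h1.add (OP.ofMz h5 h4)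

theorem stepC (d : ED) {k : ℤ} (hk : 2 ≤ k) {FF : Eps → (ℝ × ℝ) × ℝ → F4} {ψ : Eps → ℝ × ℝ → ℝ}
    (h : d.StE k (k + 1) (k + 1) (k + 1) (k + 2) FF ψ) :
    ∃ FF', d.StE (k + 1) (k + 1) (k + 1) (k + 1) (k + 2) FF' ψ := by
  obtain ⟨m11, m12, m22, y11, y12, y22, hS⟩ := h
  have hV := hS.hV
  have hψ := hS.hψ
  set al := SC_al d.A m11 with hal
  have hal1 : OX d.A 1 k al := SC_al_OX hS.hm11
  have hU : OT d.A 1 (k + 1) (SC_U d al) := SC_U_OT d hal1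
  have hUP : OP d.A (k + 1) (SC_U d al) := OP.ofMz hU (SC_U_Mz d al)
  have hD1U : OT d.A 1 k (DD e1 ψ (SC_U d al)) := (hU.DD1 hψ).mono le_rfl (by omega)
  have hD2U : OP d.A (k + 1) (DD e2 ψ (SC_U d al)) := hUP.DD2 hψ
  have hW := SC_W_OP d hψ hal1
  have hD1 := d.D1_sub hV hψ
  have hD1' := d.D1_sub' hV hψ
  have hD2 := d.D2_sub hV hψ
  have hD22 := d.D22_sub hV hψ
  have halrr : OT d.A 1 k (fun i q => al i q.1 • d.rr i q) := by
    have := hal1.toOT.smul d.OT_rr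
    rwa [add_zero, add_zero] at this
  have hf2rr : ∀ i, ∀ q ∈ ST.U i, inner ℝ (pd e2 d.Fr.f q.1) (al i q.1 • d.rr i q) = 0 := by
    intro i q hq
    rw [real_inner_smul_right, d.f2_rr hq, mul_zero]
  have hf2U : ∀ i, ∀ q ∈ ST.U i, inner ℝ (pd e2 d.Fr.f q.1) (SC_U d al i q) = 0 := by
    intro i q hq
    unfold SC_U
    rw [real_inner_smul_right, d.f2_vt hq, mul_zero]
  have hf22U : ∀ i, ∀ q ∈ ST.U i, inner ℝ (pd e2 (pd e2 d.Fr.f) q.1) (SC_U d al i q) = 0 := by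
    intro i q hq
    unfold SC_U
    rw [real_inner_smul_right, d.f22_vt hq, mul_zero]
  -- general inner product estimates
  have gen1 : ∀ (u : Eps → (ℝ × ℝ) × ℝ → F4) (_ : OP d.A (k + 1) u),
      OP d.A (k + 1) (fun i q => inner ℝ (DD e1 ψ FF i q) (u i q)) := by
    intro u hu
    have h1 : OP d.A (k + 1) (fun i q =>
        inner ℝ (DD e1 ψ FF i q - pd e1 d.Fr.f q.1) (u i q)) :=
      OP.of2 ((hD1'.inner hu.1).mono (by norm_num) (by omega))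
    have h2 : OP d.A (k + 1) (fun i q => inner ℝ (pd e1 d.Fr.f q.1) (u i q)) :=
      (OP.innerX d.OX_f1 hu).mono (by omega)
    refine (h1.add h2).congr fun i q _ => ?_
    rw [← inner_add_left, sub_add_cancel]
  -- (1,1)
  set Z11 : Eps → (ℝ × ℝ) × ℝ → ℝ := fun i q =>
    (inner ℝ (DD e1 ψ FF i q - d.F0 i q) (al i q.1 • d.rr i q) +
      inner ℝ (DD e1 ψ FF i q) (SC_W d ψ al i q)) +
    (inner ℝ (DD e1 ψ FF i q - d.F0 i q) (al i q.1 • d.rr i q) +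
      inner ℝ (DD e1 ψ FF i q) (SC_W d ψ al i q)) +
    inner ℝ (DD e1 ψ (SC_U d al) i q) (DD e1 ψ (SC_U d al) i q) with hZ11
  have hZ11P : OP d.A (k + 1) Z11 := by
    have h1 : OP d.A (k + 1) (fun i q =>
        inner ℝ (DD e1 ψ FF i q - d.F0 i q) (al i q.1 • d.rr i q)) :=
      OP.of2 ((hD1.inner halrr).mono (by norm_num) (by omega))
    have h2 := gen1 _ hW
    have h3 : OP d.A (k + 1) (fun i q =>
        inner ℝ (DD e1 ψ (SC_U d al) i q) (DD e1 ψ (SC_U d al) i q)) :=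
      OP.of2 ((hD1U.inner hD1U).mono (by norm_num) (by omega))
    exact ((h1.add h2).add (h1.add h2)).add h3
  -- (1,2)
  set Z12 : Eps → (ℝ × ℝ) × ℝ → ℝ := fun i q =>
    inner ℝ (DD e1 ψ FF i q) (DD e2 ψ (SC_U d al) i q) +
      (inner ℝ (DD e2 ψ FF i q - pd e2 d.Fr.f q.1) (DD e1 ψ (SC_U d al) i q) +
        inner ℝ (pd e2 d.Fr.f q.1) (SC_W d ψ al i q)) +
      inner ℝ (DD e1 ψ (SC_U d al) i q) (DD e2 ψ (SC_U d al) i q) with hZ12
  have hZ12P : OP d.A (k + 1) Z12 := by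
    have h1 := gen1 _ hD2U
    have h2 : OP d.A (k + 1) (fun i q =>
        inner ℝ (DD e2 ψ FF i q - pd e2 d.Fr.f q.1) (DD e1 ψ (SC_U d al) i q)) :=
      OP.of2 ((hD2.inner hD1U).mono (by norm_num) (by omega))
    have h3 : OP d.A (k + 1) (fun i q => inner ℝ (pd e2 d.Fr.f q.1) (SC_W d ψ al i q)) :=
      (OP.innerX d.OX_f2 hW).mono (by omega)
    have h4 : OP d.A (k + 1) (fun i q =>
        inner ℝ (DD e1 ψ (SC_U d al) i q) (DD e2 ψ (SC_U d al) i q)) :=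
      OP.of2 ((hD1U.inner hD2U.1).mono (by norm_num) (by omega))
    exact (h1.add (h2.add h3)).add h4
  -- (2,2)
  set G : Eps → (ℝ × ℝ) × ℝ → ℝ := fun i q =>
    inner ℝ (DD e2 ψ FF i q - pd e2 d.Fr.f q.1) (SC_U d al i q) with hG
  have hGT : OT d.A 2 (k + 2) G := (hD2.inner hU).mono (by norm_num) (by omega)
  set Z22 : Eps → (ℝ × ℝ) × ℝ → ℝ := fun i q =>
    (DD e2 ψ G i q -
      inner ℝ (DD e2 ψ (DD e2 ψ FF) i q - pd e2 (pd e2 d.Fr.f) q.1) (SC_U d al i q)) +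
    (DD e2 ψ G i q -
      inner ℝ (DD e2 ψ (DD e2 ψ FF) i q - pd e2 (pd e2 d.Fr.f) q.1) (SC_U d al i q)) +
    inner ℝ (DD e2 ψ (SC_U d al) i q) (DD e2 ψ (SC_U d al) i q) with hZ22
  have hZ22T : OT d.A 2 (k + 2) Z22 := by
    have h1 : OT d.A 2 (k + 2) (DD e2 ψ G) := hGT.DD2 hψ
    have h2 : OT d.A 2 (k + 2) (fun i q =>
        inner ℝ (DD e2 ψ (DD e2 ψ FF) i q - pd e2 (pd e2 d.Fr.f) q.1) (SC_U d al i q)) :=
      (hD22.inner hU).mono (by norm_num) (by omega)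
    have h3 : OT d.A 2 (k + 2) (fun i q =>
        inner ℝ (DD e2 ψ (SC_U d al) i q) (DD e2 ψ (SC_U d al) i q)) :=
      (hD2U.1.inner hD2U.1).mono (by norm_num) (by omega)
    exact ((h1.sub h2).add (h1.sub h2)).add h3
  refine ⟨fun i q => FF i q + SC_U d al i q, ?_⟩
  refine StE.mk' d (M11 := fun _ _ => 0) (M12 := m12) (M22 := m22)
    (Y11 := fun i q => y11 i q + Z11 i q) (Y12 := fun i q => y12 i q + Z12 i q)
    (Y22 := fun i q => y22 i q + Z22 i q) (d.VV_add hV (hUP.mono (by omega))) hψ ?_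
    OX.zero hS.hm12 hS.hm22 (hS.hy11.add hZ11P.1) (hS.hy12.add hZ12P.1)
    (hS.hy22.add (hZ22T.mono (by norm_num) le_rfl)) ?_ ?_ ?_
  · intro i q hq
    obtain ⟨he11, he12, he22⟩ := hS.err i q hq
    refine ⟨?_, ?_, ?_⟩
    · rw [d.metric_add hV hψ hU e1 e1 hq, he11]
      have h1 : inner ℝ (DD e1 ψ FF i q) (DD e1 ψ (SC_U d al) i q) =
          al i q.1 * d.A.ab i q.1 +
          (inner ℝ (DD e1 ψ FF i q - d.F0 i q) (al i q.1 • d.rr i q) +
            inner ℝ (DD e1 ψ FF i q) (SC_W d ψ al i q)) := by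
        rw [SC_D1 d hal1 hq, inner_add_right, inner_sub_left]
        have h2 : inner ℝ (d.F0 i q) (al i q.1 • d.rr i q) = al i q.1 * d.A.ab i q.1 := by
          rw [real_inner_smul_right, d.F0_rr hq]
        rw [h2]
        ring
      have h3 := SC_al_eq d.A m11 i q.1
      rw [← hal] at h3
      rw [h1]
      simp only [hZ11]
      linarith
    · rw [d.metric_add hV hψ hU e1 e2 hq, he12]
      have h1 : inner ℝ (DD e2 ψ FF i q) (DD e1 ψ (SC_U d al) i q) =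
          inner ℝ (DD e2 ψ FF i q - pd e2 d.Fr.f q.1) (DD e1 ψ (SC_U d al) i q) +
            inner ℝ (pd e2 d.Fr.f q.1) (SC_W d ψ al i q) := by
        have h2 : inner ℝ (pd e2 d.Fr.f q.1) (SC_W d ψ al i q) =
            inner ℝ (pd e2 d.Fr.f q.1) (DD e1 ψ (SC_U d al) i q) := by
          rw [SC_D1 d hal1 hq, inner_add_right, hf2rr i q hq, zero_add]
        rw [h2, ← inner_add_left, sub_add_cancel]
      rw [h1]
      simp only [hZ12]
      ring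
    · rw [d.metric_add hV hψ hU e2 e2 hq, he22]
      have h1 : inner ℝ (DD e2 ψ FF i q) (DD e2 ψ (SC_U d al) i q) =
          DD e2 ψ G i q -
          inner ℝ (DD e2 ψ (DD e2 ψ FF) i q - pd e2 (pd e2 d.Fr.f) q.1) (SC_U d al i q) := by
        rw [d.D2_leib hV hψ hU hq, inner_sub_left, hf22U i q hq, sub_zero]
        have h2 : DD e2 ψ (fun i q => inner ℝ (DD e2 ψ FF i q) (SC_U d al i q)) i q =
            DD e2 ψ G i q := by
          refine (DD_congr (fun i q hq => ?_) e2 ψ hq).1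
          simp only [hG]
          rw [inner_sub_left, hf2U i q hq, sub_zero]
        rw [h2]
      rw [h1]
      simp only [hZ22]
      ring
  · have h1 : OX d.A 2 (k + 1) (mean Z11) := hZ11P.2
    refine h1.congr fun i x hx => ?_
    rw [mean_add hS.hy11 hZ11P.1 hx, hS.zy11 i x hx, zero_add]
  · have h1 : OX d.A 2 (k + 1) (mean Z12) := hZ12P.2
    refine h1.congr fun i x hx => ?_
    rw [mean_add hS.hy12 hZ12P.1 hx, hS.zy12 i x hx, zero_add]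
  · have h1 : OX d.A 2 (k + 1) (mean Z22) := hZ22T.mean.mono le_rfl (by omega)
    refine h1.congr fun i x hx => ?_
    rw [mean_add hS.hy22 hZ22T hx, hS.zy22 i x hx, zero_add]

end ED

end P205F.EE
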