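import Mathlib
import Vale.Agent.Lib.P205E.EL1b

/-! # P205E module SD1: update (d), definitions and sizes

Given errors `y11, y12 ∈ O(1,k)`, `y22 ∈ O(1,k+1)` of mean zero (`1 ≤ k`):
`t0 = (-(1/2) y11 + k2 y12)/R`, `s11 = -(2R²/ζ) <t0 XX/R>`, `s0 = -(R/ζ) <t0 YY/R>`,
`Wt = -y12 T2 + (t0 + s11/(2R)) e + s0 ep` (mean zero), `Vt = prim Wt`,
`cn = (1/(2ε)) (y22 + 2ε ∂₂(f₂.Vt) - 2ε f₂₂.Vt)`, `Vn = cn (n1 - (k1/R) e)`, `U = ε (Vt + Vn)`. -/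

open scoped ContDiff
open Set

namespace P205F.EE

namespace ED

variable (d : ED)

noncomputable def t0 (y11 y12 : Eps → (ℝ × ℝ) × ℝ → ℝ) (i : Eps) (q : (ℝ × ℝ) × ℝ) : ℝ :=
  (d.RR i q.1)⁻¹ * (-(1 / 2) * y11 i q + d.Fr.k2 q.1 * y12 i q)

noncomputable def s11 (y11 y12 : Eps → (ℝ × ℝ) × ℝ → ℝ) (i : Eps) (x : ℝ × ℝ) : ℝ :=
  -(2 * d.RR i x ^ 2 / d.Fr.ze x) *
    mean (fun i q => d.t0 y11 y12 i q * ((d.RR i q.1)⁻¹ * d.XX i q)) i x

noncomputable def s0 (y11 y12 : Eps → (ℝ × ℝ) × ℝ → ℝ) (i : Eps) (x : ℝ × ℝ) : ℝ :=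
  -(d.RR i x / d.Fr.ze x) *
    mean (fun i q => d.t0 y11 y12 i q * ((d.RR i q.1)⁻¹ * d.YY i q)) i x

noncomputable def Wt (y11 y12 : Eps → (ℝ × ℝ) × ℝ → ℝ) (i : Eps) (q : (ℝ × ℝ) × ℝ) : F4 :=
  -(y12 i q) • d.Fr.T2 q.1 + (d.t0 y11 y12 i q + (2 * d.RR i q.1)⁻¹ * d.s11 y11 y12 i q.1) • d.ee i q +
    d.s0 y11 y12 i q.1 • d.ep i q

noncomputable def Vt (y11 y12 : Eps → (ℝ × ℝ) × ℝ → ℝ) : Eps → (ℝ × ℝ) × ℝ → F4 :=
  prim (d.Wt y11 y12)

noncomputable def cn (y11 y12 y22 : Eps → (ℝ × ℝ) × ℝ → ℝ) (i : Eps) (q : (ℝ × ℝ) × ℝ) : ℝ :=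
  (2 * (i : ℝ))⁻¹ * y22 i q +
    dX e2 (fun i q => inner ℝ (pd e2 d.Fr.f q.1) (d.Vt y11 y12 i q)) i q -
    inner ℝ (pd e2 (pd e2 d.Fr.f) q.1) (d.Vt y11 y12 i q)

noncomputable def Vn (y11 y12 y22 : Eps → (ℝ × ℝ) × ℝ → ℝ) (i : Eps) (q : (ℝ × ℝ) × ℝ) : F4 :=
  d.cn y11 y12 y22 i q • (d.Fr.n1 q.1 - ((d.RR i q.1)⁻¹ * d.Fr.k1 q.1) • d.ee i q)

noncomputable def UU (y11 y12 y22 : Eps → (ℝ × ℝ) × ℝ → ℝ) (i : Eps) (q : (ℝ × ℝ) × ℝ) : F4 :=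
  (i : ℝ) • (d.Vt y11 y12 i q + d.Vn y11 y12 y22 i q)

private theorem SD1_mean_congr {V : Type} [NormedAddCommGroup V] [NormedSpace ℝ V]
    {u v : Eps → (ℝ × ℝ) × ℝ → V} (h : ∀ i, ∀ q ∈ ST.U i, v i q = u i q) (i : Eps) {x : ℝ × ℝ}
    (hx : x ∈ Metric.ball (0 : ℝ × ℝ) 3) : mean v i x = mean u i x := by
  unfold mean
  congr 1
  refine intervalIntegral.integral_congr fun θ _ => ?_
  exact h i (x, θ) ⟨hx, mem_univ _⟩

private theorem SD1_mean_neg {V : Type} [NormedAddCommGroup V] [NormedSpace ℝ V]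
    (u : Eps → (ℝ × ℝ) × ℝ → V) (i : Eps) (x : ℝ × ℝ) :
    mean (fun i q => -u i q) i x = -mean u i x := by
  unfold mean
  rw [intervalIntegral.integral_neg, smul_neg]

/-- means of `u + b v + c w` with `b, c` functions of `x` -/
private theorem SD1_comb {A : Amp} {p m p1 m1 p2 m2 p3 m3 p4 m4 : ℤ}
    {u v w : Eps → (ℝ × ℝ) × ℝ → ℝ}
    {b c : Eps → ℝ × ℝ → ℝ} (hu : OT A p m u) (hv : OT A p1 m1 v) (hw : OT A p2 m2 w)
    (hb : OX A p3 m3 b) (hc : OX A p4 m4 c) :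
    OT A (min p (min (p3 + p1) (p4 + p2))) (min m (min (m3 + m1) (m4 + m2)))
      (fun i q => u i q + (b i q.1 * v i q + c i q.1 * w i q)) ∧
    ∀ i, ∀ x ∈ Metric.ball (0 : ℝ × ℝ) 3,
      mean (fun i q => u i q + (b i q.1 * v i q + c i q.1 * w i q)) i x =
        mean u i x + (b i x * mean v i x + c i x * mean w i x) := by
  have h1 := (hb.toOT.mul hv)
  have h2 := (hc.toOT.mul hw)
  have h3 : OT A (min (p3 + p1) (p4 + p2)) (min (m3 + m1) (m4 + m2))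
      (fun i q => b i q.1 * v i q + c i q.1 * w i q) :=
    (h1.mono (min_le_left _ _) (min_le_left _ _)).add (h2.mono (min_le_right _ _) (min_le_right _ _))
  refine ⟨(hu.mono (min_le_left _ _) (min_le_left _ _)).add
    (h3.mono (min_le_right _ _) (min_le_right _ _)), fun i x hx => ?_⟩
  rw [mean_add hu h3 hx, mean_add h1 h2 hx]
  have e1 : mean (fun i q => b i q.1 * v i q) i x = b i x * mean v i x := mean_smulX b v i x
  have e2 : mean (fun i q => c i q.1 * w i q) i x = c i x * mean w i x := mean_smulX c w i x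
  rw [e1, e2]

private theorem SD1_O {x : ℝ × ℝ} (hx : x ∈ Metric.ball (0 : ℝ × ℝ) 3) : x ∈ d.Fr.O :=
  d.Fr.O_sup (Metric.ball_subset_closedBall hx)

private theorem SD1_Rinv_XX : OT d.A 0 0 (fun i q => (d.RR i q.1)⁻¹ * d.XX i q) := by
  have h := d.OX_RR_inv.toOT.mul d.OT_XX
  rwa [add_zero] at h

private theorem SD1_Rinv_YY : OT d.A 1 0 (fun i q => (d.RR i q.1)⁻¹ * d.YY i q) := by
  have h := d.OX_RR_inv.toOT.mul d.OT_YY
  rwa [zero_add, add_zero] at h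

variable {k : ℤ} {y11 y12 y22 : Eps → (ℝ × ℝ) × ℝ → ℝ} (h11 : OT d.A 1 k y11) (h12 : OT d.A 1 k y12)
  (h22 : OT d.A 1 (k + 1) y22) (z11 : Mz y11) (z12 : Mz y12) (z22 : Mz y22)

include h11 h12 in
theorem OT_t0 : OT d.A 1 k (d.t0 y11 y12) := by
  have h1 : OT d.A 1 k (fun i q => d.Fr.k2 q.1 * y12 i q) := by
    have h := (d.OX_frame.2.2.2.2.2.2.1).toOT.mul h12
    rwa [zero_add, zero_add] at h
  have h2 : OT d.A 1 k (fun i q => (-(1 / 2) : ℝ) • y11 i q + d.Fr.k2 q.1 * y12 i q) :=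
    (h11.constSmul _).add h1
  have h3 := d.OX_RR_inv.toOT.mul h2
  rw [zero_add, zero_add] at h3
  exact h3.congr fun i q _ => rfl

include h11 h12 z11 z12 in
theorem Mz_t0 : Mz (d.t0 y11 y12) := by
  intro i x hx
  have h1 : OT d.A 1 k (fun i q => d.Fr.k2 q.1 • y12 i q) := by
    have h := (d.OX_frame.2.2.2.2.2.2.1).toOT.smul h12
    rwa [zero_add, zero_add] at h
  have h2 : OT d.A 1 k (fun i q => (-(1 / 2) : ℝ) • y11 i q) := h11.constSmul _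
  have e0 : mean (d.t0 y11 y12) i x =
      mean (fun i q => (fun i x => (d.RR i x)⁻¹) i q.1 •
        (fun i q => (-(1 / 2) : ℝ) • y11 i q + d.Fr.k2 q.1 • y12 i q) i q) i x := rfl
  rw [e0, mean_smulX (fun i x => (d.RR i x)⁻¹)
    (fun i q => (-(1 / 2) : ℝ) • y11 i q + d.Fr.k2 q.1 • y12 i q) i x,
    mean_add h2 h1 hx, mean_smulX (fun _ _ => (-(1 / 2) : ℝ)) y11 i x,
    mean_smulX (fun _ => d.Fr.k2) y12 i x, z11 i x hx, z12 i x hx, smul_zero, smul_zero,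
    add_zero, smul_zero]

include h11 h12 z11 z12

/-- `<t0 cc> = <t0 (cc - 1)>` -/
theorem OX_s11 : OX d.A 3 k (d.s11 y11 y12) := by
  have ht := d.OT_t0 h11 h12
  have hz := d.Mz_t0 h11 h12 z11 z12
  have h1 : OT d.A (1 + 2) (k + 0)
      (fun i q => d.t0 y11 y12 i q * ((d.RR i q.1)⁻¹ * d.XX i q - 1)) := ht.mul d.OT_cc_sub
  have h2 := h1.mean
  have h3 : OX d.A 3 k (mean (fun i q => d.t0 y11 y12 i q * ((d.RR i q.1)⁻¹ * d.XX i q))) := by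
    have e1 : (1 : ℤ) + 2 = 3 := by norm_num
    rw [e1, add_zero] at h2
    refine h2.congr fun i x hx => ?_
    have h4 : OT d.A (1 + 0) (k + 0)
      (fun i q => d.t0 y11 y12 i q * ((d.RR i q.1)⁻¹ * d.XX i q)) := ht.mul (SD1_Rinv_XX d)
    have h5 : mean (fun i q => d.t0 y11 y12 i q * ((d.RR i q.1)⁻¹ * d.XX i q - 1)) i x =
        mean (fun i q => (fun i q => d.t0 y11 y12 i q * ((d.RR i q.1)⁻¹ * d.XX i q)) i q -
          d.t0 y11 y12 i q) i x :=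
      SD1_mean_congr (fun i q _ => by simp only []; ring) i hx
    rw [h5, mean_sub h4 ht hx, hz i x hx, sub_zero]
  have h6 : OX d.A 0 0 (fun i x => -(2 * d.RR i x ^ 2 / d.Fr.ze x)) := by
    have a1 : OX d.A (0 + 0) (0 + 0) (fun i x => d.RR i x * d.RR i x) := d.OX_RR.mul d.OX_RR
    have a2 := a1.mul d.OX_ze_inv
    simp only [add_zero] at a2
    have a3 := a2.constSmul (-2)
    refine a3.congr fun i x _ => ?_
    simp only [smul_eq_mul]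
    rw [div_eq_mul_inv]
    ring
  have h7 := h6.mul h3
  rw [zero_add, zero_add] at h7
  exact h7

theorem OX_s0 : OX d.A 2 k (d.s0 y11 y12) := by
  have ht := d.OT_t0 h11 h12
  have h1 : OT d.A (1 + 1) (k + 0)
      (fun i q => d.t0 y11 y12 i q * ((d.RR i q.1)⁻¹ * d.YY i q)) := ht.mul (SD1_Rinv_YY d)
  have h3 := h1.mean
  have e1 : (1 : ℤ) + 1 = 2 := by norm_num
  rw [e1, add_zero] at h3
  have h6 : OX d.A 0 0 (fun i x => -(d.RR i x / d.Fr.ze x)) := by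
    have a2 := d.OX_RR.mul d.OX_ze_inv
    simp only [add_zero] at a2
    refine a2.neg.congr fun i x _ => ?_
    rw [div_eq_mul_inv]
  have h7 := h6.mul h3
  rw [zero_add, zero_add] at h7
  exact h7

theorem OT_Wt : OT d.A 1 k (d.Wt y11 y12) := by
  have ht := d.OT_t0 h11 h12
  have hs11 := d.OX_s11 h11 h12 z11 z12
  have hs0 := d.OX_s0 h11 h12 z11 z12
  have b1 : OT d.A 1 k (fun i q => -(y12 i q) • d.Fr.T2 q.1) := by
    have h := h12.neg.smul (d.OX_frame.1).toOT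
    rw [add_zero, add_zero] at h
    exact h
  have b2 : OT d.A 1 k (fun i q => (2 * d.RR i q.1)⁻¹ * d.s11 y11 y12 i q.1) := by
    have h := (d.OX_RR_inv.mul hs11).constSmul (1 / 2)
    rw [zero_add, zero_add] at h
    refine (h.toOT.mono (by norm_num) le_rfl).congr fun i q _ => ?_
    rw [mul_inv, smul_eq_mul]
    ring
  have b3 : OT d.A 1 k (fun i q => (d.t0 y11 y12 i q + (2 * d.RR i q.1)⁻¹ * d.s11 y11 y12 i q.1) •
      d.ee i q) := by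
    have h := (ht.add b2).smul d.OT_ee
    rw [add_zero, add_zero] at h
    exact h
  have b4 : OT d.A 1 k (fun i q => d.s0 y11 y12 i q.1 • d.ep i q) := by
    have h := (hs0.toOT.mono (by norm_num : (1 : ℤ) ≤ 2) le_rfl).smul d.OT_ep
    rw [add_zero, add_zero] at h
    exact h
  exact (b1.add b3).add b4

/-- the mean of `Wt` vanishes: `<e> = (ζ/R) zh`, `<ep> = (ζ/R) yh` -/
theorem Mz_Wt : Mz (d.Wt y11 y12) := by
  intro i x hx
  have ht := d.OT_t0 h11 h12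
  have hz := d.Mz_t0 h11 h12 z11 z12
  have hs11 := d.OX_s11 h11 h12 z11 z12
  have hs0 := d.OX_s0 h11 h12 z11 z12
  have hR := (d.RR_pos i x).ne'
  have hze := (d.Fr.ze_pos x (SD1_O d hx)).ne'
  obtain ⟨mX, mY⟩ := d.mean_XX (i := i) hx
  have gX : OT d.A 1 k (fun i q => d.t0 y11 y12 i q * ((d.RR i q.1)⁻¹ * d.XX i q)) := by
    have h := ht.mul (SD1_Rinv_XX d)
    rwa [add_zero, add_zero] at h
  have gY : OT d.A 1 k (fun i q => d.t0 y11 y12 i q * ((d.RR i q.1)⁻¹ * d.YY i q)) := by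
    have h := ht.mul (SD1_Rinv_YY d)
    rw [add_zero] at h
    exact h.mono (by norm_num) le_rfl
  have a0 : OX d.A 3 k (fun i x => (2 * d.RR i x)⁻¹ * d.s11 y11 y12 i x) := by
    have h := (d.OX_RR_inv.mul hs11).constSmul (1 / 2)
    rw [zero_add, zero_add] at h
    refine h.congr fun i q _ => ?_
    rw [mul_inv, smul_eq_mul]
    ring
  have a1 : OX d.A 3 k (fun i x => (d.RR i x)⁻¹ * ((2 * d.RR i x)⁻¹ * d.s11 y11 y12 i x)) := by
    have h := d.OX_RR_inv.mul a0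
    rwa [zero_add, zero_add] at h
  have a2 : OX d.A 2 k (fun i x => (d.RR i x)⁻¹ * d.s0 y11 y12 i x) := by
    have h := d.OX_RR_inv.mul hs0
    rwa [zero_add, zero_add] at h
  obtain ⟨cP, mP⟩ := SD1_comb gX d.OT_XX d.OT_YY (a1.mono (by norm_num : (0 : ℤ) ≤ 3) le_rfl)
    (a2.neg.mono (by norm_num : (0 : ℤ) ≤ 2) le_rfl)
  obtain ⟨cQ, mQ⟩ := SD1_comb gY d.OT_XX d.OT_YY (a2.mono (by norm_num : (0 : ℤ) ≤ 2) le_rfl)
    (a1.mono (by norm_num : (0 : ℤ) ≤ 3) le_rfl)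
  have hT : OT d.A 1 k (fun i q => -(y12 i q) • d.Fr.T2 q.1) := by
    have h := h12.neg.smul (d.OX_frame.1).toOT
    rw [add_zero, add_zero] at h
    exact h
  have hPz := cP.smul (d.OX_frame.2.2.2.1).toOT
  have hQy := cQ.smul (d.OX_frame.2.2.2.2.1).toOT
  have e0 : mean (d.Wt y11 y12) i x = mean (fun i q => (-(y12 i q) • d.Fr.T2 q.1) +
      ((fun i q => (d.t0 y11 y12 i q * ((d.RR i q.1)⁻¹ * d.XX i q) +
        ((d.RR i q.1)⁻¹ * ((2 * d.RR i q.1)⁻¹ * d.s11 y11 y12 i q.1) * d.XX i q +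
          -((d.RR i q.1)⁻¹ * d.s0 y11 y12 i q.1) * d.YY i q)) • d.Fr.zh q.1) i q +
        (fun i q => (d.t0 y11 y12 i q * ((d.RR i q.1)⁻¹ * d.YY i q) +
        ((d.RR i q.1)⁻¹ * d.s0 y11 y12 i q.1 * d.XX i q +
          (d.RR i q.1)⁻¹ * ((2 * d.RR i q.1)⁻¹ * d.s11 y11 y12 i q.1) * d.YY i q)) •
            d.Fr.yh q.1) i q)) i x := by
    refine SD1_mean_congr (fun i q _ => ?_) i hx
    simp only [Wt, ee, ep]
    module
  have hPQ := (hPz.mono (by norm_num : (0 : ℤ) ≤ 0 + 0) le_rfl).add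
    (hQy.mono (by norm_num : (0 : ℤ) ≤ 0 + 0) le_rfl)
  rw [e0, mean_add hT hPQ hx, mean_add hPz hQy hx, mean_smulV cP (fun _ => d.Fr.zh) hx,
    mean_smulV cQ (fun _ => d.Fr.yh) hx, mean_smulV h12.neg (fun _ => d.Fr.T2) hx, mP i x hx,
    mQ i x hx, mX, mY, SD1_mean_neg, z12 i x hx]
  have s1 : d.s11 y11 y12 i x = -(2 * d.RR i x ^ 2 / d.Fr.ze x) *
    mean (fun i q => d.t0 y11 y12 i q * ((d.RR i q.1)⁻¹ * d.XX i q)) i x := rfl
  have s2 : d.s0 y11 y12 i x = -(d.RR i x / d.Fr.ze x) *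
    mean (fun i q => d.t0 y11 y12 i q * ((d.RR i q.1)⁻¹ * d.YY i q)) i x := rfl
  rw [s1, s2]
  generalize mean (fun i q => d.t0 y11 y12 i q * ((d.RR i q.1)⁻¹ * d.XX i q)) i x = M1
  generalize mean (fun i q => d.t0 y11 y12 i q * ((d.RR i q.1)⁻¹ * d.YY i q)) i x = M2
  have k1 : M1 + ((d.RR i x)⁻¹ * ((2 * d.RR i x)⁻¹ * (-(2 * d.RR i x ^ 2 / d.Fr.ze x) * M1)) *
      d.Fr.ze x + -((d.RR i x)⁻¹ * (-(d.RR i x / d.Fr.ze x) * M2)) * 0) = 0 := by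
    field_simp
    ring
  have k2 : M2 + ((d.RR i x)⁻¹ * (-(d.RR i x / d.Fr.ze x) * M2) * d.Fr.ze x +
      (d.RR i x)⁻¹ * ((2 * d.RR i x)⁻¹ * (-(2 * d.RR i x ^ 2 / d.Fr.ze x) * M1)) * 0) = 0 := by
    field_simp
    ring
  rw [k1, k2, neg_zero, zero_smul, zero_smul, zero_smul, add_zero, add_zero]

theorem OT_Vt : OT d.A 1 k (d.Vt y11 y12) :=
  OT.prim (d.OT_Wt h11 h12 z11 z12) (d.Mz_Wt h11 h12 z11 z12)

theorem Mz_Vt : Mz (d.Vt y11 y12) := Mz_prim (d.OT_Wt h11 h12 z11 z12)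

theorem dT_Vt {i : Eps} {q : (ℝ × ℝ) × ℝ} (hq : q ∈ ST.U i) :
    dT (d.Vt y11 y12) i q = d.Wt y11 y12 i q := dT_prim (d.OT_Wt h11 h12 z11 z12) hq

end ED

end P205F.EE
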