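import Mathlib
import Vale.Agent.Lib.P205E.EC8
import Vale.Agent.Lib.P205E.SD1

/-! # P205E module SD1b: update (d), sizes, second part -/

open scoped ContDiff
open Set

namespace P205F.EE

/-- reading off a class with equal exponents -/
private theorem SD1b_cast {V : Type} [NormedAddCommGroup V] [NormedSpace ℝ V] {A : Amp}
    {p m p' m' : ℤ} {u : Eps → (ℝ × ℝ) × ℝ → V} (h : OT A p m u) (hp : p = p') (hm : m = m') :
    OT A p' m' u := by
  subst hp hm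
  exact h

private theorem SD1b_cast' {V : Type} [NormedAddCommGroup V] [NormedSpace ℝ V] {A : Amp}
    {p m p' m' : ℤ} {u : Eps → ℝ × ℝ → V} (h : OX A p m u) (hp : p = p') (hm : m = m') :
    OX A p' m' u := by
  subst hp hm
  exact h

/-- the derivative of a function which vanishes on the square vanishes -/
private theorem SD1b_pd_zero {V : Type} [NormedAddCommGroup V] [NormedSpace ℝ V] {g : ℝ × ℝ → V}
    (h : ∀ x ∈ Metric.ball (0 : ℝ × ℝ) 3, g x = 0) (v : ℝ × ℝ) {x : ℝ × ℝ}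
    (hx : x ∈ Metric.ball (0 : ℝ × ℝ) 3) : pd v g x = 0 := by
  have h1 : g =ᶠ[nhds x] fun _ => (0 : V) := by
    filter_upwards [Metric.isOpen_ball.mem_nhds hx] with y hy
    exact h y hy
  unfold pd
  rw [h1.fderiv_eq, fderiv_const_apply]
  rfl

namespace ED

variable (d : ED)

variable {k : ℤ} {y11 y12 y22 : Eps → (ℝ × ℝ) × ℝ → ℝ} (h11 : OT d.A 1 k y11) (h12 : OT d.A 1 k y12)
  (h22 : OT d.A 1 (k + 1) y22) (z11 : Mz y11) (z12 : Mz y12) (z22 : Mz y22)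

include h11 h12 z11 z12

/-- `f₂.Vt` and `f₂₂.Vt` -/
private theorem SD1b_inner :
    OT d.A 1 k (fun i q => inner ℝ (pd e2 d.Fr.f q.1) (d.Vt y11 y12 i q)) ∧
      OT d.A 1 k (fun i q => inner ℝ (pd e2 (pd e2 d.Fr.f) q.1) (d.Vt y11 y12 i q)) :=
  ⟨SD1b_cast (d.OX_f2.toOT.inner (d.OT_Vt h11 h12 z11 z12)) (by ring) (by ring),
    SD1b_cast (d.OX_f22.toOT.inner (d.OT_Vt h11 h12 z11 z12)) (by ring) (by ring)⟩

omit h11 h12 z11 z12 in
include h22 in
private theorem SD1b_y22 : OT d.A 1 k (fun i q => (2 * (i : ℝ))⁻¹ * y22 i q) := by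
  refine (SD1b_cast ((h22.eps (-1)).constSmul (1 / 2)) rfl (by ring)).congr fun i q _ => ?_
  rw [zpow_neg_one, smul_eq_mul, smul_eq_mul, mul_inv]
  ring

include h22 in
theorem OT_cn : OT d.A 1 k (d.cn y11 y12 y22) := by
  obtain ⟨h1, h2⟩ := d.SD1b_inner h11 h12 z11 z12
  exact ((d.SD1b_y22 h22).add (h1.dX e2)).sub h2

include h22 z22

theorem Mz_cn : Mz (d.cn y11 y12 y22) := by
  intro i x hx
  obtain ⟨h1, h2⟩ := d.SD1b_inner h11 h12 z11 z12
  have hV := d.OT_Vt h11 h12 z11 z12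
  have hz := d.Mz_Vt h11 h12 z11 z12
  have e1' : mean (d.cn y11 y12 y22) i x =
      mean (fun i q => (2 * (i : ℝ))⁻¹ * y22 i q +
        dX e2 (fun i q => inner ℝ (pd e2 d.Fr.f q.1) (d.Vt y11 y12 i q)) i q) i x -
      mean (fun i q => inner ℝ (pd e2 (pd e2 d.Fr.f) q.1) (d.Vt y11 y12 i q)) i x :=
    mean_sub ((d.SD1b_y22 h22).add (h1.dX e2)) h2 hx
  have e2' : mean (fun i q => (2 * (i : ℝ))⁻¹ * y22 i q +
        dX e2 (fun i q => inner ℝ (pd e2 d.Fr.f q.1) (d.Vt y11 y12 i q)) i q) i x =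
      mean (fun i q => (2 * (i : ℝ))⁻¹ * y22 i q) i x +
      mean (dX e2 (fun i q => inner ℝ (pd e2 d.Fr.f q.1) (d.Vt y11 y12 i q))) i x :=
    mean_add (d.SD1b_y22 h22) (h1.dX e2) hx
  have e3' : mean (fun i q => (2 * (i : ℝ))⁻¹ * y22 i q) i x = 0 := by
    have h3 := mean_smulX (fun (i : Eps) (_ : ℝ × ℝ) => (2 * (i : ℝ))⁻¹) y22 i x
    rw [z22 i x hx, smul_zero] at h3
    exact h3
  have e4' : mean (dX e2 (fun i q => inner ℝ (pd e2 d.Fr.f q.1) (d.Vt y11 y12 i q))) i x = 0 := by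
    rw [mean_dX h1 e2 hx]
    refine SD1b_pd_zero (fun y hy => ?_) e2 hx
    have h3 := mean_innerX (fun (_ : Eps) => pd e2 d.Fr.f) hV (i := i) hy
    rw [hz i y hy, inner_zero_right] at h3
    exact h3
  have e5' : mean (fun i q => inner ℝ (pd e2 (pd e2 d.Fr.f) q.1) (d.Vt y11 y12 i q)) i x = 0 := by
    have h3 := mean_innerX (fun (_ : Eps) => pd e2 (pd e2 d.Fr.f)) hV (i := i) hx
    rw [hz i x hx, inner_zero_right] at h3
    exact h3
  rw [e1', e2', e3', e4', e5']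
  norm_num

/-- `<cn e> = <cn (e - zh)>` has size `abar²` -/
theorem OP_Vn : OP d.A k (d.Vn y11 y12 y22) := by
  have hcn := d.OT_cn h11 h12 h22 z11 z12
  have hz := d.Mz_cn h11 h12 h22 z11 z12 z22
  obtain ⟨-, hn1, -, hzh, -, hk1, -, -⟩ := d.OX_frame
  have hc : OX d.A 0 0 (fun i x => (d.RR i x)⁻¹ * d.Fr.k1 x) :=
    SD1b_cast' (d.OX_RR_inv.mul hk1) (by ring) (by ring)
  have hv : OX d.A 0 0 (fun i x => d.Fr.n1 x - ((d.RR i x)⁻¹ * d.Fr.k1 x) • d.Fr.zh x) :=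
    hn1.sub (SD1b_cast' (hc.smul hzh) (by ring) (by ring))
  have h1 : OP d.A k (fun i q => d.cn y11 y12 y22 i q •
      (d.Fr.n1 q.1 - ((d.RR i q.1)⁻¹ * d.Fr.k1 q.1) • d.Fr.zh q.1)) := by
    refine OP.ofMz (SD1b_cast (hcn.smul hv.toOT) (by ring) (by ring)) fun i x hx => ?_
    have h3 := mean_smulV hcn
      (fun i x => d.Fr.n1 x - ((d.RR i x)⁻¹ * d.Fr.k1 x) • d.Fr.zh x) (i := i) hx
    rw [hz i x hx, zero_smul] at h3
    exact h3
  have h2 : OP d.A k (fun i q => d.cn y11 y12 y22 i q •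
      (((d.RR i q.1)⁻¹ * d.Fr.k1 q.1) • (d.ee i q - d.Fr.zh q.1))) := by
    refine OP.of2 (SD1b_cast (hcn.smul (hc.toOT.smul d.OT_ee_sub)) (by ring) (by ring))
  refine (h1.sub h2).congr fun i q _ => ?_
  unfold Vn
  module

theorem OP_VtVn : OP d.A k (fun i q => d.Vt y11 y12 i q + d.Vn y11 y12 y22 i q) :=
  (OP.ofMz (d.OT_Vt h11 h12 z11 z12) (d.Mz_Vt h11 h12 z11 z12)).add
    (d.OP_Vn h11 h12 h22 z11 z12 z22)

theorem OP_UU : OP d.A (k + 1) (d.UU y11 y12 y22) := by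
  refine ((d.OP_VtVn h11 h12 h22 z11 z12 z22).eps 1).congr fun i q _ => ?_
  rw [zpow_one]
  rfl

end ED

end P205F.EE
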