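import Mathlib
import Vale.Agent.Lib.P205E.EL2b
import Vale.Agent.Lib.P205E.SD1b

/-! # P205E module SD2: update (d), pointwise identities -/

open scoped ContDiff
open Set

namespace P205F.EE

namespace ED

variable (d : ED) {k : ℤ} {y11 y12 y22 : Eps → (ℝ × ℝ) × ℝ → ℝ} (h11 : OT d.A 1 k y11)
  (h12 : OT d.A 1 k y12) (h22 : OT d.A 1 (k + 1) y22) (z11 : Mz y11) (z12 : Mz y12) (z22 : Mz y22)
  {i : Eps} {q : (ℝ × ℝ) × ℝ}

private theorem SD2_O {x : ℝ × ℝ} (hx : x ∈ Metric.ball (0 : ℝ × ℝ) 3) : x ∈ d.Fr.O :=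
  d.Fr.O_sup (Metric.ball_subset_closedBall hx)

private theorem SD2_zero (_hq : q ∈ ST.U i) :
    dT (fun (_ : Eps) (_ : (ℝ × ℝ) × ℝ) => (0 : ℝ)) i q = 0 := by
  unfold dT
  simp

include h11 h12 z11 z12

/-- `F0 . ∂_θ Vt = -y11/2 + s11/2` -/
theorem F0_dVt (hq : q ∈ ST.U i) : inner ℝ (d.F0 i q) (dT (d.Vt y11 y12) i q) =
    -(1 / 2) * y11 i q + 1 / 2 * d.s11 y11 y12 i q.1 := by
  have hR : d.RR i q.1 ≠ 0 := (d.RR_pos i q.1).ne'
  rw [d.dT_Vt h11 h12 z11 z12 hq]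
  unfold Wt
  rw [inner_add_right, inner_add_right, inner_smul_right, inner_smul_right, inner_smul_right,
    d.F0_T2 hq, d.F0_ee hq, d.F0_ep hq]
  unfold t0
  field_simp
  ring

/-- `f₂ . ∂_θ Vt = -y12` -/
theorem f2_dVt (hq : q ∈ ST.U i) : inner ℝ (pd e2 d.Fr.f q.1) (dT (d.Vt y11 y12) i q) =
    -y12 i q := by
  rw [d.dT_Vt h11 h12 z11 z12 hq]
  unfold Wt
  rw [inner_add_right, inner_add_right, inner_smul_right, inner_smul_right, inner_smul_right,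
    d.Fr.f2_T2 q.1 (d.SD2_O hq.1), d.f2_ee hq, d.f2_ep hq]
  ring

omit h11 h12 z11 z12 in
theorem F0_Vn (hq : q ∈ ST.U i) : inner ℝ (d.F0 i q) (d.Vn y11 y12 y22 i q) = 0 := by
  have hR : d.RR i q.1 ≠ 0 := (d.RR_pos i q.1).ne'
  unfold Vn
  rw [inner_smul_right, inner_sub_right, inner_smul_right, d.F0_n1 hq, d.F0_ee hq]
  field_simp
  ring

omit h11 h12 z11 z12 in
theorem f2_Vn (hq : q ∈ ST.U i) : inner ℝ (pd e2 d.Fr.f q.1) (d.Vn y11 y12 y22 i q) = 0 := by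
  unfold Vn
  rw [inner_smul_right, inner_sub_right, inner_smul_right, d.Fr.f2_n1 q.1 (d.SD2_O hq.1),
    d.f2_ee hq]
  ring

omit h11 h12 z11 z12 in
theorem f22_Vn (hq : q ∈ ST.U i) : inner ℝ (pd e2 (pd e2 d.Fr.f) q.1) (d.Vn y11 y12 y22 i q) =
    d.cn y11 y12 y22 i q := by
  unfold Vn
  rw [inner_smul_right, inner_sub_right, inner_smul_right, d.Fr.f22_n1 q.1 (d.SD2_O hq.1),
    d.f22_ee hq]
  ring

include h22 z22

/-- `F0 . ∂_θ Vn = ∂_θ (F0 . Vn) - ∂_θ F0 . Vn = 0` -/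
theorem F0_dVn (hq : q ∈ ST.U i) : inner ℝ (d.F0 i q) (dT (d.Vn y11 y12 y22) i q) = 0 := by
  have h1 := dT_inner d.OT_F0 (d.OP_Vn h11 h12 h22 z11 z12 z22).1 hq
  have h2 := (DD_congr (fun j r hr => d.F0_Vn (y11 := y11) (y12 := y12) (y22 := y22) hr)
    e1 (fun _ _ => 0) hq).2.2
  rw [h2, SD2_zero hq] at h1
  have h3 : inner ℝ (dT d.F0 i q) (d.Vn y11 y12 y22 i q) = 0 := by
    unfold Vn
    rw [inner_smul_right, inner_sub_right, inner_smul_right, real_inner_comm, d.n1_dF0 hq,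
      real_inner_comm, d.ee_dF0 hq]
    ring
  rw [h3, zero_add] at h1
  exact h1.symm

theorem f2_dVn (hq : q ∈ ST.U i) :
    inner ℝ (pd e2 d.Fr.f q.1) (dT (d.Vn y11 y12 y22) i q) = 0 := by
  have h1 := dT_inner (d.OX_f2).toOT (d.OP_Vn h11 h12 h22 z11 z12 z22).1 hq
  have h2 := (DD_congr (fun j r hr => d.f2_Vn (y11 := y11) (y12 := y12) (y22 := y22) hr)
    e1 (fun _ _ => 0) hq).2.2
  rw [h2, SD2_zero hq, dT_ofX (u := fun _ => pd e2 d.Fr.f) (d.OX_f2).1 hq, inner_zero_left,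
    zero_add] at h1
  exact h1.symm

end ED

end P205F.EE
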