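import Mathlib
import Vale.Agent.Lib.P205E.EU
import Vale.Agent.Lib.P205E.SD2

/-! # P205E module SD4: update (d), the change of the metric, component 22

`2 D_2FF.D_2U = 2 D_2(D_2FF.U) - 2 (D_2D_2FF).U`, `D_2FF.U = ε f₂.Vt + O(2,k+2)`,
`(D_2D_2FF).U = ε f₂₂.Vt + ε cn + O(2,k+2)`, `D_2(ε f₂.Vt) = ε ∂₂(f₂.Vt) - ψ₂ y12`. -/

open scoped ContDiff
open Set

namespace P205F.EE

namespace ED

theorem SD4_22 (d : ED) {k : ℤ} {y11 y12 y22 : Eps → (ℝ × ℝ) × ℝ → ℝ} (h11 : OT d.A 1 k y11)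
    (h12 : OT d.A 1 k y12) (h22 : OT d.A 1 (k + 1) y22) (z11 : Mz y11) (z12 : Mz y12)
    (z22 : Mz y22) {FF : Eps → (ℝ × ℝ) × ℝ → F4} {ψ : Eps → ℝ × ℝ → ℝ}
    (hV : OP d.A 2 (d.VV FF)) (hψ : OX d.A 0 2 ψ) (hk : 1 ≤ k) : OP d.A (k + 2) (fun i q =>
    2 * inner ℝ (DD e2 ψ FF i q) (DD e2 ψ (d.UU y11 y12 y22) i q) +
      inner ℝ (DD e2 ψ (d.UU y11 y12 y22) i q) (DD e2 ψ (d.UU y11 y12 y22) i q) +
      y22 i q) := by
  have hU : OP d.A (k + 1) (d.UU y11 y12 y22) := d.OP_UU h11 h12 h22 z11 z12 z22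
  have hUT : OT d.A 1 (k + 1) (d.UU y11 y12 y22) := hU.1
  have hVt : OT d.A 1 k (d.Vt y11 y12) := d.OT_Vt h11 h12 z11 z12
  have hr2 := d.D2_sub hV hψ
  have hr22 := d.D22_sub hV hψ
  have hf2T : OT d.A 0 0 (fun (_ : Eps) (q : (ℝ × ℝ) × ℝ) => pd e2 d.Fr.f q.1) := d.OX_f2.toOT
  obtain ⟨g, hgdef⟩ : ∃ g : Eps → (ℝ × ℝ) × ℝ → ℝ,
      g = fun i q => inner ℝ (pd e2 d.Fr.f q.1) (d.Vt y11 y12 i q) := ⟨_, rfl⟩
  have hg : OT d.A 1 k g := by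
    rw [hgdef]
    exact (hf2T.inner hVt).mono (by norm_num) (by omega)
  have hge : OT d.A 1 (k + 1) (fun i q => (i : ℝ) • g i q) :=
    (hg.eps 1).congr fun i q _ => by rw [zpow_one]
  obtain ⟨A1, hA1def⟩ : ∃ A1 : Eps → (ℝ × ℝ) × ℝ → ℝ, A1 = fun i q =>
      inner ℝ (DD e2 ψ FF i q - pd e2 d.Fr.f q.1) (d.UU y11 y12 y22 i q) := ⟨_, rfl⟩
  have hA1 : OT d.A 2 (k + 2) A1 := by
    rw [hA1def]
    exact (hr2.inner hUT).mono (by norm_num) (by omega)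
  obtain ⟨A2, hA2def⟩ : ∃ A2 : Eps → (ℝ × ℝ) × ℝ → ℝ, A2 = fun i q =>
      inner ℝ (DD e2 ψ (DD e2 ψ FF) i q - pd e2 (pd e2 d.Fr.f) q.1) (d.UU y11 y12 y22 i q) :=
    ⟨_, rfl⟩
  have hA2 : OT d.A 2 (k + 2) A2 := by
    rw [hA2def]
    exact (hr22.inner hUT).mono (by norm_num) (by omega)
  have t1 : OP d.A (k + 2) (fun i q => pd e2 (ψ i) q.1 * y12 i q) :=
    (OP.mulX (hψ.pd e2) (OP.ofMz h12 z12)).mono (by omega)
  have t2 : OP d.A (k + 2) (DD e2 ψ A1) := OP.of2 (hA1.DD2 hψ)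
  have t3 : OP d.A (k + 2) A2 := OP.of2 hA2
  have t4 : OP d.A (k + 2) (fun i q =>
      inner ℝ (DD e2 ψ (d.UU y11 y12 y22) i q) (DD e2 ψ (d.UU y11 y12 y22) i q)) :=
    OP.of2 (((hUT.DD2 hψ).inner (hUT.DD2 hψ)).mono (by norm_num) (by omega))
  refine ((((t1.add t1).neg.add (t2.add t2)).sub (t3.add t3)).add t4).congr fun i q hq => ?_
  have hi : (i : ℝ) ≠ 0 := i.2.1.ne'
  -- the inner product of a vector with U
  have hUin : ∀ (i : Eps) (q : (ℝ × ℝ) × ℝ) (v : F4), inner ℝ v (d.UU y11 y12 y22 i q) =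
      (i : ℝ) * (inner ℝ v (d.Vt y11 y12 i q) + inner ℝ v (d.Vn y11 y12 y22 i q)) := by
    intro i q v
    unfold UU
    rw [real_inner_smul_right, inner_add_right]
  have e1 : ∀ i, ∀ q ∈ ST.U i, inner ℝ (DD e2 ψ FF i q) (d.UU y11 y12 y22 i q) =
      (i : ℝ) • g i q + A1 i q := by
    intro i q hq
    have h1 : inner ℝ (pd e2 d.Fr.f q.1) (d.UU y11 y12 y22 i q) = (i : ℝ) * g i q := by
      rw [hUin, d.f2_Vn hq, add_zero, hgdef]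
    rw [hA1def, smul_eq_mul, ← h1]
    simp only [inner_sub_left]
    ring
  have e2' : DD e2 ψ (fun i q => inner ℝ (DD e2 ψ FF i q) (d.UU y11 y12 y22 i q)) i q =
      (i : ℝ) * DD e2 ψ g i q + DD e2 ψ A1 i q := by
    rw [(DD_congr e1 e2 ψ hq).1, DD_add hge hA1 e2 ψ hq, DD_epsSmul (fun i => (i : ℝ)) hg e2 ψ hq,
      smul_eq_mul]
  have e3 : dT g i q = -y12 i q := by
    rw [hgdef, dT_inner hf2T hVt hq, dT_ofX (u := fun _ => pd e2 d.Fr.f) (fun j => d.OX_f2.smooth j) hq,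
      inner_zero_left, zero_add, d.f2_dVt h11 h12 z11 z12 hq]
  have e4 : DD e2 ψ g i q = dX e2 g i q - (i : ℝ)⁻¹ * (pd e2 (ψ i) q.1 * y12 i q) := by
    unfold DD
    rw [e3]
    have : (e2 : ℝ × ℝ).1 = 0 := rfl
    rw [this, smul_eq_mul]
    ring
  have e5 : inner ℝ (DD e2 ψ (DD e2 ψ FF) i q) (d.UU y11 y12 y22 i q) =
      (i : ℝ) * (inner ℝ (pd e2 (pd e2 d.Fr.f) q.1) (d.Vt y11 y12 i q) + d.cn y11 y12 y22 i q) +
        A2 i q := by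
    have h1 := hUin i q (pd e2 (pd e2 d.Fr.f) q.1)
    rw [d.f22_Vn hq] at h1
    rw [← h1, hA2def]
    simp only [inner_sub_left]
    ring
  have e6 : d.cn y11 y12 y22 i q = (2 * (i : ℝ))⁻¹ * y22 i q + dX e2 g i q -
      inner ℝ (pd e2 (pd e2 d.Fr.f) q.1) (d.Vt y11 y12 i q) := by
    unfold cn
    rw [hgdef]
  rw [d.D2_leib hV hψ hUT hq, e2', e4, e5, e6]
  field_simp
  ring

end ED

end P205F.EE
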