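import Vale.Agent.Lib.P205E.SD3
import Vale.Agent.Lib.P205E.SD4

/-! # P205E module SD: update (d) and the start of the induction

`stepD`: `FF' = FF + UU`, errors `M11 = m11 + s11`, `Y11 = (SD3_11 remainder)`, etc.
`start`: `FF0 = f + ε u1`, `ψ = 0`:
`g11 = |f₁|² + abar² + y11 + ε²|∂₁u1|²`, `y11 = 2 ε F0.∂₁u1`, `g12 = f₁.f₂ + y12 + ε² ∂₁u1.∂₂u1`,
`y12 = ε (F0.∂₂u1 + f₂.∂₁u1)`, `g22 = |f₂|² + ε²|∂₂u1|²` (because `f₂.∂₂u1 = ∂₂(f₂.u1) - f₂₂.u1 = 0`);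
`y11, y12` are odd in `θ`, so of mean zero, and `t0` is odd so `s11 = 0`; apply SD3, SD4 with `k = 1` and
`y22 = ε²(|∂₂u1|² - <|∂₂u1|²>)`. -/

open scoped ContDiff
open Set

namespace P205F.EE

namespace ED

variable (d : ED)

/-- the update (d) with additional remainders `r` that are already small -/
theorem SD_core {k k11 : ℤ} (hk : 1 ≤ k) (hk11 : k11 ≤ k + 1) {FF : Eps → (ℝ × ℝ) × ℝ → F4}
    {ψ : Eps → ℝ × ℝ → ℝ} {m11 m12 m22 : Eps → ℝ × ℝ → ℝ}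
    {y11 y12 y22 r11 r12 r22 : Eps → (ℝ × ℝ) × ℝ → ℝ}
    (hV : OP d.A 2 (d.VV FF)) (hψ : OX d.A 0 2 ψ)
    (err : d.Err FF ψ m11 m12 m22 (fun i q => y11 i q + r11 i q) (fun i q => y12 i q + r12 i q)
      (fun i q => y22 i q + r22 i q))
    (hm11 : OX d.A 2 k11 m11) (hm12 : OX d.A 2 (k + 1) m12) (hm22 : OX d.A 2 (k + 1) m22)
    (h11 : OT d.A 1 k y11) (h12 : OT d.A 1 k y12) (h22 : OT d.A 1 (k + 1) y22)
    (z11 : Mz y11) (z12 : Mz y12) (z22 : Mz y22)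
    (hr11 : OP d.A (k + 1) r11) (hr12 : OP d.A (k + 1) r12) (hr22 : OP d.A (k + 2) r22)
    (hs : OX d.A 2 k11 (d.s11 y11 y12)) :
    d.StE k11 (k + 1) (k + 1) (k + 1) (k + 2) (fun i q => FF i q + d.UU y11 y12 y22 i q) ψ := by
  have hU : OP d.A (k + 1) (d.UU y11 y12 y22) := d.OP_UU h11 h12 h22 z11 z12 z22
  have g11 := (d.SD3_11 h11 h12 h22 z11 z12 z22 hV hψ hk).add hr11
  have g12 := (d.SD3_12 h11 h12 h22 z11 z12 z22 hV hψ hk).add hr12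
  have g22 := (d.SD4_22 h11 h12 h22 z11 z12 z22 hV hψ hk).add hr22
  refine StE.mk' d (M11 := fun i x => m11 i x + d.s11 y11 y12 i x) (M12 := m12) (M22 := m22)
    (d.VV_add hV (hU.mono (by omega))) hψ ?_ (hm11.add hs) hm12 hm22 g11.1 g12.1 g22.1
    ((g11.2.mono (by norm_num) hk11)) (g12.2.mono le_rfl (by omega))
    (g22.2.mono le_rfl (by omega))
  intro i q hq
  obtain ⟨e11, e12, e22⟩ := err i q hq
  refine ⟨?_, ?_, ?_⟩
  · rw [d.metric_add hV hψ hU.1 e1 e1 hq, e11]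
    ring
  · rw [d.metric_add hV hψ hU.1 e1 e2 hq, e12]
    ring
  · rw [d.metric_add hV hψ hU.1 e2 e2 hq, e22]
    ring

theorem stepD {k : ℤ} (hk : 1 ≤ k) {FF : Eps → (ℝ × ℝ) × ℝ → F4} {ψ : Eps → ℝ × ℝ → ℝ}
    (h : d.StE k (k + 1) (k + 1) k (k + 1) FF ψ) :
    ∃ FF', d.StE k (k + 1) (k + 1) (k + 1) (k + 2) FF' ψ := by
  obtain ⟨m11, m12, m22, y11, y12, y22, h⟩ := h
  refine ⟨_, d.SD_core hk (by omega) (r11 := fun _ _ => 0) (r12 := fun _ _ => 0)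
    (r22 := fun _ _ => 0) h.hV h.hψ ?_ h.hm11 h.hm12 h.hm22 h.hy11 h.hy12 h.hy22 h.zy11 h.zy12
    h.zy22 OP.zero OP.zero OP.zero
    ((d.OX_s11 h.hy11 h.hy12 h.zy11 h.zy12).mono (by norm_num) le_rfl)⟩
  intro i q hq
  obtain ⟨e11, e12, e22⟩ := h.err i q hq
  refine ⟨?_, ?_, ?_⟩
  · rw [e11]
    simp only [add_zero]
  · rw [e12]
    simp only [add_zero]
  · rw [e22]
    simp only [add_zero]

/-- the derivative in `x` of a function odd in `θ` is odd in `θ` -/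
theorem SD_dX_odd {p m : ℤ} {u : Eps → (ℝ × ℝ) × ℝ → F4} (hu : OT d.A p m u)
    (h : ∀ i, ∀ x ∈ Metric.ball (0 : ℝ × ℝ) 3, ∀ θ : ℝ, u i (x, -θ) = -u i (x, θ))
    (v : ℝ × ℝ) (i : Eps) {x : ℝ × ℝ} (hx : x ∈ Metric.ball (0 : ℝ × ℝ) 3) (θ : ℝ) :
    dX v u i (x, -θ) = -dX v u i (x, θ) := by
  have hd : ∀ θ : ℝ, HasFDerivAt (u i) (fderiv ℝ (u i) (x, θ)) (x, θ) := fun θ =>
    (((hu.1.1 i).contDiffAt ((ST.isOpen i).mem_nhds ⟨hx, mem_univ _⟩)).differentiableAt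
      (by simp)).hasFDerivAt
  let j : ℝ → ℝ × ℝ → (ℝ × ℝ) × ℝ := fun θ y => (y, θ)
  have hj : ∀ θ : ℝ, HasFDerivAt (j θ) (ContinuousLinearMap.inl ℝ (ℝ × ℝ) ℝ) x := by
    intro θ
    have h1 : HasFDerivAt (fun y : ℝ × ℝ => (y, θ))
        ((ContinuousLinearMap.id ℝ (ℝ × ℝ)).prod (0 : (ℝ × ℝ) →L[ℝ] ℝ)) x :=
      (hasFDerivAt_id x).prodMk (hasFDerivAt_const θ x)
    exact h1
  have hc : ∀ θ : ℝ, HasFDerivAt (fun y => u i (y, θ))
      ((fderiv ℝ (u i) (x, θ)).comp (ContinuousLinearMap.inl ℝ (ℝ × ℝ) ℝ)) x := fun θ =>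
    HasFDerivAt.comp x (g := u i) (f := j θ) (hd θ) (hj θ)
  have h1 : HasFDerivAt (fun y => u i (y, -θ))
      (-((fderiv ℝ (u i) (x, θ)).comp (ContinuousLinearMap.inl ℝ (ℝ × ℝ) ℝ))) x := by
    refine (hc θ).neg.congr_of_eventuallyEq ?_
    filter_upwards [Metric.isOpen_ball.mem_nhds hx] with y hy
    exact h i y hy θ
  have h2 := (hc (-θ)).unique h1
  have h3 := congrArg (fun L : (ℝ × ℝ) →L[ℝ] F4 => L v) h2
  exact h3

theorem SD_dX_u1_odd (v : ℝ × ℝ) (i : Eps) {x : ℝ × ℝ} (hx : x ∈ Metric.ball (0 : ℝ × ℝ) 3)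
    (θ : ℝ) : dX v d.u1 i (x, -θ) = -dX v d.u1 i (x, θ) :=
  d.SD_dX_odd d.OT_u1 (fun i _ hx θ => d.u1_odd i hx θ) v i hx θ

theorem SD_pd_zero (v x : ℝ × ℝ) : pd v (fun _ : ℝ × ℝ => (0 : ℝ)) x = 0 := by
  unfold pd
  rw [fderiv_fun_const]
  rfl

/-- the first approximation -/
noncomputable def SD_FF (i : Eps) (q : (ℝ × ℝ) × ℝ) : F4 := d.Fr.f q.1 + (i : ℝ) • d.u1 i q

theorem SD_DD (v : ℝ × ℝ) {i : Eps} {q : (ℝ × ℝ) × ℝ} (hq : q ∈ ST.U i) :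
    DD v (fun _ _ => 0) d.SD_FF i q =
      pd v d.Fr.f q.1 + v.1 • d.Lz i q + (i : ℝ) • dX v d.u1 i q := by
  have hi : (i : ℝ) ≠ 0 := i.2.1.ne'
  have hf : OT d.A 0 0 (fun _ q => d.Fr.f q.1) := d.OX_f.toOT
  have h1 : OT d.A 1 (0 + 1) (fun i q => (i : ℝ) ^ (1 : ℤ) • d.u1 i q) := d.OT_u1.eps 1
  have h2 : OT d.A 1 (0 + 1) (fun i q => (i : ℝ) • d.u1 i q) := by
    refine h1.congr fun i q _ => ?_
    rw [zpow_one]
  have h3 : DD v (fun _ _ => 0) d.SD_FF i q =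
      DD v (fun _ _ => 0) (fun _ q => d.Fr.f q.1) i q +
        DD v (fun _ _ => 0) (fun i q => (i : ℝ) • d.u1 i q) i q :=
    DD_add hf h2 v (fun _ _ => 0) hq
  have h4 : DD v (fun _ _ => 0) (fun (_ : Eps) q => d.Fr.f q.1) i q = pd v d.Fr.f q.1 :=
    DD_ofX (u := fun _ => d.Fr.f) (fun i => d.OX_f.smooth i) v (fun _ _ => 0) hq
  have h5 : DD v (fun _ _ => 0) (fun i q => (i : ℝ) • d.u1 i q) i q =
      (i : ℝ) • DD v (fun _ _ => 0) d.u1 i q := DD_epsSmul (fun i => (i : ℝ)) d.OT_u1 v _ hq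
  rw [h3, h4, h5]
  unfold DD
  rw [SD_pd_zero, d.dT_u1 hq, smul_add, smul_smul, add_zero, ← mul_assoc, mul_inv_cancel₀ hi,
    one_mul]
  abel

theorem SD_f2_dX_u1 {i : Eps} {q : (ℝ × ℝ) × ℝ} (hq : q ∈ ST.U i) :
    inner ℝ (pd e2 d.Fr.f q.1) (dX e2 d.u1 i q) = 0 := by
  have hf2 : OT d.A 0 0 (fun _ q => pd e2 d.Fr.f q.1) := d.OX_f2.toOT
  have h1 := dX_inner hf2 d.OT_u1 e2 hq
  have h2 : dX e2 (fun (i : Eps) q => inner ℝ (pd e2 d.Fr.f q.1) (d.u1 i q)) i q =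
      dX e2 (fun _ _ => (0 : ℝ)) i q :=
    (DD_congr (fun i q hq => d.f2_u1 hq) e2 (fun _ _ => 0) hq).2.1
  have h3 : dX e2 (fun (_ : Eps) (_ : (ℝ × ℝ) × ℝ) => (0 : ℝ)) i q = 0 := by
    unfold dX
    rw [fderiv_fun_const]
    rfl
  have h4 : dX e2 (fun (_ : Eps) q => pd e2 d.Fr.f q.1) i q = pd e2 (pd e2 d.Fr.f) q.1 :=
    dX_ofX (u := fun _ => pd e2 d.Fr.f) (fun i => d.OX_f2.smooth i) e2 hq
  rw [h2, h3, h4, d.f22_u1 hq, zero_add] at h1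
  exact h1.symm

theorem start : ∃ FF, d.StE 2 2 2 2 3 FF (fun _ _ => 0) := by
  -- the sizes
  have hu1 := d.OT_u1
  have hd1 : OT d.A 1 0 (dX e1 d.u1) := hu1.dX e1
  have hd2 : OT d.A 1 0 (dX e2 d.u1) := hu1.dX e2
  have hf2 : OT d.A 0 0 (fun _ q => pd e2 d.Fr.f q.1) := d.OX_f2.toOT
  have hF0 := d.OT_F0
  -- the errors
  let y11 : Eps → (ℝ × ℝ) × ℝ → ℝ := fun i q => 2 * ((i : ℝ) * inner ℝ (d.F0 i q) (dX e1 d.u1 i q))
  let y12 : Eps → (ℝ × ℝ) × ℝ → ℝ := fun i q => (i : ℝ) *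
    (inner ℝ (d.F0 i q) (dX e2 d.u1 i q) + inner ℝ (pd e2 d.Fr.f q.1) (dX e1 d.u1 i q))
  let g22 : Eps → (ℝ × ℝ) × ℝ → ℝ := fun i q => (i : ℝ) ^ 2 *
    inner ℝ (dX e2 d.u1 i q) (dX e2 d.u1 i q)
  let r11 : Eps → (ℝ × ℝ) × ℝ → ℝ := fun i q => (i : ℝ) ^ 2 *
    inner ℝ (dX e1 d.u1 i q) (dX e1 d.u1 i q)
  let r12 : Eps → (ℝ × ℝ) × ℝ → ℝ := fun i q => (i : ℝ) ^ 2 *
    inner ℝ (dX e1 d.u1 i q) (dX e2 d.u1 i q)
  let y22 : Eps → (ℝ × ℝ) × ℝ → ℝ := fun i q => g22 i q - mean g22 i q.1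
  have hy11 : OT d.A 1 1 y11 := by
    have h1 := ((hF0.inner hd1).eps 1).constSmul 2
    refine (h1.mono (by norm_num) (by norm_num)).congr fun i q _ => ?_
    simp only [y11, zpow_one, smul_eq_mul]
  have hy12 : OT d.A 1 1 y12 := by
    have h1 := ((hF0.inner hd2).add (hf2.inner hd1)).eps 1
    refine (h1.mono (by norm_num) (by norm_num)).congr fun i q _ => ?_
    simp only [y12, zpow_one, smul_eq_mul]
  have hg22 : OT d.A 2 2 g22 := by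
    have h1 := (hd2.inner hd2).eps 2
    refine (h1.mono (by norm_num) (by norm_num)).congr fun i q _ => ?_
    simp only [g22, smul_eq_mul]
    norm_cast
  have hr11 : OT d.A 2 2 r11 := by
    have h1 := (hd1.inner hd1).eps 2
    refine (h1.mono (by norm_num) (by norm_num)).congr fun i q _ => ?_
    simp only [r11, smul_eq_mul]
    norm_cast
  have hr12 : OT d.A 2 2 r12 := by
    have h1 := (hd1.inner hd2).eps 2
    refine (h1.mono (by norm_num) (by norm_num)).congr fun i q _ => ?_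
    simp only [r12, smul_eq_mul]
    norm_cast
  have hm22 : OX d.A 2 2 (mean g22) := hg22.mean
  have hy22 : OT d.A 2 2 y22 := hg22.sub hm22.toOT
  -- parity
  have o11 : ∀ i, ∀ x ∈ Metric.ball (0 : ℝ × ℝ) 3, ∀ θ : ℝ, y11 i (x, -θ) = -y11 i (x, θ) := by
    intro i x hx θ
    simp only [y11]
    rw [(d.Lz_even i x θ).2.1, d.SD_dX_u1_odd e1 i hx θ, inner_neg_right]
    ring
  have o12 : ∀ i, ∀ x ∈ Metric.ball (0 : ℝ × ℝ) 3, ∀ θ : ℝ, y12 i (x, -θ) = -y12 i (x, θ) := by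
    intro i x hx θ
    simp only [y12]
    rw [(d.Lz_even i x θ).2.1, d.SD_dX_u1_odd e1 i hx θ, d.SD_dX_u1_odd e2 i hx θ,
      inner_neg_right, inner_neg_right]
    ring
  have z11 : Mz y11 := Mz_of_odd hy11 o11
  have z12 : Mz y12 := Mz_of_odd hy12 o12
  have z22 : Mz y22 := by
    intro i x hx
    have h1 := mean_sub hg22 hm22.toOT (i := i) hx
    rw [mean_ofX (mean g22) i x, sub_self] at h1
    exact h1
  -- `s11 = 0`
  have hs : OX d.A 2 2 (d.s11 y11 y12) := by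
    refine OX.zero.congr fun i x hx => ?_
    have ht : OT d.A 1 1 (d.t0 y11 y12) := d.OT_t0 hy11 hy12
    have hx1 : OT d.A 0 0 (fun i q => (d.RR i q.1)⁻¹ * d.XX i q) :=
      (d.OX_RR_inv.toOT.mul d.OT_XX).mono (by norm_num) (by norm_num)
    have hz : Mz (fun i q => d.t0 y11 y12 i q * ((d.RR i q.1)⁻¹ * d.XX i q)) := by
      refine Mz_of_odd (ht.mul hx1) fun i x hx θ => ?_
      simp only [t0]
      rw [o11 i x hx θ, o12 i x hx θ, (d.Lz_even i x θ).2.2.1]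
      ring
    unfold s11
    rw [hz i x hx, mul_zero]
  have hV0 : OP d.A 2 (d.VV d.SD_FF) := by
    refine OP.zero.congr fun i q _ => ?_
    unfold VV SD_FF
    rw [add_sub_cancel_left, sub_self]
  have hc := d.SD_core (k := 1) (k11 := 2) le_rfl (by norm_num) (FF := d.SD_FF)
    (ψ := fun _ _ => 0) (m11 := fun _ _ => 0) (m12 := fun _ _ => 0) (m22 := mean g22)
    (y11 := y11) (y12 := y12) (y22 := y22) (r11 := r11) (r12 := r12) (r22 := fun _ _ => 0)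
    hV0 OX.zero ?_ OX.zero OX.zero hm22 hy11 hy12 (hy22.mono (by norm_num) le_rfl) z11 z12 z22
    (OP.of2 hr11) (OP.of2 hr12) OP.zero hs
  · exact ⟨_, hc⟩
  · intro i q hq
    have hD1 : DD e1 (fun _ _ => 0) d.SD_FF i q = d.F0 i q + (i : ℝ) • dX e1 d.u1 i q := by
      rw [d.SD_DD e1 hq]
      unfold F0
      have : (e1 : ℝ × ℝ).1 = 1 := rfl
      rw [this, one_smul]
    have hD2 : DD e2 (fun _ _ => 0) d.SD_FF i q =
        pd e2 d.Fr.f q.1 + (i : ℝ) • dX e2 d.u1 i q := by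
      rw [d.SD_DD e2 hq]
      have : (e2 : ℝ × ℝ).1 = 0 := rfl
      rw [this, zero_smul, add_zero]
    have hz := d.SD_f2_dX_u1 hq
    refine ⟨?_, ?_, ?_⟩
    · rw [hD1]
      simp only [inner_add_left, inner_add_right, real_inner_smul_left, real_inner_smul_right,
        y11, r11]
      rw [d.F0_F0 hq, real_inner_comm (d.F0 i q) (dX e1 d.u1 i q)]
      ring
    · rw [hD1, hD2]
      simp only [inner_add_left, inner_add_right, real_inner_smul_left, real_inner_smul_right,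
        y12, r12]
      rw [d.F0_f2 hq, real_inner_comm (pd e2 d.Fr.f q.1) (dX e1 d.u1 i q)]
      ring
    · rw [hD2]
      simp only [inner_add_left, inner_add_right, real_inner_smul_left, real_inner_smul_right,
        y22, g22]
      rw [real_inner_comm (pd e2 d.Fr.f q.1) (dX e2 d.u1 i q), hz]
      ring

end ED

end P205F.EE
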