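import Mathlib
import Vale.Agent.Lib.P205E.EU
import Vale.Agent.Lib.P205E.SD2

/-! # P205E module SD3: update (d), the change of the metric, components 11 and 12

`U = ε V`, `V = Vt + Vn ∈ O'(k)`: `D_1 U = (1+ψ₁) ∂_θV + ε ∂₁V`, `D_2 U = ψ₂ ∂_θV + ε ∂₂V`. -/

open scoped ContDiff
open Set

namespace P205F.EE

namespace ED

variable (d : ED) {k : ℤ} {y11 y12 y22 : Eps → (ℝ × ℝ) × ℝ → ℝ} (h11 : OT d.A 1 k y11)
  (h12 : OT d.A 1 k y12) (h22 : OT d.A 1 (k + 1) y22) (z11 : Mz y11) (z12 : Mz y12) (z22 : Mz y22)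
  {FF : Eps → (ℝ × ℝ) × ℝ → F4} {ψ : Eps → ℝ × ℝ → ℝ} (hV : OP d.A 2 (d.VV FF))
  (hψ : OX d.A 0 2 ψ) (hk : 1 ≤ k)

/-- `V = Vt + Vn` -/
private noncomputable def SD3_V (y11 y12 y22 : Eps → (ℝ × ℝ) × ℝ → ℝ) (i : Eps)
    (q : (ℝ × ℝ) × ℝ) : F4 := d.Vt y11 y12 i q + d.Vn y11 y12 y22 i q

include h11 h12 h22 z11 z12 z22

private theorem SD3_OPV : OP d.A k (d.SD3_V y11 y12 y22) := d.OP_VtVn h11 h12 h22 z11 z12 z22

private theorem SD3_D1U {i : Eps} {q : (ℝ × ℝ) × ℝ} (hq : q ∈ ST.U i) :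
    DD e1 ψ (d.UU y11 y12 y22) i q =
      (i : ℝ) • dX e1 (d.SD3_V y11 y12 y22) i q +
        (1 + pd e1 (ψ i) q.1) • dT (d.SD3_V y11 y12 y22) i q := by
  have h1 : DD e1 ψ (d.UU y11 y12 y22) i q = (i : ℝ) • DD e1 ψ (d.SD3_V y11 y12 y22) i q :=
    DD_epsSmul (fun i => (i : ℝ)) (d.SD3_OPV h11 h12 h22 z11 z12 z22).1 e1 ψ hq
  have hi : (i : ℝ) ≠ 0 := i.2.1.ne'
  rw [h1]
  unfold DD
  rw [smul_add, smul_smul, mul_inv_cancel_left₀ hi]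
  rfl

private theorem SD3_dTV {i : Eps} {q : (ℝ × ℝ) × ℝ} (hq : q ∈ ST.U i) :
    dT (d.SD3_V y11 y12 y22) i q =
      dT (d.Vt y11 y12) i q + dT (d.Vn y11 y12 y22) i q :=
  dT_add (d.OT_Vt h11 h12 z11 z12) (d.OP_Vn h11 h12 h22 z11 z12 z22).1 hq

private theorem SD3_F0 {i : Eps} {q : (ℝ × ℝ) × ℝ} (hq : q ∈ ST.U i) :
    2 * inner ℝ (d.F0 i q) (dT (d.SD3_V y11 y12 y22) i q) = - y11 i q + d.s11 y11 y12 i q.1 := by
  rw [d.SD3_dTV h11 h12 h22 z11 z12 z22 hq, inner_add_right, d.F0_dVt h11 h12 z11 z12 hq,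
    d.F0_dVn h11 h12 h22 z11 z12 z22 hq]
  ring

private theorem SD3_f2 {i : Eps} {q : (ℝ × ℝ) × ℝ} (hq : q ∈ ST.U i) :
    inner ℝ (pd e2 d.Fr.f q.1) (dT (d.SD3_V y11 y12 y22) i q) = - y12 i q := by
  rw [d.SD3_dTV h11 h12 h22 z11 z12 z22 hq, inner_add_right, d.f2_dVt h11 h12 z11 z12 hq,
    d.f2_dVn h11 h12 h22 z11 z12 z22 hq, add_zero]

include hV hψ hk

theorem SD3_11 : OP d.A (k + 1) (fun i q =>
    2 * inner ℝ (DD e1 ψ FF i q) (DD e1 ψ (d.UU y11 y12 y22) i q) +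
      inner ℝ (DD e1 ψ (d.UU y11 y12 y22) i q) (DD e1 ψ (d.UU y11 y12 y22) i q) +
      y11 i q - d.s11 y11 y12 i q.1) := by
  have hVV := d.SD3_OPV h11 h12 h22 z11 z12 z22
  have hU := d.OP_UU h11 h12 h22 z11 z12 z22
  have hψ1 : OX d.A 0 2 (fun i x => pd e1 (ψ i) x) := hψ.pd e1
  -- the size of D_1 U
  have hD1 : OT d.A 1 k (DD e1 ψ (d.UU y11 y12 y22)) := by
    have h := hU.1.DD1 hψ
    rwa [add_sub_cancel_right] at h
  -- the terms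
  have t1 : OP d.A (k + 1) (fun i q => pd e1 (ψ i) q.1 * (-y11 i q + d.s11 y11 y12 i q.1)) := by
    have a1 : OP d.A k (fun i q => -y11 i q + d.s11 y11 y12 i q.1) :=
      (OP.ofMz h11 z11).neg.add (OP.ofX2 ((d.OX_s11 h11 h12 z11 z12).mono (by norm_num) le_rfl))
    exact (OP.mulX hψ1 a1).mono (by omega)
  have t2 : OP d.A (k + 1) (fun i q => 2 * inner ℝ (DD e1 ψ FF i q - d.F0 i q)
      (DD e1 ψ (d.UU y11 y12 y22) i q)) := by
    have a1 := (d.D1_sub hV hψ).inner hD1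
    have a2 : OT d.A 2 (k + 1) (fun i q => inner ℝ (DD e1 ψ FF i q - d.F0 i q)
      (DD e1 ψ (d.UU y11 y12 y22) i q)) := a1.mono (by norm_num) (by omega)
    exact OP.of2 (a2.constSmul 2)
  have t3 : OP d.A (k + 1) (fun i q => 2 * ((i : ℝ) *
      inner ℝ (pd e1 d.Fr.f q.1) (dX e1 (d.SD3_V y11 y12 y22) i q))) := by
    have a1 := (OP.innerX d.OX_f1 (hVV.dX e1)).eps 1
    have a2 : OP d.A (k + 1) (fun i q => (i : ℝ) *
      inner ℝ (pd e1 d.Fr.f q.1) (dX e1 (d.SD3_V y11 y12 y22) i q)) := by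
      refine (a1.mono (by omega)).congr fun i q _ => ?_
      rw [zpow_one, smul_eq_mul]
    refine (a2.add a2).congr fun i q _ => ?_
    ring
  have t4 : OP d.A (k + 1) (fun i q => 2 * ((i : ℝ) *
      inner ℝ (d.Lz i q) (dX e1 (d.SD3_V y11 y12 y22) i q))) := by
    have a1 := (d.OT_Lz.inner (hVV.1.dX e1)).eps 1
    have a2 : OT d.A 2 (k + 1) (fun i q => (i : ℝ) *
      inner ℝ (d.Lz i q) (dX e1 (d.SD3_V y11 y12 y22) i q)) := by
      refine (a1.mono (by norm_num) (by omega)).congr fun i q _ => ?_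
      rw [zpow_one, smul_eq_mul]
    exact OP.of2 (a2.constSmul 2)
  have t5 : OP d.A (k + 1) (fun i q =>
      inner ℝ (DD e1 ψ (d.UU y11 y12 y22) i q) (DD e1 ψ (d.UU y11 y12 y22) i q)) :=
    OP.of2 ((hD1.inner hD1).mono (by norm_num) (by omega))
  refine ((((t1.add t2).add t3).add t4).add t5).congr fun i q hq => ?_
  have e1' : inner ℝ (d.F0 i q) (DD e1 ψ (d.UU y11 y12 y22) i q) =
      (i : ℝ) * inner ℝ (pd e1 d.Fr.f q.1) (dX e1 (d.SD3_V y11 y12 y22) i q) +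
      (i : ℝ) * inner ℝ (d.Lz i q) (dX e1 (d.SD3_V y11 y12 y22) i q) +
      (1 + pd e1 (ψ i) q.1) * inner ℝ (d.F0 i q) (dT (d.SD3_V y11 y12 y22) i q) := by
    rw [d.SD3_D1U h11 h12 h22 z11 z12 z22 hq, inner_add_right, inner_smul_right, inner_smul_right]
    have e2' : inner ℝ (d.F0 i q) (dX e1 (d.SD3_V y11 y12 y22) i q) =
        inner ℝ (pd e1 d.Fr.f q.1) (dX e1 (d.SD3_V y11 y12 y22) i q) +
        inner ℝ (d.Lz i q) (dX e1 (d.SD3_V y11 y12 y22) i q) := by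
      rw [← inner_add_left]
      rfl
    rw [e2']
    ring
  have e3' := d.SD3_F0 h11 h12 h22 z11 z12 z22 hq
  rw [inner_sub_left]
  linear_combination (2 : ℝ) * e1' + (1 + pd e1 (ψ i) q.1) * e3'

theorem SD3_12 : OP d.A (k + 1) (fun i q =>
    inner ℝ (DD e1 ψ FF i q) (DD e2 ψ (d.UU y11 y12 y22) i q) +
      inner ℝ (DD e2 ψ FF i q) (DD e1 ψ (d.UU y11 y12 y22) i q) +
      inner ℝ (DD e1 ψ (d.UU y11 y12 y22) i q) (DD e2 ψ (d.UU y11 y12 y22) i q) +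
      y12 i q) := by
  have hVV := d.SD3_OPV h11 h12 h22 z11 z12 z22
  have hU := d.OP_UU h11 h12 h22 z11 z12 z22
  have hψ1 : OX d.A 0 2 (fun i x => pd e1 (ψ i) x) := hψ.pd e1
  have hD1 : OT d.A 1 k (DD e1 ψ (d.UU y11 y12 y22)) := by
    have h := hU.1.DD1 hψ
    rwa [add_sub_cancel_right] at h
  have hD2 : OP d.A (k + 1) (DD e2 ψ (d.UU y11 y12 y22)) := OP.DD2 hψ hU
  have t1 : OP d.A (k + 1) (fun i q =>
      inner ℝ (pd e1 d.Fr.f q.1) (DD e2 ψ (d.UU y11 y12 y22) i q)) :=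
    (OP.innerX d.OX_f1 hD2).mono (by omega)
  have t2 : OP d.A (k + 1) (fun i q =>
      inner ℝ (DD e1 ψ FF i q - pd e1 d.Fr.f q.1) (DD e2 ψ (d.UU y11 y12 y22) i q)) :=
    OP.of2 (((d.D1_sub' hV hψ).inner hD2.1).mono (by norm_num) (by omega))
  have t3 : OP d.A (k + 1) (fun i q =>
      inner ℝ (DD e2 ψ FF i q - pd e2 d.Fr.f q.1) (DD e1 ψ (d.UU y11 y12 y22) i q)) :=
    OP.of2 (((d.D2_sub hV hψ).inner hD1).mono (by norm_num) (by omega))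
  have t4 : OP d.A (k + 1) (fun i q => pd e1 (ψ i) q.1 * y12 i q) :=
    (OP.mulX hψ1 (OP.ofMz h12 z12)).mono (by omega)
  have t5 : OP d.A (k + 1) (fun i q => (i : ℝ) *
      inner ℝ (pd e2 d.Fr.f q.1) (dX e1 (d.SD3_V y11 y12 y22) i q)) := by
    have a1 := (OP.innerX d.OX_f2 (hVV.dX e1)).eps 1
    refine (a1.mono (by omega)).congr fun i q _ => ?_
    rw [zpow_one, smul_eq_mul]
  have t6 : OP d.A (k + 1) (fun i q =>
      inner ℝ (DD e1 ψ (d.UU y11 y12 y22) i q) (DD e2 ψ (d.UU y11 y12 y22) i q)) :=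
    OP.of2 ((hD1.inner hD2.1).mono (by norm_num) (by omega))
  refine (((((t1.add t2).add t3).sub t4).add t5).add t6).congr fun i q hq => ?_
  have e1' : inner ℝ (pd e2 d.Fr.f q.1) (DD e1 ψ (d.UU y11 y12 y22) i q) =
      (i : ℝ) * inner ℝ (pd e2 d.Fr.f q.1) (dX e1 (d.SD3_V y11 y12 y22) i q) +
      (1 + pd e1 (ψ i) q.1) *
        inner ℝ (pd e2 d.Fr.f q.1) (dT (d.SD3_V y11 y12 y22) i q) := by
    rw [d.SD3_D1U h11 h12 h22 z11 z12 z22 hq, inner_add_right, inner_smul_right, inner_smul_right]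
  have e3' := d.SD3_f2 h11 h12 h22 z11 z12 z22 hq
  rw [inner_sub_left, inner_sub_left]
  linear_combination e1' + (1 + pd e1 (ψ i) q.1) * e3'

end ED

end P205F.EE
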