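import Vale.Agent.Lib.P205E.SA
import Vale.Agent.Lib.P205E.SB
import Vale.Agent.Lib.P205E.SC
import Vale.Agent.Lib.P205E.SD

/-! # P205E module SI: the induction -/

open scoped ContDiff
open Set

namespace P205F.EE

namespace ED

theorem state_all (d : ED) (K : ℕ) (hK : 2 ≤ K) :
    ∃ FF ψ, d.StE K K K K (K + 1) FF ψ := by
  induction K, hK using Nat.le_induction with
  | base =>
    obtain ⟨FF, h⟩ := d.start
    exact ⟨FF, _, h⟩
  | succ n hn ih =>
    obtain ⟨FF, ψ, h⟩ := ih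
    have hn' : (2 : ℤ) ≤ n := by exact_mod_cast hn
    obtain ⟨FF1, h1⟩ := d.stepA hn' h
    obtain ⟨ψ1, h2⟩ := d.stepB hn' h1
    obtain ⟨FF2, h3⟩ := d.stepD (by omega) h2
    obtain ⟨FF3, h4⟩ := d.stepC hn' h3
    refine ⟨FF3, ψ1, ?_⟩
    have e1 : ((n + 1 : ℕ) : ℤ) = (n : ℤ) + 1 := by push_cast; ring
    rw [e1]
    have e2 : (n : ℤ) + 1 + 1 = n + 2 := by ring
    rw [e2]
    exact h4

end ED

end P205F.EE
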